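import Crest.Agent.N207.Ph.St
import Crest.Agent.N207.I.NkRot
import Crest.Agent.N207.Rad.Crd
import Crest.Agent.N207.GE.Dist
import Crest.Agent.N207.G.Jb
import Crest.Agent.N207.V.Gv2

/-!
# Row 207, block PHI (helper97): Euclidean tools for `AD`
-/

set_option autoImplicit false
set_option linter.unusedSectionVars false

open scoped ContDiff Manifold Topology
open Set MeasureTheory Filter Metric
open Crest.GeometryTopology.CoordMetric Crest.GeometryTopology.ChartCurvature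
  Crest.GeometryTopology.MetricFamily
open Crest.Agent.R202.Tens

noncomputable section

namespace Crest.Agent.N207.Ph.Ad

open Sk

variable {G : MetricField 4} {u δ δ' : ℝ} {x y : E4} {ψ : E4 ≃ₜ E4} {m m' : ℕ}

/-! ### curvature from jets -/

theorem jg_scal {U : Set E4} (hG : IsRiemannianOn G U) (hx : x ∈ U) {s η : ℝ} (h : JG m G x s η)
    (hη : η ≤ 1 / 100) (hm : 2 ≤ m) (hs : 1 ≤ s) : |scalarCurv G x| ≤ 120000 * η := by
  have h1 := Rad.jg_rm hG hx h hη hm (by linarith)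
  have h2 := V.nr_ric hG hx
  have h3 := V.abs_scal_le hG hx
  rw [V.sqrt_four] at h2 h3
  have h4 : η / s ^ 2 ≤ η := div_le_self (Rad.jg_nonneg h) (one_le_pow₀ hs)
  simp only [V.nr] at h2 h3
  linarith

theorem jg_ric {U : Set E4} (hG : IsRiemannianOn G U) (hx : x ∈ U) {s η : ℝ} (h : JG m G x s η)
    (hη : η ≤ 1 / 100) (hm : 2 ≤ m) (hs : 1 ≤ s) (i j : Fin 4) :
    ricci G x i j ^ 2 ≤ (120000 * η) ^ 2 := by
  have h1 := Rad.jg_rm hG hx h hη hm (by linarith)
  have h2 := V.nr_ric hG hx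
  rw [V.sqrt_four] at h2
  have h4 : η / s ^ 2 ≤ η := div_le_self (Rad.jg_nonneg h) (one_le_pow₀ hs)
  have h5 : ricci G x i j ^ 2 ≤ 2 ^ 2 * nsq G (ricT G) x :=
    Ar.comp_sq_le (hG.posDef x hx) (Rad.jg_up h hη) (ricT G x) ![i, j]
  have h6 := Real.sq_sqrt (AI.nsq_nonneg hG hx (ricT G))
  have h7 : √(nsq G (ricT G) x) ≤ 60000 * η := by simp only [V.nr] at h2; linarith
  nlinarith [Real.sqrt_nonneg (nsq G (ricT G) x)]

theorem jg_det {s η : ℝ} (h : JG m G x s η) (hη : η ≤ 1 / 100) : √(G x).det ≤ 2 := by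
  have h1 := h.near.sqrt_det_le
  have h2 := h.near.nonneg
  nlinarith

/-! ### the flat metric -/

theorem riem_flat : IsRiemannianOn flat univ :=
  ⟨isOpen_univ, fun _ _ => contDiffOn_const, fun _ _ => Matrix.PosDef.one⟩

theorem fl_flat : Fl flat := ⟨riem_flat, 0, fun _ _ => rfl⟩

theorem jg_flat (m : ℕ) (x : E4) (s : ℝ) {c : ℝ} (hc : 0 ≤ c) : JG m flat x s c := by
  intro k _ i j
  have : dv flat i j = fun _ => 0 := funext fun _ => sub_self _
  rw [J1, this, iteratedFDeriv_fun_zero, Pi.zero_apply, norm_zero, zero_mul]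
  exact hc

theorem ricci_flat (x : E4) (i j : Fin 4) : ricci flat x i j = 0 := by
  have := jg_ric riem_flat (mem_univ x) (jg_flat 2 x 1 le_rfl) (by norm_num) le_rfl le_rfl i j
  simpa using this

theorem scal_flat (x : E4) : scalarCurv flat x = 0 := by
  simpa using jg_scal riem_flat (mem_univ x) (jg_flat 2 x 1 le_rfl) (by norm_num) le_rfl le_rfl

theorem ricci_of_ev (h : ∀ᶠ z in 𝓝 x, G z = 1) (i j : Fin 4) : ricci G x i j = 0 := by
  rw [ricci_congr (G' := flat) h, ricci_flat]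

theorem scal_of_ev (h : ∀ᶠ z in 𝓝 x, G z = 1) : scalarCurv G x = 0 := by
  rw [scal_congr (G' := flat) h, scal_flat]

theorem EH_flat : EH flat = 0 := by simp [EH, scal_flat]

theorem RL_flat (c : ℝ) : RL flat c = 0 := by simp [RL, ricci_flat]

theorem BL_flat : BL flat = 0 := by
  have h : ∀ x, Lg.TG flat flat x = 0 := fun x => by
    rw [Lg.TG, cov_met riem_flat (mem_univ x)]; rfl
  simp [BL, Lg.gauT, h, Lg.gv, Lg.uT, Lg.vT, Lg.tr2]

theorem RD_flat (G : MetricField 4) : RD flat G = RL G 0 := by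
  simp [RD, RL, ricci_flat]

/-! ### metrics which are flat outside a ball -/

theorem cpt_of_far {f : E4 → ℝ} (hG : Fl G) (h : ∀ x, (∀ᶠ z in 𝓝 x, G z = 1) → f x = 0) :
    HasCompactSupport f := by
  obtain ⟨R, hR⟩ := hG.flat
  refine HasCompactSupport.intro (isCompact_closedBall 0 R) fun x hx => h x ?_
  rw [mem_closedBall_zero_iff, not_le] at hx
  filter_upwards [(isOpen_lt continuous_const continuous_norm).mem_nhds hx] with z hz
  exact hR z hz.le

theorem cont_ric (hG : Fl G) (i j : Fin 4) : Continuous fun x => ricci G x i j :=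
  continuousOn_univ.1 (sm_ricci hG.riem i j).continuousOn

theorem int_ric (hG : Fl G) :
    Integrable fun x : E4 => ‖x‖ ^ 2 * ∑ i, ∑ j, ricci G x i j ^ 2 := by
  refine Continuous.integrable_of_hasCompactSupport ?_ (cpt_of_far hG fun x hx => ?_)
  · exact (continuous_norm.pow 2).mul (continuous_finset_sum _ fun i _ =>
      continuous_finset_sum _ fun j _ => (cont_ric hG i j).pow 2)
  · simp [ricci_of_ev hx]

theorem cont_eh (hG : Fl G) : Continuous fun x => √(G x).det * scalarCurv G x :=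
  continuousOn_univ.1 ((sm_sqrt_det hG.riem).mul (sm_scal hG.riem)).continuousOn

theorem int_eh (hG : Fl G) {f : E4 → ℝ} (hf : Continuous f) :
    Integrable fun x => f x * (√(G x).det * scalarCurv G x) :=
  (hf.mul (cont_eh hG)).integrable_of_hasCompactSupport
    (cpt_of_far hG fun x hx => by simp [scal_of_ev hx])

theorem int_eh' (hG : Fl G) : Integrable fun x => √(G x).det * scalarCurv G x := by
  simpa using int_eh hG (f := fun _ => 1) continuous_const

theorem ric_nonneg (G : MetricField 4) (x : E4) : 0 ≤ ‖x‖ ^ 2 * ∑ i, ∑ j, ricci G x i j ^ 2 := by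
  positivity

theorem RL_nonneg (G : MetricField 4) (c : ℝ) : 0 ≤ RL G c :=
  integral_nonneg fun x => ric_nonneg G x

theorem meas_ge (c : ℝ) : MeasurableSet {x : E4 | c ≤ ‖x‖} :=
  (isClosed_le continuous_const continuous_norm).measurableSet


/-- the volume of the ball of radius `12` -/
def vb : ℝ := volume.real (closedBall (0 : E4) 12)

theorem vb_nonneg : 0 ≤ vb := measureReal_nonneg

theorem abs_int_le {f : E4 → ℝ} {c : ℝ} (h : ∀ x, ‖x‖ ≤ 12 → |f x| ≤ c)
    (h0 : ∀ x, 12 < ‖x‖ → f x = 0) : |∫ x, f x| ≤ c * vb := by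
  rw [← setIntegral_eq_integral_of_forall_compl_eq_zero (s := closedBall 0 12) fun x hx =>
    h0 x (by rwa [mem_closedBall_zero_iff, not_le] at hx)]
  exact norm_setIntegral_le_of_norm_le_const (f := f) (μ := volume) (s := closedBall 0 12)
    measure_closedBall_lt_top fun x hx => h x (mem_closedBall_zero_iff.1 hx)

theorem RL_le (hG : Fl G) {c B : ℝ} (hB : ∀ x : E4, ‖x‖ < 1 → ∀ i j, ricci G x i j ^ 2 ≤ B) :
    RL G c ≤ RL G 1 + 16 * B * vb := by
  have hB0 : 0 ≤ B := (sq_nonneg _).trans (hB 0 (by simp) 0 0)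
  have h1 : RL G c ≤ ∫ x : E4, ‖x‖ ^ 2 * ∑ i, ∑ j, ricci G x i j ^ 2 :=
    setIntegral_le_integral (int_ric hG) (Eventually.of_forall (ric_nonneg G))
  rw [← integral_add_compl (meas_ge 1) (int_ric hG), ← integral_indicator (meas_ge 1).compl] at h1
  refine h1.trans (add_le_add_right ((le_abs_self _).trans (abs_int_le (fun x _ => ?_)
    fun x hx => indicator_of_notMem (by simp only [mem_compl_iff, mem_setOf_eq, not_not]; linarith) _)) _)
  by_cases hx : x ∈ {x : E4 | 1 ≤ ‖x‖}ᶜ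
  · rw [indicator_of_mem hx, abs_of_nonneg (ric_nonneg G x)]
    have h2 : ‖x‖ < 1 := not_le.1 hx
    have h3 : ∑ i, ∑ j, ricci G x i j ^ 2 ≤ ∑ _i : Fin 4, ∑ _j : Fin 4, B :=
      Finset.sum_le_sum fun i _ => Finset.sum_le_sum fun j _ => hB x h2 i j
    have h4 : ‖x‖ ^ 2 ≤ 1 := pow_le_one₀ (norm_nonneg _) h2.le
    simp only [Finset.sum_const, Finset.card_univ, Fintype.card_fin, nsmul_eq_mul] at h3
    calc _ ≤ 1 * (((4 : ℕ) : ℝ) * (((4 : ℕ) : ℝ) * B)) :=
          mul_le_mul h4 h3 (by positivity) zero_le_one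
      _ = _ := by push_cast; ring
  · rw [indicator_of_notMem hx, abs_zero]; positivity

theorem RL_zero {c : ℝ} (h : ∀ x : E4, ‖x‖ < c → ∀ i j, ricci G x i j = 0) :
    RL G 0 = RL G c := by
  rw [RL, RL, setIntegral_eq_integral_of_forall_compl_eq_zero (s := {x : E4 | 0 ≤ ‖x‖})
    fun x hx => absurd (norm_nonneg x) hx,
    setIntegral_eq_integral_of_forall_compl_eq_zero (s := {x : E4 | c ≤ ‖x‖}) fun x hx => ?_]
  simp [h x (not_le.1 hx)]

theorem ds_nonneg (h : DS m G δ) : 0 ≤ δ := by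
  obtain ⟨ε, -, h1, -⟩ := h
  simpa using h1 0

theorem ds_sml (h : DS m G δ) (hm : m' ≤ m) : Sml m' G δ := by
  obtain ⟨ε, h0, h1, h2⟩ := h
  intro y
  obtain ⟨l, hl, hl'⟩ := exists_nat_pow_near (x := ‖y‖ + 1) (y := 2)
    (by linarith [norm_nonneg y]) one_lt_two
  refine Rad.jg_mono (h2 l y hl hl'.le) hm (le_trans ?_ (h1 (l + 1)))
  exact Finset.single_le_sum (fun i _ => h0 i) (Finset.self_mem_range_succ l)

theorem sml_mono (h : Sml m G δ) (hδ : δ ≤ δ') : Sml m G δ' :=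
  fun y => Rad.jg_mono (h y) le_rfl hδ

theorem ricB_mono {e e' : ℝ} (h : RicB G e) (he : e ≤ e') : RicB G e' := by
  obtain ⟨J, h0, h1, h2⟩ := h
  exact ⟨J, h0, fun n => (h1 n).trans he, h2⟩

/-! ### dilations -/

theorem rs_eq (G : MetricField 4) (u : ℝ) : rs G u = I.rot G u 1 := by
  funext x; ext p q
  simp [rs, I.rot, EuclideanSpace.single_apply]

theorem riem_rs {U : Set E4} (hu : 0 < u) (h : IsRiemannianOn G U) :
    IsRiemannianOn (rs G u) {x | u • x ∈ U} := by
  rw [rs_eq]; exact I.riem_rot hu 1 h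

theorem ricci_rs {U : Set E4} (hu : 0 < u) (h : IsRiemannianOn G U) (hx : u • x ∈ U)
    (p q : Fin 4) : ricci (rs G u) x p q = u ^ 2 * ricci G (u • x) p q := by
  rw [rs_eq, I.ricci_rot hu h hx]
  simp [EuclideanSpace.single_apply]

theorem scal_rs {U : Set E4} (hu : 0 < u) (h : IsRiemannianOn G U) (hx : u • x ∈ U) :
    scalarCurv (rs G u) x = u ^ 2 * scalarCurv G (u • x) := by
  simp only [AI.scal_eq_trT, trT_zero_rank, ricT, Matrix.cons_val_zero, Matrix.cons_val_one,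
    ricci_rs hu h hx, rs, Finset.mul_sum]
  exact Finset.sum_congr rfl fun _ _ => Finset.sum_congr rfl fun _ _ => by ring

theorem j1_rs (hu : 0 < u) {f : E4 → ℝ} {k : ℕ} {s c : ℝ} (hs : u * ‖x‖ ≤ s)
    (h : J1 k f (u • x) s c) : J1 k (fun z => f (u • z)) x ‖x‖ c := by
  refine le_trans ?_ h
  calc _ ≤ ‖iteratedFDeriv ℝ k f (u • x)‖ * u ^ k * ‖x‖ ^ k :=
        mul_le_mul_of_nonneg_right (G.norm_comp_smul f hu x k) (by positivity)
    _ ≤ _ := by
        rw [mul_assoc, ← mul_pow]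
        exact mul_le_mul_of_nonneg_left (pow_le_pow_left₀ (by positivity) hs k) (norm_nonneg _)

theorem int_rs (hu : 0 < u) (f : E4 → ℝ) : ∫ x, f (u⁻¹ • x) = u ^ 4 * ∫ x, f x := by
  rw [Measure.integral_comp_inv_smul_of_nonneg volume f hu.le]
  simp

/-! ### maps close to the identity -/

theorem nid_mono (h : Nid m ψ δ) (hm : m' ≤ m) (hδ : δ ≤ δ') : Nid m' ψ δ' :=
  ⟨h.sm, h.sm', h.out, fun y k hk => (h.jet y k (hk.trans hm)).trans
    (mul_le_mul_of_nonneg_right hδ (by positivity)), h.zero⟩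

theorem nid_fderiv (h : Nid 1 ψ δ) (y : E4) : ‖fderiv ℝ (fun z => ψ z - z) y‖ ≤ δ := by
  have h1 := h.jet y 1 le_rfl
  rw [J1, norm_iteratedFDeriv_one, pow_one] at h1
  exact le_of_mul_le_mul_right h1 (by positivity)

theorem nid_norm (h : Nid 1 ψ δ) (y : E4) : ‖ψ y - y‖ ≤ δ * ‖y‖ := by
  have hd : Differentiable ℝ fun z => ψ z - z := (h.sm.sub contDiff_id).differentiable (by simp)
  have := convex_univ.norm_image_sub_le_of_norm_fderiv_le (𝕜 := ℝ) (fun z _ => hd z)
    (fun z _ => nid_fderiv h z) (mem_univ 0) (mem_univ y)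
  simpa [h.zero] using this

theorem nid_abs (h : Nid 1 ψ δ) (y : E4) : |‖ψ y‖ - ‖y‖| ≤ δ * ‖y‖ :=
  (abs_norm_sub_norm_le _ _).trans (nid_norm h y)

theorem nid_inj (h : Nid 1 ψ δ) (hδ : δ < 1) (y : E4) : Function.Injective (fderiv ℝ ψ y) := by
  rw [injective_iff_map_eq_zero]
  intro v hv
  have h1 : fderiv ℝ (fun z => ψ z - z) y v = -v := by
    rw [fderiv_fun_sub (h.sm.differentiable (by simp) y) differentiableAt_fun_id]
    simp [hv]
  have h2 := (fderiv ℝ (fun z => ψ z - z) y).le_of_opNorm_le (nid_fderiv h y) v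
  rw [h1, norm_neg] at h2
  exact norm_eq_zero.1 (by nlinarith [norm_nonneg v])

theorem pbm_apply (ψ : E4 → E4) (G : MetricField 4) (y : E4) (i j : Fin 4) : pbm ψ G y i j =
    ∑ a, ∑ b, G (ψ y) a b * fderiv ℝ ψ y (EuclideanSpace.single i 1) a *
      fderiv ℝ ψ y (EuclideanSpace.single j 1) b := by
  rw [pbm, Matrix.of_apply, pullT, AI.evT_matT, bil_apply]
  rfl

theorem pull_pbm (h : Nid 1 ψ δ) (hδ : δ < 1) (hG : IsRiemannianOn G univ) :
    Pull (pbm ψ G) G ψ univ univ :=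
  ⟨isOpen_univ, hG, fun _ _ => mem_univ _, h.sm.contDiffOn, fun y _ => pbm_apply ψ G y,
    fun y _ => nid_inj h hδ y⟩

/-- change of variables -/
theorem int_pbm (h : Nid 1 ψ δ) (hδ : δ < 1) (hG : IsRiemannianOn G univ) (f : E4 → ℝ) :
    ∫ y, f (ψ y) * (√(pbm ψ G y).det * scalarCurv (pbm ψ G) y) =
      ∫ x, f x * (√(G x).det * scalarCurv G x) := by
  have p := pull_pbm h hδ hG
  have h1 := integral_image_eq_integral_abs_det_fderiv_smul volume MeasurableSet.univ
    (fun y _ => (h.sm.differentiable (by simp) y).hasFDerivAt.hasFDerivWithinAt)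
    ψ.injective.injOn fun x => f x * (√(G x).det * scalarCurv G x)
  rw [image_univ, ψ.surjective.range_eq, Measure.restrict_univ] at h1
  rw [h1]
  refine integral_congr_ae (Eventually.of_forall fun y => ?_)
  simp only [V.sqrt_det_pull p (mem_univ y), AI.scalarCurv_pull p (mem_univ y), smul_eq_mul]
  ring

end Crest.Agent.N207.Ph.Ad

end
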