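import Crest.Agent.N207.Ph.Cm1

-- ▼ part N207/Ph/Cm
section

/-!
# Row 207, block PHI (helper33): the filled chart metric
-/

set_option autoImplicit false
set_option linter.unusedSectionVars false

open scoped ContDiff Manifold Topology
open Set Filter
open Crest.GeometryTopology.CoordMetric Crest.GeometryTopology.ChartCurvature
  Crest.GeometryTopology.MetricFamily

noncomputable section

namespace Crest.Agent.N207.Ph

open Sk G Cm

variable {M : Type*} [TopologicalSpace M] [ChartedSpace E4 M] [IsManifold 𝓘(ℝ, E4) ∞ M]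
  [CompactSpace M] [T3Space M] [ConnectedSpace M] [MeasurableSpace M] [BorelSpace M]

namespace Cm

variable {g : Met 4 M} {N : Nk M} {ρ η V : ℝ} {m1 : ℕ} {Cs : ℕ → ℝ} {y : E4}

theorem cm_eq (g : Met 4 M) (N : Nk M) (u : ℝ) :
    cm g N u = cg (g.pm N.Ψ) u (N.b / (16 * u)) := by
  rw [cm, cg, show N.b / (8 * u) = 2 * (N.b / (16 * u)) by ring]

theorem rho_pos (h : Rng N ρ) : 0 < ρ := by linarith [h.top.a_pos, h.a_le]

theorem u_pos (h : Rng N ρ) : 0 < ρ / 64 := by linarith [rho_pos h]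

theorem b_pos (h : Rng N ρ) : 0 < N.b := by linarith [rho_pos h, h.le_b]

theorem uB (h : Rng N ρ) : ρ / 64 * (N.b / (16 * (ρ / 64))) = N.b / 16 := by
  have := rho_pos h
  field_simp

theorem one_le_B (h : Rng N ρ) : 1 ≤ N.b / (16 * (ρ / 64)) := by
  rw [le_div_iff₀ (by linarith [rho_pos h])]
  linarith [rho_pos h, h.le_b]

theorem norm_u (h : Rng N ρ) (y : E4) : ‖(ρ / 64) • y‖ = ρ / 64 * ‖y‖ := by
  rw [norm_smul, Real.norm_of_nonneg (u_pos h).le]

theorem mem_sh (h : Rng N ρ) (y : E4) (h1 : 1 / 4 ≤ ‖y‖) (h2 : ‖y‖ ≤ 2 * (N.b / (16 * (ρ / 64)))) :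
    (ρ / 64) • y ∈ shell N.a N.b := by
  have a1 := mul_le_mul_of_nonneg_left h1 (u_pos h).le
  have a2 := mul_le_mul_of_nonneg_left h2 (u_pos h).le
  have := uB h
  refine ⟨?_, ?_⟩ <;> rw [norm_u h] <;> nlinarith [h.a_le, rho_pos h, b_pos h]

theorem wt_le {a b : ℝ} (ha : 0 < a) {x : E4} (hx : x ∈ shell a b) : wt a b x ≤ 2 := by
  have h0 := ha.trans hx.1
  have h1 : √(a / ‖x‖) ≤ 1 := Real.sqrt_le_one.2 ((div_le_one h0).2 hx.1.le)
  have h2 : √(‖x‖ / b) ≤ 1 := Real.sqrt_le_one.2 ((div_le_one (h0.trans hx.2)).2 hx.2.le)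
  unfold wt
  linarith

theorem eta_nonneg (h : N.Top) (hg : Good g N m1 η Cs V) : 0 ≤ η := by
  have ha := h.a_pos
  have hb := h.a_lt
  obtain ⟨x, hx⟩ := exists_norm_eq E4 (c := (N.a + N.b) / 2) (by linarith)
  have h1 := U.jg_nonneg (hg.jet x ⟨by linarith, by linarith⟩)
  have h2 : 0 < wt N.a N.b x := add_pos_of_pos_of_nonneg
    (Real.sqrt_pos.2 (div_pos ha (by linarith))) (Real.sqrt_nonneg _)
  exact nonneg_of_mul_nonneg_left h1 h2

theorem cm_fl (g : Met 4 M) (h : Rng N ρ) : Fl (cm g N (ρ / 64)) := by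
  rw [cm_eq]
  exact cg_fl (one_le_B h) (V.par_riem h.top.par g) (mem_sh h)

theorem pm_ia (g : Met 4 M) (h : N.Top) {γ : Iso} (hγ : γ ∈ N.Γ) {x : E4}
    (hx : x ∈ shell N.a N.b) : IA γ (g.pm N.Ψ x) (g.pm N.Ψ (γ x)) := by
  have hs : ∀ z ∈ shell N.a N.b, γ z ∈ shell N.a N.b := fun z hz => by
    simpa only [shell, mem_ofPred_eq, γ.norm_map] using hz
  have h1 := (pm_ev g h.par (T := γ) γ.contDiff.contDiffAt (hs x hx)).self_of_nhds
  have h2 : N.Ψ =ᶠ[𝓝 x] fun w => N.Ψ (γ w) := mem_of_superset (h.par.isOpen.mem_nhds hx)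
    fun z hz => (h.fib z hz _ (hs z hz)).2 ⟨γ, hγ, rfl⟩
  intro i j
  rw [(pm_ev_congr g h2).self_of_nhds, h1 i j]
  simp only [fderiv_iso]

theorem cm_inv (g : Met 4 M) (h : Rng N ρ) : Inv N.Γ (cm g N (ρ / 64)) := by
  have hB := one_le_B h
  rw [cm_eq]
  refine inv_of_ia fun γ hγ y => glu_ia γ (by linarith) (by linarith) (fun h1 => glu_ia γ
    (by norm_num) (by norm_num) (fun _ => ia_one γ) fun h2 => ?_) fun _ => ia_one γ
  simpa only [rs, map_smul] using pm_ia g h.top hγ (mem_sh h y h2 h1)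

/-- jets of the filled metric -/
theorem cm_jg (m : ℕ) : ∃ C : ℝ, 0 < C ∧ ∀ (g : Met 4 M) (N : Nk M) (ρ : ℝ), Rng N ρ →
    ∀ (y : E4) (c : ℝ), 0 ≤ c → (1 / 4 ≤ ‖y‖ → ‖y‖ ≤ 2 * (N.b / (16 * (ρ / 64))) →
      JG m (g.pm N.Ψ) ((ρ / 64) • y) ‖(ρ / 64) • y‖ c) →
      JG m (cm g N (ρ / 64)) y (‖y‖ + 1) (C * c) := by
  obtain ⟨C, hC, h⟩ := cg_jg m
  refine ⟨C, hC, fun g N ρ r y c hc hj => ?_⟩
  rw [cm_eq]
  exact h _ _ _ _ (u_pos r) (one_le_B r) (V.par_riem r.top.par g) (mem_sh r) y c hc hj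

variable (M) in
theorem cm_wt : ∃ C : ℝ, 0 < C ∧ ∀ (g : Met 4 M) (N : Nk M) (m1 : ℕ) (η V ρ : ℝ) (Cs : ℕ → ℝ),
    4 ≤ m1 → Rng N ρ → Good g N m1 η Cs V → ∀ (y : E4) (c : ℝ), 0 ≤ c →
    (1 / 4 ≤ ‖y‖ → ‖y‖ ≤ 2 * (N.b / (16 * (ρ / 64))) → wt N.a N.b ((ρ / 64) • y) ≤ c) →
      JG 4 (cm g N (ρ / 64)) y (‖y‖ + 1) (C * (η * min 2 c)) := by
  obtain ⟨C, hC, h⟩ := cm_jg (M := M) 4
  refine ⟨C, hC, fun g N m1 η V ρ Cs hm r hg y c hc hw => ?_⟩
  have hη := eta_nonneg r.top hg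
  refine h g N ρ r y _ (by positivity) fun h1 h2 => U.jg_mono (hg.jet _ (mem_sh r y h1 h2)) hm ?_
  exact mul_le_mul_of_nonneg_left (le_min (wt_le r.top.a_pos (mem_sh r y h1 h2)) (hw h1 h2)) hη

theorem wt_lin (h : Rng N ρ) (h1 : 1 / 4 ≤ ‖y‖) {t : ℝ} (ht : 1 ≤ t) (h2 : ‖y‖ ≤ 64 * t) :
    wt N.a N.b ((ρ / 64) • y) ≤ 16 * t * (√(N.a / ρ) + √(ρ / N.b)) := by
  have hρ := rho_pos h
  have hb := b_pos h
  have ha := h.top.a_pos
  have a1 : √(N.a / (ρ / 64 * ‖y‖)) ≤ 16 * √(N.a / ρ) := by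
    rw [Real.sqrt_le_left (by positivity), mul_pow, Real.sq_sqrt (by positivity), ← mul_div_assoc,
      div_le_div_iff₀ (by positivity) hρ]
    nlinarith [mul_le_mul_of_nonneg_left h1 (mul_pos ha hρ).le]
  have a2 : √(ρ / 64 * ‖y‖ / N.b) ≤ t * √(ρ / N.b) := by
    rw [Real.sqrt_le_left (by positivity), mul_pow, Real.sq_sqrt (by positivity), ← mul_div_assoc]
    refine div_le_div_of_nonneg_right ?_ hb.le
    nlinarith [mul_le_mul_of_nonneg_left h2 hρ.le, mul_le_mul_of_nonneg_left ht (mul_pos hρ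
      (lt_of_lt_of_le one_pos ht)).le]
  rw [wt, norm_u h]
  nlinarith [Real.sqrt_nonneg (N.a / ρ), Real.sqrt_nonneg (ρ / N.b)]

theorem wt_dy (h : Rng N ρ) (h1 : 1 / 4 ≤ ‖y‖) (h2 : ‖y‖ ≤ 2 * (N.b / (16 * (ρ / 64)))) {l : ℕ}
    (h3 : 2 ^ l ≤ ‖y‖ + 1) (h4 : ‖y‖ + 1 ≤ 2 ^ (l + 1)) :
    wt N.a N.b ((ρ / 64) • y) ≤ √(1 / 2 ^ l) + if (2 : ℝ) ^ l ≤ 3 * (N.b / (16 * (ρ / 64))) then
      √(ρ / (32 * N.b) * 2 ^ l) else 0 := by
  have hρ := rho_pos h
  have hb := b_pos h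
  have ha := h.top.a_pos
  rw [if_pos (by linarith [one_le_B h]), wt, norm_u h]
  refine add_le_add (Real.sqrt_le_sqrt ?_) (Real.sqrt_le_sqrt ?_)
  · rw [div_le_div_iff₀ (by positivity) (by positivity)]
    have : (2 : ℝ) ^ l ≤ 5 * ‖y‖ := by linarith
    nlinarith [mul_le_mul_of_nonneg_left this ha.le, mul_le_mul_of_nonneg_right h.a_le
      (norm_nonneg y)]
  · rw [pow_succ] at h4
    calc ρ / 64 * ‖y‖ / N.b ≤ ρ / 64 * (2 ^ l * 2) / N.b := by gcongr; linarith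
      _ = _ := by ring

end Cm

variable (M) in
theorem cmS : CMStmt M := by
  obtain ⟨C1, hC1, h1⟩ := cm_wt M
  obtain ⟨C2, hC2, h2⟩ := ric_jg 1
  choose C3 hC3 h3 using cm_jg (M := M)
  refine ⟨1 / (16 * C1), 16 * C1 + 32 * C2 * C1, by positivity, by positivity, fun Cs =>
    ⟨fun k => C3 k * ((∑ i ∈ Finset.range (k + 1), |Cs i|) * 2),
      fun g N m1 η V ρ hm hη r hg => ?_⟩⟩
  have hη0 := eta_nonneg r.top hg
  have hρ := rho_pos r
  have hb := b_pos r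
  have h4 := h1 g N m1 η V ρ Cs hm r hg
  set S := √(N.a / ρ) + √(ρ / N.b)
  have hS : 0 ≤ S := by positivity
  have k1 : 0 ≤ C1 * η := by positivity
  have k2 : 0 ≤ C2 * C1 * η := by positivity
  refine ⟨cm_fl g r, cm_inv g r, ⟨fun l => C1 * η * (√(1 / 2 ^ l) +
    if (2 : ℝ) ^ l ≤ 3 * (N.b / (16 * (ρ / 64))) then √(ρ / (32 * N.b) * 2 ^ l) else 0),
    fun l => by positivity, fun n => ?_, fun l y a1 a2 => ?_⟩, fun y k i j => ?_,
    ⟨fun l => C2 * C1 * η * 16 * S / 2 ^ l, fun l => by positivity, fun n => ?_,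
      fun l y a1 a2 k hk i j => ?_⟩, fun y hy => ?_⟩
  · rw [← Finset.mul_sum, Finset.sum_add_distrib]
    have b1 := dy_dn zero_le_one n
    have b2 := dy_up (β := ρ / (32 * N.b)) (X := 3 * (N.b / (16 * (ρ / 64)))) (by positivity) n
    have b3 : √(ρ / (32 * N.b) * (3 * (N.b / (16 * (ρ / 64))))) ≤ 1 := Real.sqrt_le_one.2 (by
      rw [show ρ / (32 * N.b) * (3 * (N.b / (16 * (ρ / 64)))) = 3 / 8 by field_simp; norm_num]
      norm_num)
    rw [Real.sqrt_one] at b1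
    refine (mul_le_mul_of_nonneg_left (add_le_add b1 (b2.trans (by linarith : _ ≤ (4 : ℝ))))
      k1).trans ?_
    nlinarith
  · refine jg_mono (h4 y _ (by positivity) fun b1 b2 => wt_dy r b1 b2 a1 a2) ?_
    rw [← mul_assoc]
    exact mul_le_mul_of_nonneg_left (min_le_right _ _) k1
  · rw [mul_one]
    refine h3 k g N ρ r y _ (by positivity) (fun b1 b2 k' hk' i' j' => ?_) k le_rfl i j
    have b3 := mem_sh r y b1 b2
    refine le_trans (hg.all _ b3 k' i' j') (mul_le_mul ((le_abs_self _).trans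
      (Finset.single_le_sum (f := fun i => |Cs i|) (fun _ _ => abs_nonneg _)
        (Finset.mem_range.2 (Nat.lt_succ_of_le hk')))) (wt_le r.top.a_pos b3) ?_ (by positivity))
    unfold wt
    positivity
  · refine (dy_geo (by positivity) n).trans ?_
    nlinarith [mul_nonneg k1 hS]
  · have b0 : (1 : ℝ) ≤ ‖y‖ := (one_le_pow₀ one_le_two).trans a1
    have b1 := h4 y _ (by positivity) fun b1 _ => wt_lin r b1 b0 (by linarith)
    have b2 : C1 * (η * min 2 (16 * ‖y‖ * S)) ≤ 1 / 8 := by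
      rw [le_div_iff₀ (by positivity)] at hη
      nlinarith [mul_le_mul_of_nonneg_left (min_le_left 2 (16 * ‖y‖ * S)) k1]
    refine le_trans (h2 _ _ y _ _ (cm_fl g r).riem (mem_univ y) (by linarith) b2
      (jg_anti (jg_of_le b1 (by norm_num)) (norm_nonneg y) (by linarith)) k hk i j) ?_
    calc _ ≤ C2 * (C1 * (η * (16 * ‖y‖ * S)) / ‖y‖ ^ 2) := by gcongr; exact min_le_right _ _
      _ = C2 * C1 * η * 16 * S / ‖y‖ := by field_simp
      _ ≤ C2 * C1 * η * 16 * S / 2 ^ l := by gcongr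
  · refine jg_mono (h4 y (16 * 1 * S) (by positivity) fun b1 _ =>
      wt_lin r b1 le_rfl (by linarith)) ?_
    nlinarith [mul_le_mul_of_nonneg_left (min_le_right 2 (16 * 1 * S)) k1, mul_nonneg k2 hS]

end Crest.Agent.N207.Ph

end
end

-- ▼ part N207/Ph/Cv

/-!
# Row 207, block PHI (helper33): from covariant bounds to coordinate bounds
-/

set_option autoImplicit false
set_option linter.unusedSectionVars false

open scoped ContDiff Manifold Topology
open Set Filter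
open Crest.GeometryTopology.CoordMetric Crest.GeometryTopology.ChartCurvature
  Crest.GeometryTopology.MetricFamily

noncomputable section

namespace Crest.Agent.N207.Ph

open Sk G Cm

variable {M : Type*} [TopologicalSpace M] [ChartedSpace E4 M] [IsManifold 𝓘(ℝ, E4) ∞ M]
  [CompactSpace M] [T3Space M] [ConnectedSpace M] [MeasurableSpace M] [BorelSpace M]

variable (M) in
theorem Cm.cov_pm : ∃ C : ℝ, 0 < C ∧ ∀ (g : Met 4 M) (N : Nk M) (m1 : ℕ) (η V : ℝ) (Cs : ℕ → ℝ),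
    4 ≤ m1 → η ≤ 1 / 200 → N.Top → Good g N m1 η Cs V → ∀ x ∈ shell N.a N.b, ∀ J : ℝ,
    (∀ k ≤ 2, ‖x‖ ^ k * √(g.rc k (N.Ψ x)) ≤ J) →
    ∀ k ≤ 2, ∀ i j, J1 k (fun z => ricci (g.pm N.Ψ) z i j) x ‖x‖ (C * J) := by
  obtain ⟨C, hC, h⟩ := cov_jet
  refine ⟨C, hC, fun g N m1 η V Cs hm hη r hg x hx J hJ => h ⟨g.pm N.Ψ, _, x, ‖x‖, J,
    Gs.par_riem g r.par, hx, r.a_pos.trans hx.1, U.jg_mono (hg.jet x hx) (by omega) ?_,
    fun k hk => ?_⟩⟩
  · nlinarith [mul_le_mul_of_nonneg_left (wt_le r.a_pos hx) (eta_nonneg r hg)]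
  · rw [← r.par.par_rc g k hx]
    exact hJ k hk

variable (M) in
theorem cvS : CVStmt M := by
  obtain ⟨C1, hC1, h1⟩ := cm_wt M
  obtain ⟨C2, hC2, h2⟩ := ric_jg 1
  obtain ⟨C3, hC3, h3⟩ := cov_pm M
  refine ⟨min (1 / (16 * C1)) (1 / 200), C3 + C2, by positivity, by positivity,
    fun g N m1 η V ρ e Cs hm hη r hg ⟨J, J0, J1', J2⟩ => ?_⟩
  have hη0 := eta_nonneg r.top hg
  have hρ := rho_pos r
  have hb := b_pos r
  have hu := u_pos r
  have hB := one_le_B r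
  have huB := uB r
  have h4 := h1 g N m1 η V ρ Cs hm r hg
  have h5 := h3 g N m1 η V Cs hm (hη.trans (min_le_right _ _)) r.top hg
  have e0 : ρ ^ 2 ≤ e := by simpa using J2 0
  have e1 : ∀ n, ρ ^ 2 * ∑ l ∈ Finset.range n, J l ≤ e := fun n => by
    nlinarith [J2 n, sq_nonneg ρ]
  have he : 0 ≤ e := (sq_nonneg ρ).trans e0
  set B := N.b / (16 * (ρ / 64)) with hBd
  refine ⟨e0, ⟨fun l => (ρ / 64) ^ 2 * (C3 * J l) + C2 / B ^ 2 *
      if (2 : ℝ) ^ l ≤ 2 * B then √(2 / B * 2 ^ l) else 0, fun l => ?_, fun n => ?_,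
      fun l y a1 a2 k hk i j => ?_⟩, fun x x1 x2 => ?_⟩
  · have := J0 l
    positivity
  · rw [Finset.sum_add_distrib, ← Finset.mul_sum, ← Finset.mul_sum, ← Finset.mul_sum]
    have b1 := dy_up (β := 2 / B) (X := 2 * B) (by positivity) n
    rw [show 2 / B * (2 * B) = 2 ^ 2 by field_simp, Real.sqrt_sq zero_le_two] at b1
    have b2 : C2 / B ^ 2 * (4 * 2) ≤ C2 / N.b ^ 2 * e := by
      rw [show C2 / B ^ 2 * (4 * 2) = C2 / N.b ^ 2 * (ρ ^ 2 / 2) by rw [hBd]; field_simp; norm_num]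
      gcongr
      linarith
    have b3 : C3 * e ≤ C3 / N.b ^ 2 * e := by
      gcongr
      exact le_div_self hC3.le (by positivity) (pow_le_one₀ hb.le r.b_le)
    have b4 := mul_le_mul_of_nonneg_left b1 (show 0 ≤ C2 / B ^ 2 by positivity)
    have b5 := mul_le_mul_of_nonneg_left (e1 n) hC3.le
    rw [add_div, add_mul]
    nlinarith [mul_nonneg hC3.le he]
  · have b0 : (1 : ℝ) ≤ ‖y‖ := (one_le_pow₀ one_le_two).trans a1
    have c0 : 0 ≤ (ρ / 64) ^ 2 * (C3 * J l) := by have := J0 l; positivity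
    have c1 : 0 ≤ C2 / B ^ 2 * if (2 : ℝ) ^ l ≤ 2 * B then √(2 / B * 2 ^ l) else 0 := by positivity
    rcases lt_or_ge ‖y‖ B with c | c
    · have m0 := mem_sh r y (by linarith) (by linarith)
      have hR := Gs.par_riem g r.top.par
      have c2 := h5 _ m0 (J l) (J1' l _ (by rw [norm_u r, mul_comm]; gcongr)
        (by rw [norm_u r, mul_comm]; gcongr) (by rw [norm_u r]; nlinarith)) k (by omega) i j
      have c3 := Ad.j1_rs hu (norm_u r y).ge c2
      have c4 : ContDiffAt ℝ ∞ (fun z => ricci (g.pm N.Ψ) ((ρ / 64) • z) i j) y :=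
        ContDiffAt.comp (g := fun z => ricci (g.pm N.Ψ) z i j) (f := fun z => (ρ / 64) • z) y
          ((SmT.ricT hR ![i, j]).contDiffAt (hR.isOpen.mem_nhds m0)) (by fun_prop)
      refine le_trans (j1_congr (f := fun z => (ρ / 64) ^ 2 * ricci (g.pm N.Ψ) ((ρ / 64) • z) i j)
        (c := (ρ / 64) ^ 2 * (C3 * J l)) ?_ ?_) (le_add_of_nonneg_right c1)
      · unfold J1
        rw [U.norm_itd_cmul c4, abs_of_nonneg (sq_nonneg _), mul_assoc]
        exact mul_le_mul_of_nonneg_left c3 (sq_nonneg _)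
      · rw [cm_eq]
        refine (ric_ev (cg_ev (by linarith) c) i j).trans ?_
        filter_upwards [(Ad.riem_rs hu hR).isOpen.mem_nhds m0] with z hz
        exact Ad.ricci_rs hu hR hz i j
    rcases le_or_gt ‖y‖ (2 * B) with c' | c'
    · have b1 := h4 y 2 zero_le_two fun d1 d2 => wt_le r.top.a_pos (mem_sh r y d1 d2)
      have b2 : C1 * (η * min 2 2) ≤ 1 / 8 := by
        have := hη.trans (min_le_left _ _)
        rw [le_div_iff₀ (by positivity)] at this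
        rw [min_self]
        linarith
      refine le_trans (h2 _ _ y _ _ (cm_fl g r).riem (mem_univ y) (by linarith) le_rfl
        (jg_anti (U.jg_mono b1 (by norm_num) b2) (norm_nonneg y) (by linarith)) k hk i j)
        (le_add_of_nonneg_of_le c0 ?_)
      rw [if_pos (a1.trans c')]
      have b3 : 1 ≤ √(2 / B * 2 ^ l) := Real.one_le_sqrt.2 (by
        rw [div_mul_eq_mul_div, le_div_iff₀ (by linarith)]
        rw [pow_succ] at a2
        linarith)
      calc C2 * (1 / 8 / ‖y‖ ^ 2) ≤ C2 * (1 / B ^ 2) := by gcongr; norm_num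
        _ = C2 / B ^ 2 * 1 := by ring
        _ ≤ _ := by gcongr
    · refine j1_congr (f := fun _ => 0) ?_ ?_
      · rw [J1, iteratedFDeriv_fun_zero, Pi.zero_apply, norm_zero, zero_mul]
        exact add_nonneg c0 c1
      · rw [cm_eq]
        exact (ric_ev (glu_ev_out (by linarith) (by linarith) _ _ c') i j).trans
          (Eventually.of_forall fun z => Ad.ricci_flat z i j)
  · obtain ⟨l, l1, l2⟩ := exists_nat_pow_near (x := ‖x‖ / (ρ / 64)) (y := 2)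
      ((one_le_div hu).2 x1) one_lt_two
    have b1 := J1' l x ((le_div_iff₀ hu).1 l1) ((div_lt_iff₀ hu).1 l2).le (by linarith [r.le_b])
    have b2 : J l ≤ e / ρ ^ 2 := by
      rw [le_div_iff₀' (by positivity)]
      exact le_trans (mul_le_mul_of_nonneg_left (Finset.single_le_sum (fun i _ => J0 i)
        (Finset.self_mem_range_succ l)) (sq_nonneg ρ)) (e1 (l + 1))
    refine ⟨(Real.sqrt_le_iff.1 (le_trans (by simpa using b1 0 (by norm_num)) b2)).2,
      fun k hk i j => le_trans (h5 x ⟨by linarith [r.a_le], by linarith [r.le_b]⟩ _ b1 k hk i j) ?_⟩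
    rw [mul_div_assoc]
    exact mul_le_mul (by linarith) b2 (J0 l) (by positivity)

end Crest.Agent.N207.Ph

end
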