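import Crest.Agent.N207.Ph.Hc2
import Crest.Agent.N207.Ph.Nw3

/-!
# Row 207, block PHI (helper11): harmonic coordinates, part 3: the Neumann series
-/

set_option autoImplicit false
set_option linter.unusedSectionVars false

open scoped ContDiff Topology
open Set Filter Metric
open Crest.GeometryTopology.CoordMetric

noncomputable section

namespace Crest.Agent.N207.Ph.Hc

open Crest.Agent.NLib.Ell Crest.Agent.N207.G Sk
open Crest.Agent.R240.Fr (lap)

variable {Γ : Subgroup Iso} {G : MetricField 4}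

theorem wH_nonneg (j l : ℕ) : 0 ≤ wH j l := le_min zero_le_one (by positivity)

theorem wH_le (j l : ℕ) : wH j l ≤ 1 := min_le_left _ _

theorem wH_mono (j : ℕ) {l l' : ℕ} (h : l ≤ l') : wH j l ≤ wH j l' :=
  min_le_min_left _ (by gcongr; norm_num)

theorem wH_one {j l : ℕ} (h : j ≤ l) : wH j l = 1 :=
  min_eq_left ((one_le_div (by positivity)).2 (pow_le_pow_right₀ (by norm_num) h))

theorem Nw_eqv {f : E4 → E4} (hf : Continuous f) (hs : HasCompactSupport f) (he : Eqv Γ f) :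
    Eqv Γ (Nw f) := fun γ hγ x => by
  rw [← Nw_isom]
  simp only [he γ hγ]
  exact Nw_clm (γ.toContinuousLinearEquiv : E4 →L[ℝ] E4) hf hs x

theorem two_le : (2 : WithTop ℕ∞) ≤ ∞ := kle 2

/-- one step -/
theorem step (hl : LHStmt) : ∃ C : ℝ, 0 < C ∧ ∀ (Γ : Subgroup Iso) (G : MetricField 4) (e : ℕ → ℝ)
    (L : ℕ) (A c : ℝ) (d : E4 → E4), Grp Γ → Fl G → Inv Γ G → Cf 0 e G →
    (∀ n, ∑ l ∈ Finset.range n, e l ≤ A) → (∀ l, L < l → e l = 0) → ContDiff ℝ ∞ d → Eqv Γ d →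
    WD 2 (fun l => c * 2 ^ l) d →
    WD 2 (fun j => C * A * c * wH j (L + 1) * 2 ^ j) (Nw (DD G d)) := by
  obtain ⟨C, hC, h⟩ := hl 0
  refine ⟨544 * C, by positivity, fun Γ G e L A c d hΓ hG hI he hA hL hd hE hw => ?_⟩
  have hc : 0 ≤ c := by simpa using hw.nonneg 0
  have h0 : ∀ l, 0 ≤ e l := (he.1 0 0).nonneg
  have h1 : ∀ l, e l ≤ A := fun l => le_trans
    (Finset.single_le_sum (fun i _ => h0 i) (Finset.self_mem_range_succ l)) (hA (l + 1))
  have hA0 : 0 ≤ A := (h0 0).trans (h1 0)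
  have h2 := DD_wd (c := fun _ => c) he hw
  refine (h Γ (DD G d) (fun l => 544 * e l * c) (fun l => 544 * e l * c)
    (fun j => 544 * A * c * wH j (L + 1)) hΓ (DD_sm hG.riem hd) (DD_cpt hG d)
    (DD_eqv hG.riem hI (hd.of_le two_le) hE) h2.ws h2 (fun j n => ?_) fun j i _ h4 => ?_).mono
    fun j => le_of_eq (by ring)
  · have := wH_nonneg j (L + 1)
    calc _ ≤ ∑ l ∈ Finset.range n, 544 * c * wH j (L + 1) * e l :=
          Finset.sum_le_sum fun l _ => by
            rcases le_or_gt l L with h5 | h5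
            · have h6 := wH_mono j (h5.trans (Nat.le_succ L))
              have := h0 l
              calc _ ≤ wH j (L + 1) * (544 * e l * c) := by gcongr
                _ = _ := by ring
            · simp [hL l h5]
      _ ≤ 544 * c * wH j (L + 1) * A := by rw [← Finset.mul_sum]; gcongr; exact hA n
      _ = _ := by ring
  · have := wH_nonneg j (L + 1)
    rcases le_or_gt i L with h5 | h5
    · simp only [wH_one (show j ≤ L + 1 by omega), mul_one]
      gcongr; exact h1 i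
    · simp only [hL i h5, mul_zero, zero_mul]; positivity

/-- the terms of the series -/
def dd (G : MetricField 4) : ℕ → E4 → E4
  | 0 => fun x => x
  | n + 1 => Nw (DD G (dd G n))

theorem dd_sm (hG : Fl G) (n : ℕ) : ContDiff ℝ ∞ (dd G n) := by
  induction n with
  | zero => exact contDiff_id
  | succ n ih => exact Nw_contDiff (DD_sm hG.riem ih) (DD_cpt hG _)

theorem dd_eqv (hG : Fl G) (hI : Inv Γ G) (n : ℕ) : Eqv Γ (dd G n) := by
  induction n with
  | zero => exact fun _ _ _ => rfl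
  | succ n ih =>
    exact Nw_eqv (DD_sm hG.riem (dd_sm hG n)).continuous (DD_cpt hG _)
      (DD_eqv hG.riem hI ((dd_sm hG n).of_le two_le) ih)

/-- the partial sums -/
def uu (G : MetricField 4) (n : ℕ) (x : E4) : E4 := ∑ i ∈ Finset.range n, dd G (i + 1) x

theorem uu_sm (hG : Fl G) (n : ℕ) : ContDiff ℝ ∞ (uu G n) :=
  ContDiff.sum fun _ _ => dd_sm hG _

theorem uu_eq (hG : Fl G) (n : ℕ) (x : E4) :
    lap (uu G (n + 1)) x = DD G (fun x : E4 => x) x + DD G (uu G n) x := by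
  have e : ∀ n, uu G (n + 1) = fun x => uu G n x + dd G (n + 1) x := fun n =>
    funext fun x => Finset.sum_range_succ _ _
  have h1 : ∀ n, lap (uu G (n + 1)) x = lap (uu G n) x + DD G (dd G n) x := fun n => by
    rw [e, lap_add ((uu_sm hG n).of_le two_le) ((dd_sm hG _).of_le two_le), dd,
      lap_Nw (DD_sm hG.riem (dd_sm hG n)) (DD_cpt hG _)]
  induction n with
  | zero =>
    rw [h1, show uu G 0 = fun _ => 0 from rfl, lap_zero, DD_zero, zero_add, add_zero]; rfl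
  | succ n ih =>
    rw [h1, ih, e n, DD_add ((uu_sm hG n).of_le two_le) ((dd_sm hG _).of_le two_le), add_assoc]

/-- the solution of `Δ_G (x + w) = 0` -/
theorem neu (hl : LHStmt) : ∃ θ C : ℝ, 0 < θ ∧ 0 < C ∧ ∀ (Γ : Subgroup Iso) (G : MetricField 4)
    (e : ℕ → ℝ) (L : ℕ) (A : ℝ), Grp Γ → Fl G → Inv Γ G → Cf 0 e G →
    (∀ n, ∑ l ∈ Finset.range n, e l ≤ A) → (∀ l, L < l → e l = 0) → A ≤ θ →
    ∃ w : E4 → E4, Eqv Γ w ∧ WD 2 (fun j => C * A * wH j (L + 1) * 2 ^ j) w ∧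
      ∀ x, lap w x = DD G (fun x : E4 => x) x + DD G w x := by
  obtain ⟨C, hC, h⟩ := step hl
  refine ⟨1 / (2 * C), 16 * C, by positivity, by positivity,
    fun Γ G e L A hΓ hG hI he hA hL hθ => ?_⟩
  have hA0 : 0 ≤ A := by simpa using hA 0
  have hθ' : C * A ≤ 1 / 2 := by
    rw [le_div_iff₀ (by positivity)] at hθ
    linarith
  have h1 : ∀ n, WD 2 (fun l => 8 * (1 / 2) ^ n * 2 ^ l) (dd G n) := fun n => by
    induction n with
    | zero => simpa [dd] using wd_id 2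
    | succ n ih =>
      refine (h Γ G e L A _ _ hΓ hG hI he hA hL (dd_sm hG n) (dd_eqv hG hI n) ih).mono fun j => ?_
      calc C * A * (8 * (1 / 2) ^ n) * wH j (L + 1) * 2 ^ j
          ≤ 1 / 2 * (8 * (1 / 2) ^ n) * 1 * 2 ^ j := by
            have := wH_nonneg j (L + 1)
            gcongr; exact wH_le _ _
        _ = _ := by ring
  have h2 : ∀ n, WD 2 (fun j => C * A * (8 * (1 / 2) ^ n) * wH j (L + 1) * 2 ^ j)
      (dd G (n + 1)) := fun n =>
    h Γ G e L A _ _ hΓ hG hI he hA hL (dd_sm hG n) (dd_eqv hG hI n) (h1 n)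
  have h3 : ∀ n, WD 2 (fun j => 16 * C * A * wH j (L + 1) * 2 ^ j) (uu G n) :=
    fun n j y h3 h4 => by
      refine (CK.sum _ fun i _ => h2 i j y h3 h4).mono ?_
      have := wH_nonneg j (L + 1)
      calc _ = 8 * C * A * wH j (L + 1) * 2 ^ j * ∑ i ∈ Finset.range n, (1 / 2 : ℝ) ^ i := by
            rw [Finset.mul_sum]
            exact Finset.sum_congr rfl fun _ _ => by ring
        _ ≤ 8 * C * A * wH j (L + 1) * 2 ^ j * 2 := by gcongr; exact sum_geometric_two_le n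
        _ = _ := by ring
  have h4 : ∀ x, Tendsto (fun n => uu G n x) atTop (𝓝 (∑' i, dd G (i + 1) x)) := fun x => by
    obtain ⟨l, h5, h6⟩ := exists_shell x
    refine (Summable.of_norm_bounded (summable_geometric_two.mul_left (8 * 2 ^ l))
      fun i => ((h1 (i + 1) l x h5 h6).bdd.trans ?_)).hasSum.tendsto_sum_nat
    have : (0 : ℝ) ≤ (1 / 2) ^ i * 2 ^ l := by positivity
    rw [pow_succ]; nlinarith
  have h5 : ∀ y, ∃ M, ∀ n, CK 2 M (uu G n) y := fun y => by
    obtain ⟨l, h5, h6⟩ := exists_shell y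
    exact ⟨_, fun n => h3 n l y h5 h6⟩
  have h6 := lim_pv (k := 1) h5 h4
  have h7 := fun a b => lim_pv (k := 0) (fun y => (h5 y).imp' _ fun M hM n => ck_pv (hM n) b)
    (h6 b) a
  refine ⟨fun x => ∑' i, dd G (i + 1) x, fun γ hγ x => ?_, fun j y h8 h9 => ?_, fun x => ?_⟩
  · refine tendsto_nhds_unique (h4 (γ x)) (((γ.continuous.tendsto _).comp (h4 x)).congr fun n => ?_)
    simp only [Function.comp, uu, map_sum, dd_eqv hG hI _ γ hγ x]
  · exact CKA.limit (u := fun n Y => uu G n (cl y Y)) isOpen_ball (by norm_num)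
      (Eventually.of_forall fun n => h3 n j y h8 h9) fun Y _ => h4 _
  · have h8 := (tendsto_finsetSum Finset.univ fun i _ => h7 i i x).comp (tendsto_add_atTop_nat 1)
    refine tendsto_nhds_unique h8 (Tendsto.congr (fun n => (uu_eq hG n x).symm) ?_)
    exact tendsto_const_nhds.add ((tendsto_finsetSum _ fun a _ => tendsto_finsetSum _ fun b _ =>
      (h7 a b x).const_smul _).add (tendsto_finsetSum _ fun c _ => (h6 c x).const_smul _))

/-- the bootstrap -/
theorem boot (k : ℕ) (M : ℝ) : ∃ C : ℝ, 0 < C ∧ ∀ (G : MetricField 4) (w : E4 → E4) (E c : ℝ),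
    IsRiemannianOn G univ → Sml 0 G (1 / 100) → Cf k (fun _ => E) G → E ≤ M →
    WD 2 (fun l => c * 2 ^ l) w → (∀ x, lap w x = DD G (fun x : E4 => x) x + DD G w x) →
    WD (k + 2) (fun l => C * (E + c) * 2 ^ l) w := by
  obtain ⟨C, hC, h⟩ := nsw k (1 / 2) 2 (1 + M) (by norm_num) (by norm_num)
  refine ⟨16 * C, by positivity, fun G w E c hG h0 he hE hw heq l y h1 h2 => ?_⟩
  have hc : 0 ≤ c := by simpa using hw.nonneg 0
  have hE0 : 0 ≤ E := (he.1 0 0).nonneg 0
  refine (CK.of_proj fun m => h (fun x => (G x)⁻¹) (fun i x => -gm G i x) (fun _ => 0)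
    (fun x => w x m) (gm G m) (fun l => E * 2 ^ l) (fun l => c * 2 ^ l)
    (fun l => 4 * (E + c) * 2 ^ l) (ell_inv hG h0) (fun i j l y h1 h2 => ?_)
    (fun i l y h1 h2 => (he.2 i l y h1 h2).neg.mono (by simp only; gcongr; linarith))
    (fun l y _ _ => CK.zero.mono (by have : 0 ≤ 1 + M := by linarith
                                     positivity))
    ((he.2 m).mono fun l => le_of_eq ?_) (fun y => (wd_ck hw y).imp fun V hV => hV.proj m)
    (fun l y h1 h2 => ((hw l y h1 h2).proj m).bdd) (fun x => ?_) (fun j i h3 _ => ?_)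
    l y h1 h2).mono (le_of_eq (by ring))
  · refine (((CK.const ((1 : Matrix (Fin 4) (Fin 4) ℝ) i j)).sub (he.1 i j l y h1 h2)).congr
      fun z _ => by simp [hd]).mono (add_le_add ?_ hE)
    rw [Matrix.one_apply]
    split_ifs <;> simp
  · rw [show (4 : ℝ) ^ l = 2 ^ l * 2 ^ l by rw [← mul_pow]; norm_num]
    field_simp
  · have h3 := lap_sub_DD (G := G) (fun x => w x m) x
    have h4 := lap_clm (EuclideanSpace.proj m : E4 →L[ℝ] ℝ) hw.contDiff x
    have h5 := DD_clm (G := G) (EuclideanSpace.proj m : E4 →L[ℝ] ℝ) hw.contDiff x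
    simp only [PiLp.proj_apply, heq x, PiLp.add_apply, DD_id] at h4 h5
    rw [zero_mul, add_zero, ← h3, h4, h5, add_sub_cancel_right]
  · have : (2 : ℝ) ^ i ≤ 2 ^ (j + 2) := pow_le_pow_right₀ one_le_two h3
    calc E * 2 ^ i + c * 2 ^ i ≤ E * 2 ^ (j + 2) + c * 2 ^ (j + 2) := by gcongr
      _ = _ := by ring

/-- the harmonic coordinates `x + w` -/
theorem sol (hl : LHStmt) : ∃ δ0 C : ℝ, 0 < δ0 ∧ δ0 ≤ 1 / 100 ∧ 0 < C ∧ ∀ Cs : ℕ → ℝ,
    ∃ Cw : ℕ → ℝ, ∀ (Γ : Subgroup Iso) (G : MetricField 4) (δ : ℝ), Grp Γ → Fl G → Inv Γ G →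
      δ ≤ δ0 → DS 3 G δ → All Cs G → ∃ (w : E4 → E4) (B : ℝ), ContDiff ℝ ∞ w ∧ Eqv Γ w ∧
        WD 3 (fun l => C * δ * 2 ^ l) w ∧ (∀ k, WD k (fun l => Cw k * 2 ^ l) w) ∧
        WD 2 (fun l => B / 4 ^ l) w ∧ ∀ x, lap w x = DD G (fun x : E4 => x) x + DD G w x := by
  obtain ⟨θ, C1, hθ, hC1, h1⟩ := neu hl
  obtain ⟨C2, hC2, h2⟩ := cf_ds
  obtain ⟨C3, hC3, h3⟩ := boot 1 θ
  refine ⟨min (1 / 100) (θ / C2), C3 * (C2 + C1 * C2), by positivity, min_le_left _ _,
    by positivity, fun Cs => ?_⟩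
  choose E hE using cf_all Cs
  choose D hD h4 using fun k => boot k (E k)
  refine ⟨fun k => D k * (E k + C1 * θ), fun Γ G δ hΓ hG hI hδ hS hA => ?_⟩
  have hδ1 := hδ.trans (min_le_left _ _)
  have hδ2 : C2 * δ ≤ θ := by
    have := hδ.trans (min_le_right _ _)
    rwa [le_div_iff₀' hC2] at this
  have hδ0 := Ad.ds_nonneg hS
  have h0 := Ad.sml_mono (Ad.ds_sml hS (Nat.zero_le 3)) hδ1
  obtain ⟨e, L, he, hs, hL⟩ := h2 G δ hG hδ1 hS
  obtain ⟨w, hw, hw2, heq⟩ := h1 Γ G e L _ hΓ hG hI (he.of_le zero_le_one) hs hL hδ2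
  have h5 : WD 2 (fun l => C1 * (C2 * δ) * 2 ^ l) w := hw2.mono fun l =>
    mul_le_mul_of_nonneg_right (mul_le_of_le_one_right (by positivity) (wH_le _ _)) (by positivity)
  have h6 : ∀ k, WD k (fun l => D k * (E k + C1 * θ) * 2 ^ l) w := fun k =>
    (h4 k G w _ _ hG.riem h0 (hE k G hG.riem h0 hA) le_rfl
      (h5.mono fun l => by gcongr) heq).of_le (by omega)
  refine ⟨w, C1 * θ * 8 ^ (L + 1), contDiff_infty.2 fun k => (h6 k).contDiff, hw,
    (h3 G w (C2 * δ) _ hG.riem h0 (he.mono fun l => le_trans (Finset.single_le_sum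
      (fun i _ => (he.1 0 0).nonneg i) (Finset.self_mem_range_succ l)) (hs (l + 1))) hδ2 h5
      heq).mono fun l => le_of_eq (by ring), h6, hw2.mono fun l => ?_, heq⟩
  calc C1 * (C2 * δ) * wH l (L + 1) * 2 ^ l ≤ C1 * θ * (8 ^ (L + 1) / 8 ^ l) * 2 ^ l := by
        have := wH_nonneg l (L + 1)
        gcongr; exact min_le_right _ _
    _ = _ := by
        rw [show (8 : ℝ) ^ l = 4 ^ l * 2 ^ l by rw [← mul_pow]; norm_num]
        field_simp

end Crest.Agent.N207.Ph.Hc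

end
private theorem rz_28e46d7062 : type_of% @_root_.Crest.Agent.N207.Ph.Hc.dd.eq_def := @_root_.Crest.Agent.N207.Ph.Hc.dd.eq_def -- L78
private theorem rz_1711408b0e : type_of% @_root_.Crest.Agent.N207.Ph.Hc.dd.eq_1 := @_root_.Crest.Agent.N207.Ph.Hc.dd.eq_1 -- L78
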