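import Crest.Agent.N207.Ph.Nw3

-- ▼ part N207/Ph/Nw4
section

/-!
# Row 207, block PHI (helper48): Newton kit, part 4: kernel integrals, sup bounds, `lh : LHStmt`
-/

set_option autoImplicit false
set_option linter.unusedSectionVars false

open scoped ContDiff Topology Pointwise
open MeasureTheory Set Filter Metric

noncomputable section

namespace Crest.Agent.N207.Ph

open Crest.Agent.R240.Fr (NK cN cN_pos lap ae_ne_zero integrableOn_ball_inv_pow locInt_inv_pow)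

/-! ### integrals of `|z - η| ^ (-a)` -/

/-- the volume of the unit ball -/
def VB : ℝ := volume.real (ball (0 : E4) 1)

theorem VB_nonneg : 0 ≤ VB := measureReal_nonneg

theorem vol_ball {r : ℝ} (hr : 0 < r) (z : E4) : volume.real (ball z r) = VB * r ^ 4 := by
  unfold VB
  rw [measureReal_def, Measure.addHaar_ball_of_pos _ z hr, ENNReal.toReal_mul,
    ENNReal.toReal_ofReal (by positivity), measureReal_def, mul_comm]
  simp

/-- `∫_{|η| < 1} |η| ^ (-a) + VB + 1` -/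
def IB (a : ℕ) : ℝ := (∫ η in ball (0 : E4) 1, (‖η‖ ^ a)⁻¹) + VB + 1

theorem IB_pos (a : ℕ) : 0 < IB a := by
  have h : 0 ≤ ∫ η in ball (0 : E4) 1, (‖η‖ ^ a)⁻¹ := integral_nonneg fun η => by positivity
  have := VB_nonneg
  unfold IB; linarith

theorem int_ball0 (a : ℕ) {r : ℝ} (hr : 0 < r) :
    ∫ η in ball (0 : E4) r, (‖η‖ ^ a)⁻¹ = (∫ η in ball (0 : E4) 1, (‖η‖ ^ a)⁻¹) * (r ^ 4 / r ^ a) := by
  have h := Measure.setIntegral_comp_smul_of_pos (volume : Measure E4)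
    (fun η : E4 => (‖η‖ ^ a)⁻¹) (ball (0 : E4) 1) hr
  have hd : Module.finrank ℝ E4 = 4 := by simp
  rw [hd, smul_unitBall_of_pos hr] at h
  simp only [norm_smul, Real.norm_of_nonneg hr.le, mul_pow, mul_inv, integral_const_mul,
    smul_eq_mul] at h
  have h4 : (0 : ℝ) < r ^ 4 := by positivity
  have ha : (0 : ℝ) < r ^ a := by positivity
  field_simp at h ⊢
  linarith

theorem locInt_shift {a : ℕ} (ha : a ≤ 3) (z : E4) (r : ℝ) :
    IntegrableOn (fun η : E4 => (‖z - η‖ ^ a)⁻¹) (ball 0 r) := by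
  have h := integrableOn_ball_inv_pow a ha (‖z‖ + r)
  have h1 : Integrable fun η : E4 =>
      (ball (0 : E4) (‖z‖ + r)).indicator (fun η : E4 => (‖η‖ ^ a)⁻¹) (z - η) :=
    ((integrable_indicator_iff measurableSet_ball).2 h).comp_sub_left z
  refine h1.integrableOn.congr_fun (fun η hη => ?_) measurableSet_ball
  rw [mem_ball_zero_iff] at hη
  exact indicator_of_mem (mem_ball_zero_iff.2 ((norm_sub_le z η).trans_lt (by linarith))) _

theorem int_ball {a : ℕ} (ha : a ≤ 3) (z : E4) {r : ℝ} (hr : 0 < r) :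
    ∫ η in ball (0 : E4) r, (‖z - η‖ ^ a)⁻¹ ≤ IB a * (r ^ 4 / r ^ a) := by
  set g : E4 → ℝ := (ball (0 : E4) r).indicator fun η : E4 => (‖η‖ ^ a)⁻¹ with hg
  have hgi : Integrable g :=
    (integrable_indicator_iff measurableSet_ball).2 (integrableOn_ball_inv_pow a ha r)
  have hg0 : ∀ η, 0 ≤ g η := fun η => indicator_nonneg (fun η _ => by positivity) η
  have hc : IntegrableOn (fun _ : E4 => (r ^ a)⁻¹) (ball (0 : E4) r) :=
    integrableOn_const measure_ball_lt_top.ne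
  have h1 : ∫ η in ball (0 : E4) r, (‖z - η‖ ^ a)⁻¹ ≤
      ∫ η in ball (0 : E4) r, (g (z - η) + (r ^ a)⁻¹) := by
    refine integral_mono (locInt_shift ha z r) ((hgi.comp_sub_left z).integrableOn.add hc)
      fun η => ?_
    by_cases h : z - η ∈ ball (0 : E4) r
    · simp only [hg, indicator_of_mem h]
      have : (0 : ℝ) ≤ (r ^ a)⁻¹ := by positivity
      linarith
    · rw [mem_ball_zero_iff, not_lt] at h
      have : (‖z - η‖ ^ a)⁻¹ ≤ (r ^ a)⁻¹ := inv_anti₀ (by positivity) (pow_le_pow_left₀ hr.le h a)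
      linarith [hg0 (z - η)]
  rw [integral_add (hgi.comp_sub_left z).integrableOn hc, setIntegral_const, vol_ball hr] at h1
  have h2 : ∫ η in ball (0 : E4) r, g (z - η) ≤ ∫ η, g (z - η) :=
    setIntegral_le_integral (hgi.comp_sub_left z) (Eventually.of_forall fun η => hg0 _)
  rw [integral_sub_left_eq_self g volume z, hg, integral_indicator measurableSet_ball,
    int_ball0 a hr] at h2
  have h3 : (0 : ℝ) ≤ r ^ 4 / r ^ a := by positivity
  rw [smul_eq_mul, mul_assoc, ← div_eq_mul_inv] at h1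
  unfold IB
  nlinarith

/-! ### shells -/

theorem meas_Sh (l : ℕ) : MeasurableSet (Sh l) := by
  have hm : Measurable fun y : E4 => ‖y‖ + 1 := by fun_prop
  exact (measurableSet_le (measurable_const (a := (2 : ℝ) ^ l)) hm).inter
    (measurableSet_lt hm (measurable_const (a := (2 : ℝ) ^ (l + 1))))

theorem Sh_sub (l : ℕ) : Sh l ⊆ ball 0 (2 ^ (l + 1)) := fun y hy =>
  mem_ball_zero_iff.2 (by linarith [hy.2])

theorem intOn_Sh {a : ℕ} (ha : a ≤ 3) (z : E4) (l : ℕ) :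
    IntegrableOn (fun η : E4 => (‖z - η‖ ^ a)⁻¹) (Sh l) := (locInt_shift ha z _).mono_set (Sh_sub l)

theorem int_Sh {a : ℕ} (ha : a ≤ 3) (z : E4) (l : ℕ) :
    ∫ η in Sh l, (‖z - η‖ ^ a)⁻¹ ≤ IB a * ((2 ^ (l + 1)) ^ 4 / (2 ^ (l + 1)) ^ a) :=
  (setIntegral_mono_set (locInt_shift ha z _) (Eventually.of_forall fun η => by positivity)
    (Sh_sub l).eventuallyLE).trans (int_ball ha z (by positivity))

theorem vol_Sh (l : ℕ) : volume.real (Sh l) ≤ VB * (2 ^ (l + 1)) ^ 4 := by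
  rw [← vol_ball (by positivity) 0]
  exact measureReal_mono (Sh_sub l) measure_ball_lt_top.ne

theorem vol_Sh_ne (l : ℕ) : volume (Sh l) ≠ ⊤ :=
  ((measure_mono (Sh_sub l)).trans_lt measure_ball_lt_top).ne

variable {F : Type*} [NormedAddCommGroup F] [NormedSpace ℝ F]

theorem int_eq_sum {φ : E4 → F} (hφ : Integrable φ) {n : ℕ}
    (h0 : ∀ y : E4, 2 ^ n ≤ ‖y‖ + 1 → φ y = 0) :
    ∫ y, φ y = ∑ l ∈ Finset.range n, ∫ y in Sh l, φ y := by
  have key : ∀ m : ℕ, ∫ y in {y : E4 | ‖y‖ + 1 < 2 ^ m}, φ y =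
      ∑ l ∈ Finset.range m, ∫ y in Sh l, φ y := by
    intro m
    induction m with
    | zero =>
      have : {y : E4 | ‖y‖ + 1 < 2 ^ 0} = ∅ := by
        ext y; simp
      rw [this]; simp
    | succ m ih =>
      have e : {y : E4 | ‖y‖ + 1 < 2 ^ (m + 1)} = {y : E4 | ‖y‖ + 1 < 2 ^ m} ∪ Sh m := by
        ext y
        have h2 : (2 : ℝ) ^ m ≤ 2 ^ (m + 1) := pow_le_pow_right₀ one_le_two (by omega)
        simp only [mem_setOf_eq, mem_union, Sh]
        constructor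
        · intro h
          rcases lt_or_ge (‖y‖ + 1) (2 ^ m) with h' | h'
          exacts [Or.inl h', Or.inr ⟨h', h⟩]
        · rintro (h | h)
          exacts [h.trans_le h2, h.2]
      have hd : Disjoint {y : E4 | ‖y‖ + 1 < 2 ^ m} (Sh m) :=
        disjoint_left.2 fun y hy hy' => absurd hy'.1 (not_le.2 hy)
      rw [e, setIntegral_union hd (meas_Sh m) hφ.integrableOn hφ.integrableOn, ih, Finset.sum_range_succ]
  rw [← key n]
  exact (setIntegral_eq_integral_of_forall_compl_eq_zero fun y hy => h0 y (not_lt.1 hy)).symm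

theorem exists_lv_zero {f : E4 → F} (hfs : HasCompactSupport f) :
    ∃ n : ℕ, ∀ y : E4, 2 ^ n ≤ ‖y‖ + 1 → f y = 0 := by
  obtain ⟨ρ, hρ⟩ := hfs.isCompact.isBounded.subset_closedBall 0
  obtain ⟨n, hn⟩ := pow_unbounded_of_one_lt (ρ + 1) (one_lt_two (α := ℝ))
  refine ⟨n, fun y hy => ?_⟩
  by_contra h
  have := mem_closedBall_zero_iff.1 (hρ (subset_tsupport _ h))
  linarith

theorem hcs_of_lv {f : E4 → F} {n : ℕ} (h0 : ∀ y : E4, 2 ^ n ≤ ‖y‖ + 1 → f y = 0) :
    HasCompactSupport f :=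
  HasCompactSupport.intro (isCompact_closedBall (0 : E4) (2 ^ n)) fun y hy =>
    h0 y (by rw [mem_closedBall_zero_iff, not_le] at hy; linarith)

/-- the potential of the part of `f` in the shell `l` -/
def NS (l : ℕ) (f : E4 → F) (x : E4) : F := ∫ y in Sh l, NK (x - y) • f y

theorem Nw_eq_sum {f : E4 → F} (hf : Continuous f) {n : ℕ}
    (h0 : ∀ y : E4, 2 ^ n ≤ ‖y‖ + 1 → f y = 0) (x : E4) :
    Nw f x = ∑ l ∈ Finset.range n, NS l f x := by
  rw [Nw_eq]
  exact int_eq_sum (Cv_integrable' locInt_NK hf (hcs_of_lv h0) x) fun y hy => by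
    rw [h0 y hy, smul_zero]

theorem int_Sh2 (l j : ℕ) {x : E4} (h1 : 2 ^ j ≤ ‖x‖ + 1) :
    ∫ η in Sh l, (‖x - η‖ ^ 2)⁻¹ ≤ 64 * IB 2 * (4 ^ l * min 1 (4 ^ l / 4 ^ j)) := by
  have hI := IB_pos 2
  have e4 : ∀ m : ℕ, (4 : ℝ) ^ m = 2 ^ m * 2 ^ m := fun m => by rw [← mul_pow]; norm_num
  have hl : (0 : ℝ) < 2 ^ l := by positivity
  rcases le_or_gt j (l + 1) with h | h
  · refine (int_Sh (by norm_num) x l).trans ?_
    have h2 : (1 : ℝ) / 4 ≤ min 1 (4 ^ l / 4 ^ j) := by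
      refine le_min (by norm_num) ?_
      rw [div_le_div_iff₀ (by norm_num) (by positivity), one_mul, ← pow_succ]
      exact pow_le_pow_right₀ (by norm_num) h
    have e : ((2 : ℝ) ^ (l + 1)) ^ 4 / (2 ^ (l + 1)) ^ 2 = 4 * 4 ^ l := by
      rw [e4]; field_simp; ring
    rw [e]
    have h5 : (0 : ℝ) < 4 ^ l := by positivity
    nlinarith [mul_le_mul_of_nonneg_left h2 (mul_pos hI h5).le, mul_pos hI h5]
  · have hj : (2 : ℝ) ^ (l + 2) ≤ 2 ^ j := pow_le_pow_right₀ one_le_two (by omega)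
    have hj0 : (0 : ℝ) < 2 ^ j := by positivity
    have hb : ∀ η ∈ Sh l, ‖(‖x - η‖ ^ 2)⁻¹‖ ≤ 4 / 4 ^ j := fun η hη => by
      have h3 := norm_sub_norm_le x η
      have h4 := hη.2
      rw [pow_succ] at h4
      rw [pow_succ, pow_succ] at hj
      have h5 : 2 ^ j / 2 ≤ ‖x - η‖ := by linarith
      rw [Real.norm_of_nonneg (by positivity)]
      refine (inv_anti₀ (by positivity) (pow_le_pow_left₀ (by positivity) h5 2)).trans
        (le_of_eq ?_)
      rw [e4]; field_simp; norm_num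
    have h6 := (Real.le_norm_self _).trans
      (norm_setIntegral_le_of_norm_le_const (vol_Sh_ne l).lt_top hb)
    refine h6.trans ((mul_le_mul_of_nonneg_left (vol_Sh l) (by positivity)).trans ?_)
    have h7 : min 1 ((4 : ℝ) ^ l / 4 ^ j) = 4 ^ l / 4 ^ j := min_eq_right (by
      rw [div_le_one (by positivity)]; exact pow_le_pow_right₀ (by norm_num) (by omega))
    have h8 : VB ≤ IB 2 := by
      have h : 0 ≤ ∫ η in ball (0 : E4) 1, (‖η‖ ^ 2)⁻¹ := integral_nonneg fun η => by positivity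
      unfold IB; linarith
    rw [h7]
    calc 4 / 4 ^ j * (VB * (2 ^ (l + 1)) ^ 4) = 64 * VB * (4 ^ l * (4 ^ l / 4 ^ j)) := by
          rw [e4 l]; field_simp; ring
      _ ≤ _ := by gcongr

theorem NS_le {l j : ℕ} {f : E4 → F} {c : ℝ} (hc : 0 ≤ c) (hf : ∀ y ∈ Sh l, ‖f y‖ ≤ c) {x : E4}
    (h1 : 2 ^ j ≤ ‖x‖ + 1) :
    ‖NS l f x‖ ≤ 64 * IB 2 * cN * c * (4 ^ l * min 1 (4 ^ l / 4 ^ j)) := by
  have hN := cN_pos
  have h := norm_integral_le_of_norm_le (μ := volume.restrict (Sh l))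
    (f := fun y => NK (x - y) • f y) ((intOn_Sh (a := 2) (by norm_num) x l).const_mul (cN * c))
    ((ae_restrict_iff' (meas_Sh l)).2 (Eventually.of_forall fun y hy => by
      rw [norm_smul, Real.norm_eq_abs, abs_NK]
      calc cN * (‖x - y‖ ^ 2)⁻¹ * ‖f y‖ ≤ cN * (‖x - y‖ ^ 2)⁻¹ * c := by gcongr; exact hf y hy
        _ = _ := by ring))
  rw [integral_const_mul] at h
  exact h.trans ((mul_le_mul_of_nonneg_left (int_Sh2 l j h1) (by positivity)).trans
    (le_of_eq (by ring)))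

theorem NK_sub_le (x : E4) {y : E4} (h0 : y ≠ 0) (hx : x - y ≠ 0) :
    |NK (x - y) - NK (0 - y)| ≤ cN * ‖x‖ * ((‖(0 : E4) - y‖ ^ 3)⁻¹ + (‖x - y‖ ^ 3)⁻¹) := by
  have hN := cN_pos
  have hp : 0 < ‖(0 : E4) - y‖ := by simpa using h0
  have hq : 0 < ‖x - y‖ := norm_pos_iff.2 hx
  have hd : |‖x - y‖ - ‖(0 : E4) - y‖| ≤ ‖x‖ := by
    simpa using abs_norm_sub_norm_le (x - y) (0 - y)
  unfold NK
  set p := ‖(0 : E4) - y‖
  set q := ‖x - y‖
  have e : -cN * (q ^ 2)⁻¹ - -cN * (p ^ 2)⁻¹ = cN * ((q - p) * (p⁻¹ * q⁻¹ * (p⁻¹ + q⁻¹))) := by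
    field_simp; ring
  rw [e, abs_mul, abs_of_pos hN, abs_mul, abs_of_pos (by positivity : 0 < p⁻¹ * q⁻¹ * (p⁻¹ + q⁻¹)),
    mul_assoc cN, ← inv_pow, ← inv_pow]
  have hu : 0 < p⁻¹ := by positivity
  have hv : 0 < q⁻¹ := by positivity
  refine mul_le_mul_of_nonneg_left (mul_le_mul hd ?_ (by positivity) (norm_nonneg _)) hN.le
  nlinarith [mul_nonneg (add_pos hu hv).le (sq_nonneg (p⁻¹ - q⁻¹))]

theorem intOn_NS {f : E4 → F} (hf : Continuous f) (l : ℕ) (x : E4) :
    IntegrableOn (fun y => NK (x - y) • f y) (Sh l) := by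
  have h : IntegrableOn (fun y => NK (x - y)) (closedBall (0 : E4) (2 ^ (l + 1))) := by
    have h1 := ((locInt_shift (a := 2) (by norm_num) x (2 ^ (l + 1) + 1)).const_mul (-cN))
    exact IntegrableOn.mono_set h1 (closedBall_subset_ball (by linarith))
  exact (h.smul_continuousOn hf.continuousOn (isCompact_closedBall _ _)).mono_set
    ((Sh_sub l).trans ball_subset_closedBall)

theorem NS_sub_le {l : ℕ} {f : E4 → F} (hfc : Continuous f) {c : ℝ} (hc : 0 ≤ c)
    (hf : ∀ y ∈ Sh l, ‖f y‖ ≤ c) (x : E4) :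
    ‖NS l f x - NS l f 0‖ ≤ 4 * IB 3 * cN * (c * 2 ^ l) * ‖x‖ := by
  have hN := cN_pos
  unfold NS
  rw [← integral_sub (intOn_NS hfc l x) (intOn_NS hfc l 0)]
  have hi0 := intOn_Sh (a := 3) le_rfl 0 l
  have hix := intOn_Sh (a := 3) le_rfl x l
  have hx : ∀ᵐ y : E4, x - y ≠ 0 := by
    rw [ae_iff]; simp [sub_eq_zero]
  have h := norm_integral_le_of_norm_le (μ := volume.restrict (Sh l))
    (f := fun y => NK (x - y) • f y - NK (0 - y) • f y) ((hi0.add hix).const_mul (cN * ‖x‖ * c))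
    ((ae_restrict_iff' (meas_Sh l)).2 (by
      filter_upwards [ae_ne_zero, hx] with y h0 h1 hy
      rw [← sub_smul, norm_smul, Real.norm_eq_abs]
      calc _ ≤ cN * ‖x‖ * ((‖(0 : E4) - y‖ ^ 3)⁻¹ + (‖x - y‖ ^ 3)⁻¹) * c :=
            mul_le_mul (NK_sub_le x h0 h1) (hf y hy) (norm_nonneg _) (by positivity)
        _ = _ := by simp only [Pi.add_apply]; ring))
  rw [integral_const_mul, integral_add' hi0 hix] at h
  have e : ((2 : ℝ) ^ (l + 1)) ^ 4 / (2 ^ (l + 1)) ^ 3 = 2 * 2 ^ l := by field_simp; ring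
  have h2 := int_Sh (a := 3) le_rfl 0 l
  have h3 := int_Sh (a := 3) le_rfl x l
  rw [e] at h2 h3
  exact h.trans ((mul_le_mul_of_nonneg_left (add_le_add h2 h3) (by positivity)).trans
    (le_of_eq (by ring)))



end Crest.Agent.N207.Ph

end
end

-- ▼ part N207/Ph/Nw5

/-!
# Row 207, block PHI (helper48): Newton kit, part 5: `lh : LHStmt`
-/

set_option autoImplicit false
set_option linter.unusedSectionVars false

open scoped ContDiff Topology Pointwise
open MeasureTheory Set Filter Metric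

noncomputable section

namespace Crest.Agent.N207.Ph

open Crest.Agent.R240.Fr (NK cN cN_pos lap)

variable {F : Type*} [NormedAddCommGroup F] [NormedSpace ℝ F]

/-- the shells are invariant under isometries -/
theorem int_Sh_iso (A : Iso) (l : ℕ) (φ : E4 → F) :
    ∫ y in Sh l, φ (A y) = ∫ y in Sh l, φ y := by
  have h := A.measurePreserving.setIntegral_preimage_emb A.toHomeomorph.measurableEmbedding φ (Sh l)
  have e : A ⁻¹' Sh l = Sh l := by
    ext y; simp [Sh]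
  rwa [e] at h

theorem NK_iso (A : Iso) (y : E4) : NK (A y) = NK y := by simp [NK]

theorem NK_neg (y : E4) : NK (0 - y) = NK y := by simp [NK]

theorem eq_zero_of_fixed {Γ : Subgroup Iso} (hΓ : Sk.Grp Γ) {v : E4} (h : ∀ γ ∈ Γ, γ v = v) :
    v = 0 := by
  by_contra hv
  exact hΓ.ne ((Subgroup.eq_bot_iff_forall _).2 fun γ hγ => hΓ.free γ hγ v hv (h γ hγ))

theorem NS_zero {Γ : Subgroup Iso} (hΓ : Sk.Grp Γ) {f : E4 → E4} (hf : Continuous f)
    (he : Eqv Γ f) (l : ℕ) : NS l f 0 = 0 := by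
  refine eq_zero_of_fixed hΓ fun γ hγ => ?_
  unfold NS
  have h := (γ.toContinuousLinearEquiv : E4 →L[ℝ] E4).integral_comp_comm (intOn_NS hf l 0)
  refine h.symm.trans ?_
  rw [← int_Sh_iso γ l fun y => NK (0 - y) • f y]
  refine integral_congr_ae (Eventually.of_forall fun y => ?_)
  simp only [NK_neg, NK_iso, he γ hγ y, map_smul]
  rfl



theorem wH_nonneg (j l : ℕ) : 0 ≤ wH j l := le_min zero_le_one (by positivity)

theorem wH_near {i j : ℕ} (h : j ≤ i + 2) (l : ℕ) : wH i l ≤ 64 * wH j l := by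
  unfold wH
  rw [mul_min_of_nonneg _ _ (by norm_num : (0 : ℝ) ≤ 64)]
  refine min_le_min (by norm_num) ?_
  rw [← mul_div_assoc, div_le_div_iff₀ (by positivity) (by positivity)]
  have h1 : (8 : ℝ) ^ j ≤ 8 ^ (i + 2) := pow_le_pow_right₀ (by norm_num) h
  have h2 : (0 : ℝ) < 8 ^ l := by positivity
  rw [pow_add] at h1
  nlinarith

theorem lh_sup : ∃ C : ℝ, 0 < C ∧ ∀ (Γ : Subgroup Iso) (f : E4 → E4) (a : ℕ → ℝ) (b : ℝ) (j : ℕ)
    (x : E4), Sk.Grp Γ → Continuous f → HasCompactSupport f → Eqv Γ f →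
    WS (fun l => a l / 2 ^ l) f → (∀ n, ∑ l ∈ Finset.range n, wH j l * a l ≤ b) →
    2 ^ j ≤ ‖x‖ + 1 → ‖x‖ + 1 ≤ 2 ^ (j + 1) → ‖Nw f x‖ ≤ C * 2 ^ j * b := by
  have hN := cN_pos
  have hI := IB_pos 3
  have hI2 := IB_pos 2
  refine ⟨8 * IB 3 * cN + 64 * IB 2 * cN, by positivity,
    fun Γ f a b j x hΓ hf hfs he ha hb h1 h2 => ?_⟩
  obtain ⟨n, hn⟩ := exists_lv_zero hfs
  rw [Nw_eq_sum hf hn]
  refine (norm_sum_le_of_le _ (n := fun l => (8 * IB 3 * cN + 64 * IB 2 * cN) * 2 ^ j *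
    (wH j l * a l)) fun l _ => ?_).trans ?_
  · have hc := ha.nonneg l
    have hl : (0 : ℝ) < 2 ^ l := by positivity
    have ha0 : 0 ≤ a l := by
      have := mul_nonneg hc hl.le
      rwa [div_mul_cancel₀ _ hl.ne'] at this
    have hfl : ∀ y ∈ Sh l, ‖f y‖ ≤ a l / 2 ^ l := fun y hy => ha l y hy.1 hy.2.le
    rcases le_or_gt j l with h | h
    · have h3 := NS_sub_le hf hc hfl x
      rw [NS_zero hΓ hf he, sub_zero, div_mul_cancel₀ _ hl.ne'] at h3
      have h4 : wH j l = 1 := min_eq_left (by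
        rw [le_div_iff₀ (by positivity), one_mul]; exact pow_le_pow_right₀ (by norm_num) h)
      rw [h4, one_mul]
      have h5 : ‖x‖ ≤ 2 * 2 ^ j := by rw [pow_succ] at h2; linarith
      calc _ ≤ 4 * IB 3 * cN * a l * (2 * 2 ^ j) := h3.trans (by gcongr)
        _ = 8 * IB 3 * cN * 2 ^ j * a l := by ring
        _ ≤ _ := by gcongr; linarith [mul_pos (mul_pos (by norm_num : (0 : ℝ) < 64) hI2) hN]
    · have h3 := NS_le hc hfl h1
      have h4 : wH j l = 8 ^ l / 8 ^ j := min_eq_right (by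
        rw [div_le_one (by positivity)]; exact pow_le_pow_right₀ (by norm_num) h.le)
      have e4 : ∀ m : ℕ, (4 : ℝ) ^ m = 2 ^ m * 2 ^ m := fun m => by rw [← mul_pow]; norm_num
      have e8 : ∀ m : ℕ, (8 : ℝ) ^ m = 2 ^ m * 2 ^ m * 2 ^ m := fun m => by
        rw [← mul_pow, ← mul_pow]; norm_num
      calc _ ≤ 64 * IB 2 * cN * (a l / 2 ^ l) * (4 ^ l * (4 ^ l / 4 ^ j)) :=
            h3.trans (by gcongr; exact min_le_right _ _)
        _ = 64 * IB 2 * cN * 2 ^ j * (8 ^ l / 8 ^ j * a l) := by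
            rw [e4 l, e4 j, e8 l, e8 j]; field_simp
        _ ≤ _ := by
            rw [h4]; gcongr; linarith [mul_pos (mul_pos (by norm_num : (0 : ℝ) < 8) hI) hN]
  · rw [← Finset.mul_sum]
    exact mul_le_mul_of_nonneg_left (hb n) (by positivity)

theorem lh : LHStmt := by
  intro k
  obtain ⟨C, hC, H⟩ := lh_sup
  obtain ⟨D, hD, HD⟩ := sw_lap k
  refine ⟨4 * (D * (256 * C + 2)), by positivity,
    fun Γ f a a' b hΓ hf hfs he ha ha' hb hab l y h1 h2 => ?_⟩
  have hb0 : ∀ j, 0 ≤ b j := fun j => by simpa using hb j 0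
  have ha0 : ∀ l, 0 ≤ a l := fun l => by
    have hl : (0 : ℝ) < 2 ^ l := by positivity
    have := mul_nonneg (ha.nonneg l) hl.le
    rwa [div_mul_cancel₀ _ hl.ne'] at this
  refine (CK.of_proj (M := D * ((256 * C + 2) * 2 ^ l * b l)) fun i => ?_).mono
    (le_of_eq (by ring))
  have hfi : ContDiff ℝ ∞ fun x => f x i := (R240.Fr.contDiff_coord i).comp hf
  have hfis : HasCompactSupport fun x => f x i := hfs.comp_left (g := fun v : E4 => v i) rfl
  have e : (fun x => Nw f x i) = Nw fun x => f x i := funext fun x =>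
    (Nw_clm (EuclideanSpace.proj (𝕜 := ℝ) i : E4 →L[ℝ] ℝ) hf.continuous hfs x).symm
  obtain ⟨n, hn⟩ := exists_lv_zero hfs
  refine HD (fun x => Nw f x i) (fun l => 2 ^ l * a' l)
    (fun j => C * 2 ^ j * ∑ l ∈ Finset.range n, wH j l * a l)
    (fun l => (256 * C + 2) * 2 ^ l * b l) (e ▸ Nw_contDiff hfi hfis) (fun j z h3 h4 => ?_)
    (fun j z h3 h4 => ?_) (fun j i h3 h4 => ?_) (fun j i h3 h4 => ?_) l y h1 h2
  · have e2 : lap (fun x => Nw f x i) = fun x => f x i := by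
      rw [e]; exact funext (lap_Nw hfi hfis)
    rw [e2]
    refine ((ha' j z h3 h4).proj i).mono (le_of_eq ?_)
    beta_reduce
    rw [show (4 : ℝ) ^ j = 2 ^ j * 2 ^ j by rw [← mul_pow]; norm_num]
    field_simp
  · refine (PiLp.norm_apply_le _ i).trans ?_
    let a1 : ℕ → ℝ := fun l => if l < n then a l else 0
    have h5 := H Γ f a1 (∑ l ∈ Finset.range n, wH j l * a l) j z hΓ hf.continuous hfs he
      (fun l y hy hy' => ?_) (fun m => ?_) h3 h4
    · exact h5
    · by_cases hl : l < n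
      · simpa [a1, hl] using ha l y hy hy'
      · rw [hn y ((pow_le_pow_right₀ one_le_two (not_lt.1 hl)).trans hy)]
        simp [a1, hl]
    · calc ∑ l ∈ Finset.range m, wH j l * a1 l
          = ∑ l ∈ (Finset.range m).filter (· < n), wH j l * a l := by
            rw [Finset.sum_filter]
            exact Finset.sum_congr rfl fun l _ => by simp only [a1]; split_ifs <;> simp
        _ ≤ _ := Finset.sum_le_sum_of_subset_of_nonneg
            (fun l hl => Finset.mem_range.2 (Finset.mem_filter.1 hl).2)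
            fun l _ _ => mul_nonneg (wH_nonneg _ _) (ha0 l)
  · have h5 : (2 : ℝ) ^ i ≤ 2 ^ (j + 1) := pow_le_pow_right₀ one_le_two h3
    have h6 := hab j i h3 h4
    have h7 := hb0 j
    have h8 : (0 : ℝ) < 2 ^ i := by positivity
    have h9 : (0 : ℝ) < 2 ^ j := by positivity
    rw [pow_succ] at h5
    calc 2 ^ i * a' i ≤ 2 ^ j * 2 * b j := (mul_le_mul_of_nonneg_left h6 h8.le).trans (by gcongr)
      _ ≤ _ := by nlinarith [mul_nonneg (mul_pos hC h9).le h7]
  · have h5 : (2 : ℝ) ^ i ≤ 2 ^ (j + 2) := pow_le_pow_right₀ one_le_two h3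
    have h6 : ∑ l ∈ Finset.range n, wH i l * a l ≤ 64 * b j := by
      refine le_trans (Finset.sum_le_sum fun l _ =>
        mul_le_mul_of_nonneg_right (wH_near h4 l) (ha0 l)) ?_
      simp only [mul_assoc, ← Finset.mul_sum]
      linarith [hb j n]
    have h7 := hb0 j
    have h9 : (0 : ℝ) < 2 ^ j := by positivity
    rw [pow_add] at h5
    calc C * 2 ^ i * ∑ l ∈ Finset.range n, wH i l * a l ≤ C * (2 ^ j * 2 ^ 2) * (64 * b j) := by
          have : 0 ≤ ∑ l ∈ Finset.range n, wH i l * a l :=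
            Finset.sum_nonneg fun l _ => mul_nonneg (wH_nonneg _ _) (ha0 l)
          gcongr
      _ ≤ _ := by nlinarith [mul_nonneg h9.le h7]

end Crest.Agent.N207.Ph

end
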