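import Crest.Agent.N207.Ph.Pb2
import Crest.Agent.N207.Ph.Ad3
import Crest.Agent.N207.Ph.Mu
import Crest.Agent.N207.TR.Core
import Crest.Agent.N207.TR.Top

-- ▼ part N207/Ph/Sw1
section

/-!
# Row 207, block PHI (helper2): Euclidean tools for `SW`
-/

set_option autoImplicit false
set_option linter.unusedSectionVars false

open scoped ContDiff Manifold Topology NNReal Nat
open Set MeasureTheory Filter Metric
open Crest.GeometryTopology.CoordMetric Crest.GeometryTopology.ChartCurvature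
  Crest.GeometryTopology.MetricFamily
open Crest.Agent.R202.Tens

noncomputable section

namespace Crest.Agent.N207.Ph.Sw

open Sk G

variable {G G1 K H : MetricField 4} {T : E4 → E4} {y : E4} {d δ : ℝ} {m : ℕ}

theorem ev_lt {c : ℝ} (h : ‖y‖ < c) : ∀ᶠ z in 𝓝 y, ‖z‖ < c :=
  (isOpen_lt continuous_norm continuous_const).mem_nhds h

theorem ev_gt {c : ℝ} (h : c < ‖y‖) : ∀ᶠ z in 𝓝 y, c < ‖z‖ :=
  (isOpen_lt continuous_const continuous_norm).mem_nhds h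

/-! ### the interpolating map -/

/-- `1` on `6 ≤ |y| ≤ 11`, `0` outside `5 < |y| < 12` -/
def chi (y : E4) : ℝ := up 5 6 y * (1 - up 11 12 y)

theorem chi_sm : ContDiff ℝ ∞ chi := (up_smooth 5 6).mul (contDiff_const.sub (up_smooth 11 12))

theorem chi_one (h1 : 6 ≤ ‖y‖) (h2 : ‖y‖ ≤ 11) : chi y = 1 := by
  rw [chi, up_eq_one (by norm_num) (by norm_num) h1, up_eq_zero (by norm_num) (by norm_num) h2]
  norm_num

theorem chi_zero (h : ‖y‖ ≤ 5 ∨ 12 ≤ ‖y‖) : chi y = 0 := by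
  rcases h with h | h
  · rw [chi, up_eq_zero (by norm_num) (by norm_num) h, zero_mul]
  · rw [chi, up_eq_one (a := 11) (by norm_num) (by norm_num) h, sub_self, mul_zero]

theorem chi_iso (γ : Iso) (y : E4) : chi (γ y) = chi y := by simp only [chi, up, γ.norm_map]

/-- a compactly supported perturbation of the identity -/
structure Mp (T : E4 → E4) (d : ℝ) : Prop where
  jb : ∀ y, JB 4 (fun z => T z - z) y 1 d
  out : ∀ y, 12 ≤ ‖y‖ → T y = y

theorem exists_mp : ∃ C : ℝ, 1 ≤ C ∧ ∀ (W : E4 → E4) (δ : ℝ), 0 ≤ δ →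
    (∀ y ∈ shell 4 16, JB 4 W y 1 δ) → Mp (fun y => y + chi y • W y) (C * δ) := by
  obtain ⟨C, hC, h⟩ := exists_jb_fixed chi_sm 4 16
  refine ⟨2 ^ 4 * C, by linarith, fun W δ hδ hW => ⟨fun y => ?_, fun y hy => ?_⟩⟩
  · simp only [add_sub_cancel_left]
    by_cases hy : y ∈ shell 4 16
    · have h1 := h 1 one_pos y (by linarith [hy.2])
      simp only [inv_one, one_smul] at h1
      exact (h1.smul zero_le_one (hW y hy)).mono (le_of_eq (by ring))
    · refine (JB.const (0 : E4) (by rw [norm_zero]; positivity)).congr ?_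
      rw [shell, mem_ofPred_eq, not_and_or, not_lt, not_lt] at hy
      rcases hy with hy | hy
      · filter_upwards [ev_lt (c := 5) (y := y) (by linarith)] with z hz
        rw [chi_zero (Or.inl hz.le), zero_smul]
      · filter_upwards [ev_gt (c := 12) (y := y) (by linarith)] with z hz
        rw [chi_zero (Or.inr hz.le), zero_smul]
  · simp only [chi_zero (Or.inr hy), zero_smul, add_zero]

namespace Mp

variable (h : Mp T d)
include h

theorem sm : ContDiff ℝ ∞ T := contDiff_iff_contDiffAt.2 fun y => by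
  simpa using (h.jb y).sm.add contDiffAt_id

theorem val (y : E4) : ‖T y - y‖ ≤ d := (h.jb y).val

theorem abs_le (y : E4) : ‖y‖ - d ≤ ‖T y‖ ∧ ‖T y‖ ≤ ‖y‖ + d := by
  have := _root_.abs_le.1 ((abs_norm_sub_norm_le (T y) y).trans (h.val y))
  constructor <;> linarith [this.1, this.2]

theorem der (y : E4) : ‖fderiv ℝ (fun z => T z - z) y‖ ≤ d :=
  (JB.fderiv (m := 0) one_pos (((h.jb y).of_le (by norm_num)).mono (mul_one d).ge)).val

theorem two (hd : d ≤ 1) (y : E4) : ‖fderiv ℝ T y‖ ≤ 2 := by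
  rw [fderiv_eq_add h.sm]
  exact (norm_add_le _ _).trans
    (by linarith [h.der y, ContinuousLinearMap.norm_id_le (𝕜 := ℝ) (E := E4)])

theorem inj (hd : d ≤ 1 / 2) (y : E4) : Function.Injective (fderiv ℝ T y) := by
  rw [injective_iff_map_eq_zero]
  intro v hv
  rw [fderiv_eq_add h.sm] at hv
  have h1 : fderiv ℝ (fun z => T z - z) y v = -v := eq_neg_of_add_eq_zero_right hv
  have h2 := (fderiv ℝ (fun z => T z - z) y).le_of_opNorm_le (h.der y) v
  rw [h1, norm_neg] at h2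
  exact norm_eq_zero.1 (by nlinarith [norm_nonneg v])

theorem bij (hd : d ≤ 1 / 2) : Function.Bijective T := by
  have hD : Differentiable ℝ fun z => T z - z := fun z =>
    (h.jb z).sm.differentiableAt (by simp)
  have h1 : ApproximatesLinearOn T
      ((ContinuousLinearEquiv.refl ℝ E4 : E4 ≃L[ℝ] E4) : E4 →L[ℝ] E4) univ (1 / 2) := by
    intro x _ z _
    have := convex_univ.norm_image_sub_le_of_norm_fderiv_le (𝕜 := ℝ) (fun w _ => hD w)
      (fun w _ => (h.der w).trans hd) (mem_univ z) (mem_univ x)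
    have e : T x - T z - (x - z) = T x - x - (T z - z) := by abel
    simpa [e] using this
  have h2 : Subsingleton E4 ∨ (1 / 2 : ℝ≥0) <
      ‖((ContinuousLinearEquiv.refl ℝ E4 : E4 ≃L[ℝ] E4).symm : E4 →L[ℝ] E4)‖₊⁻¹ := by
    right
    simp only [ContinuousLinearEquiv.refl_symm, ContinuousLinearEquiv.coe_refl,
      ContinuousLinearMap.nnnorm_id, inv_one]
    norm_num
  exact ⟨injOn_univ.1 (h1.injOn h2), h1.surjective h2⟩

theorem fl (hd : d ≤ 1 / 2) (hG : Fl G) : Fl (pbm T G) :=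
  fl_pbm h.sm (h.inj hd) ⟨12, h.out⟩ hG

theorem pull (hd : d ≤ 1 / 2) (hG : Fl G) : Pull (pbm T G) G T univ univ :=
  pull_pbm h.sm (h.inj hd) hG.riem

theorem ev (hy : 12 < ‖y‖) : pbm T G =ᶠ[𝓝 y] G := by
  filter_upwards [(ev_gt hy).eventually_nhds] with z hz
  have e : T =ᶠ[𝓝 z] fun w => w := hz.mono fun w hw => h.out w hw.le
  ext i j
  rw [pbm, Matrix.of_apply, AI.pullT_congr (T := matT G) (T' := matT G) e rfl, AI.pullT_id]
  rfl

theorem rl (hd : d ≤ 1 / 2) (hG : Fl G) (hdet : ∀ x, 1 / 2 ≤ |(fderiv ℝ T x).det|) :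
    RL (pbm T G) 8 ≤ 2048 * RL G 1 := by
  have p := h.pull hd hG
  have hS := Ad.meas_ge 8
  have hD : ∀ x ∈ {x : E4 | 8 ≤ ‖x‖}, HasFDerivWithinAt T (fderiv ℝ T x) {x : E4 | 8 ≤ ‖x‖} x :=
    fun x _ => (h.sm.differentiable (by simp) x).hasFDerivAt.hasFDerivWithinAt
  have hI := hG.ric_int
  have e := integral_image_eq_integral_abs_det_fderiv_smul (volume : Measure E4) hS hD
    (h.bij hd).1.injOn fun x => ‖x‖ ^ 2 * ∑ i, ∑ j, ricci G x i j ^ 2
  have i1 := (integrableOn_image_iff_integrableOn_abs_det_fderiv_smul (volume : Measure E4) hS hD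
    (h.bij hd).1.injOn fun x => ‖x‖ ^ 2 * ∑ i, ∑ j, ricci G x i j ^ 2).1 hI.integrableOn
  have h3 : ∫ x in T '' {x : E4 | 8 ≤ ‖x‖}, ‖x‖ ^ 2 * ∑ i, ∑ j, ricci G x i j ^ 2 ≤ RL G 1 :=
    setIntegral_mono_set hI.integrableOn (Eventually.of_forall fun x => by positivity)
      (LE.le.eventuallyLE (by
        rintro _ ⟨x, hx, rfl⟩
        have h8 : 8 ≤ ‖x‖ := hx
        show 1 ≤ ‖T x‖
        linarith [(h.abs_le x).1]))
  refine le_trans ?_ (mul_le_mul_of_nonneg_left h3 (by positivity))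
  rw [e, ← integral_const_mul, RL]
  refine integral_mono_of_nonneg (Eventually.of_forall fun x => by positivity)
    (i1.const_mul _) ((ae_restrict_mem hS).mono fun x hx => ?_)
  have k1 := ric_pbm p x (h.two (by linarith) x)
  have h8 : 8 ≤ ‖x‖ := hx
  have k2 : ‖x‖ ≤ 2 * ‖T x‖ := by linarith [(h.abs_le x).1]
  simp only [smul_eq_mul]
  calc _ ≤ (2 * ‖T x‖) ^ 2 * (256 * ∑ a, ∑ b, ricci G (T x) a b ^ 2) := by gcongr
    _ = 2048 * (1 / 2 * (‖T x‖ ^ 2 * ∑ a, ∑ b, ricci G (T x) a b ^ 2)) := by ring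
    _ ≤ _ := by gcongr; exact hdet x

theorem jg (hd : 65536 * d ≤ 1) (hG : Fl G) (hS : Sml 3 G δ) (hy : ‖y‖ ≤ 15) :
    JG 3 (pbm T G) y (‖y‖ + 1) (3000000 * (δ + d)) := jg_of_jb fun i j => by
  have hs : 0 < ‖y‖ + 1 := by positivity
  have hd0 := (h.jb y).nonneg
  have hδ : 0 ≤ δ := Rad.jg_nonneg (hS y)
  have h1 : JB 4 (fun z => T z - z) y (‖y‖ + 1) (65536 * d * (‖y‖ + 1)) :=
    ((h.jb y).scale zero_le_one hs.le (l := 16) (by norm_num) (by linarith)).mono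
      (by nlinarith [norm_nonneg y])
  refine (jb_pbm (m := 2) hs h.sm (fun a b => (jb_of_jg (hG.sm _) (hS (T y)) a b).scale
    (by positivity) hs.le one_le_two (by linarith [(h.abs_le y).1, norm_nonneg (T y)])) h1 i j).mono ?_
  have k1 : (1 + 65536 * d) ^ 5 ≤ 2 ^ 5 := by gcongr; linarith
  have k2 : 65536 * d * (65536 * d) ≤ 65536 * d := mul_le_of_le_one_right (by positivity) hd
  have k3 := mul_le_mul_of_nonneg_left k1 hδ
  have k4 : Kp 2 (65536 * d) (2 ^ (2 + 1) * δ) = 49152 * (δ * (1 + 65536 * d) ^ 5) +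
      2 * (65536 * d) + 32 * (65536 * d * (65536 * d)) := by
    simp only [Kp, Nat.reduceAdd, Nat.factorial, Nat.succ_eq_add_one, Nat.cast_ofNat,
      Nat.reduceMul]
    ring
  rw [k4]
  linarith

end Mp

/-! ### dyadic sums -/

theorem ds_mono {δ' : ℝ} (h : DS m G δ) (hδ : δ ≤ δ') : DS m G δ' := by
  obtain ⟨ε, h0, h1, h2⟩ := h
  exact ⟨ε, h0, fun n => (h1 n).trans hδ, h2⟩

theorem ds_le {m' : ℕ} (h : DS m G δ) (hm : m' ≤ m) : DS m' G δ := by
  obtain ⟨ε, h0, h1, h2⟩ := h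
  exact ⟨ε, h0, h1, fun l y a b => jg_of_le (h2 l y a b) hm⟩

theorem ds_glue {c : ℝ} (h : DS m G1 δ) (hc : 0 ≤ c)
    (h1 : ∀ y : E4, ‖y‖ ≤ 15 → JG m G y (‖y‖ + 1) c) (h2 : ∀ y : E4, 15 ≤ ‖y‖ → G =ᶠ[𝓝 y] G1) :
    DS m G (δ + 4 * c) := by
  obtain ⟨ε, k0, k1, k2⟩ := h
  refine ⟨fun l => ε l + if l ∈ Finset.range 4 then c else 0,
    fun l => add_nonneg (k0 l) (by split_ifs <;> simp [hc]), fun n => ?_, fun l y a b => ?_⟩
  · rw [Finset.sum_add_distrib, Finset.sum_ite_mem, Finset.sum_const, nsmul_eq_mul]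
    have : ((Finset.range n ∩ Finset.range 4).card : ℝ) ≤ 4 := by
      exact_mod_cast (Finset.card_le_card Finset.inter_subset_right).trans (by simp)
    exact add_le_add (k1 n) (mul_le_mul_of_nonneg_right this hc)
  · by_cases hl : l ∈ Finset.range 4
    · have : (2 : ℝ) ^ (l + 1) ≤ 2 ^ 4 :=
        pow_le_pow_right₀ one_le_two (Finset.mem_range.1 hl)
      exact jg_mono (h1 y (by linarith)) (by simp only [if_pos hl]; linarith [k0 l])
    · have : (2 : ℝ) ^ 4 ≤ 2 ^ l :=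
        pow_le_pow_right₀ one_le_two (not_lt.1 fun h => hl (Finset.mem_range.2 h))
      exact jg_mono (jg_congr (k2 l y a b) (h2 y (by linarith))) (by simp only [if_neg hl]; linarith)

theorem sum_shift {ε : ℕ → ℝ} (h0 : ∀ l, 0 ≤ ε l) (h1 : ∀ n, ∑ l ∈ Finset.range n, ε l ≤ δ)
    (i j n : ℕ) : ∑ l ∈ Finset.range n, (if j ≤ l then ε (l - j + i) else 0) ≤ δ := by
  rw [← Finset.sum_filter, ← Finset.sum_image (g := fun l => l - j + i) (f := ε) fun a ha b hb e => by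
    have h1 := (Finset.mem_filter.1 ha).2
    have h2 := (Finset.mem_filter.1 hb).2
    simp only at e
    omega]
  refine le_trans (Finset.sum_le_sum_of_subset_of_nonneg (fun k hk => ?_) fun k _ _ => h0 k)
    (h1 (n + i))
  obtain ⟨l, hl, rfl⟩ := Finset.mem_image.1 hk
  have := Finset.mem_range.1 (Finset.mem_filter.1 hl).1
  exact Finset.mem_range.2 (by omega)

theorem jg_rs {κ c : ℝ} (hκ : 1 ≤ κ) (h : JG m K (κ⁻¹ • y) (‖κ⁻¹ • y‖ + 1) c) :
    JG m (rs K κ⁻¹) y (‖y‖ + 1) c := fun k hk i j => by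
  have h0 : 0 < κ := by linarith
  refine le_trans ?_ (h k hk i j)
  have h1 := norm_comp_smul (dv K i j) (inv_pos.2 h0) y k
  have h2 : κ⁻¹ * (‖y‖ + 1) ≤ ‖κ⁻¹ • y‖ + 1 := by
    rw [Ad.norm_smul' (inv_pos.2 h0), mul_add, mul_one]
    linarith [inv_le_one_of_one_le₀ hκ]
  calc _ ≤ ‖iteratedFDeriv ℝ k (dv K i j) (κ⁻¹ • y)‖ * κ⁻¹ ^ k * (‖y‖ + 1) ^ k :=
        mul_le_mul_of_nonneg_right h1 (by positivity)
    _ ≤ _ := by
        rw [mul_assoc, ← mul_pow]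
        exact mul_le_mul_of_nonneg_left (pow_le_pow_left₀ (by positivity) h2 k) (norm_nonneg _)

theorem ds_glue2 {δ' κ : ℝ} (h : DS m G1 δ) (h' : DS m K δ') (hκ : 1 ≤ κ)
    (h1 : ∀ y : E4, ‖y‖ < 8 * κ → H =ᶠ[𝓝 y] G1)
    (h2 : ∀ y : E4, 8 * κ ≤ ‖y‖ → H =ᶠ[𝓝 y] rs K κ⁻¹) : DS m H (δ + 3 * δ') := by
  obtain ⟨ε, k0, k1, k2⟩ := h
  obtain ⟨ε', l0, l1, l2⟩ := h'
  obtain ⟨j, hj, hj'⟩ := exists_nat_pow_near hκ one_lt_two
  have h0 : 0 < κ := by linarith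
  set f : ℕ → ℕ → ℝ := fun i l => if j + 1 ≤ l then ε' (l - (j + 1) + i) else 0 with hf
  have f0 : ∀ i l, 0 ≤ f i l := fun i l => by simp only [hf]; split_ifs <;> simp [l0]
  refine ⟨fun l => ε l + (f 0 l + f 1 l + f 2 l),
    fun l => add_nonneg (k0 l) (add_nonneg (add_nonneg (f0 _ _) (f0 _ _)) (f0 _ _)),
    fun n => ?_, fun l y a b => ?_⟩
  · simp only [Finset.sum_add_distrib]
    linarith [k1 n, sum_shift l0 l1 0 (j + 1) n, sum_shift l0 l1 1 (j + 1) n,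
      sum_shift l0 l1 2 (j + 1) n]
  · rcases lt_or_ge ‖y‖ (8 * κ) with hy | hy
    · exact jg_mono (jg_congr (k2 l y a b) (h1 y hy)) (by linarith [f0 0 l, f0 1 l, f0 2 l])
    · have e := Ad.norm_inv_smul h0 y
      set z := κ⁻¹ • y
      have hz : 8 ≤ ‖z‖ := by nlinarith
      obtain ⟨l', a', b'⟩ := exists_nat_pow_near (x := ‖z‖ + 1) (y := 2) (by linarith) one_lt_two
      refine jg_mono (jg_congr (jg_rs hκ (l2 l' z a' b'.le)) (h2 y hy)) ?_
      have p : ∀ {a b : ℕ}, (2 : ℝ) ^ a < 2 ^ b → a < b := fun h =>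
        (pow_lt_pow_iff_right₀ one_lt_two).1 h
      have hp : (0 : ℝ) < 2 ^ j := by positivity
      have q1 : j + 3 < l + 1 := p (by rw [pow_add]; nlinarith)
      have q2 : l < j + 1 + (l' + 1) := p (by
        rw [pow_add]
        calc (2 : ℝ) ^ l ≤ κ * (‖z‖ + 1) := by nlinarith
          _ < _ := by gcongr)
      have q3 : j + l' < l + 1 + 1 := p (by
        rw [pow_add, pow_succ _ (l + 1)]
        calc (2 : ℝ) ^ j * 2 ^ l' ≤ κ * (‖z‖ + 1) := by gcongr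
          _ < _ := by nlinarith)
      have q4 : j + 1 ≤ l := by omega
      have q5 : l' = l - (j + 1) + 0 ∨ l' = l - (j + 1) + 1 ∨ l' = l - (j + 1) + 2 := by omega
      have e0 := f0 0 l
      have e1 := f0 1 l
      have e2 := f0 2 l
      simp only [hf, if_pos q4] at e0 e1 e2 ⊢
      rcases q5 with rfl | rfl | rfl <;> linarith [k0 l]

/-! ### integrals -/

theorem int_scale {w : ℝ} (hw : 0 < w) {D : Set E4} (hD : MeasurableSet D) (f : E4 → ℝ) :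
    ∫ x in D, f x = w ^ 4 * ∫ y in (fun y => w • y) ⁻¹' D, f (w • y) := by
  have h := Ad.int_rs hw fun y => D.indicator f (w • y)
  simp only [smul_inv_smul₀ hw.ne'] at h
  rw [← integral_indicator hD, h,
    ← integral_indicator (hD.preimage (measurable_const_smul w))]
  rfl

/-- change of variables -/
theorem cov (hT : ContDiff ℝ ∞ T) (hb : Function.Injective T)
    (hi : ∀ y, Function.Injective (fderiv ℝ T y)) (hG : Fl G) {S : Set E4} (hS : MeasurableSet S) :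
    ∫ x in T '' S, √(G x).det * scalarCurv G x =
      ∫ x in S, √(pbm T G x).det * scalarCurv (pbm T G) x := by
  have p := pull_pbm hT hi hG.riem
  rw [integral_image_eq_integral_abs_det_fderiv_smul volume hS (f' := fderiv ℝ T)
    (fun x _ => (hT.differentiable (by simp) x).hasFDerivAt.hasFDerivWithinAt) hb.injOn]
  refine integral_congr_ae (Eventually.of_forall fun x => ?_)
  simp only [V.sqrt_det_pull p (mem_univ x), AI.scalarCurv_pull p (mem_univ x), smul_eq_mul]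
  ring

theorem eh_ev (h : G =ᶠ[𝓝 y] G1) :
    √(G y).det * scalarCurv G y = √(G1 y).det * scalarCurv G1 y := by
  rw [h.eq_of_nhds, (AI.scalarCurv_congr h).eq_of_nhds]

theorem eh_rs {w : ℝ} (hw : 0 < w) {U : Set E4} (hG : IsRiemannianOn G U) (hy : w • y ∈ U) :
    √(rs G w y).det * scalarCurv (rs G w) y =
      w ^ 2 * (√(G (w • y)).det * scalarCurv G (w • y)) := by
  rw [Ad.scal_rs hw hG hy, rs]; ring

theorem eh_sub (hG : Fl G) (hH : Fl H) (e : EqOn G H (ball 0 2)) :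
    (∫ y in {y : E4 | 1 ≤ ‖y‖}, √(G y).det * scalarCurv G y) -
      ∫ y in {y : E4 | 1 ≤ ‖y‖}, √(H y).det * scalarCurv H y = EH G - EH H := by
  rw [EH, EH, ← integral_add_compl (Ad.meas_ge 1) (Ad.int_eh' hG),
    ← integral_add_compl (Ad.meas_ge 1) (Ad.int_eh' hH),
    setIntegral_congr_fun (Ad.meas_ge 1).compl fun y hy => eh_ev (G1 := H)
      ((ev_lt (c := 2) (by linarith [not_le.1 (show ¬1 ≤ ‖y‖ from hy)])).mono fun z hz => e (mem_ball_zero_iff.2 hz))]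
  ring

end Crest.Agent.N207.Ph.Sw

end
end

-- ▼ part N207/Ph/Sw2
section

/-!
# Row 207, block PHI (helper2): the change of the chart
-/

set_option autoImplicit false
set_option linter.unusedSectionVars false

open scoped ContDiff Manifold Topology Nat
open Set MeasureTheory Filter Metric
open Crest.GeometryTopology.CoordMetric Crest.GeometryTopology.ChartCurvature
  Crest.GeometryTopology.MetricFamily
open Crest.Agent.R202.Tens

noncomputable section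

namespace Crest.Agent.N207.Ph.Sw

open Sk G

variable {M : Type*} [TopologicalSpace M] [ChartedSpace E4 M] [IsManifold 𝓘(ℝ, E4) ∞ M]
  [CompactSpace M] [T3Space M] [ConnectedSpace M] [MeasurableSpace M] [BorelSpace M]
  {g : Met 4 M} {N N' : Nk M} {G : MetricField 4} {u v η V : ℝ} {m1 : ℕ} {Cs : ℕ → ℝ} {x y : E4}

/-- the area formula in the units `u` -/
theorem sh (hN : N.Top) (hu : 0 < u) {r : ℝ} (hr : r ∈ Ioc N.a N.b) {D : Set E4}
    (hD : MeasurableSet D) (hs : D ⊆ shell N.a N.b) (hi : ∀ γ ∈ N.Γ, ∀ x ∈ D, γ x ∈ D)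
    (hrD : ∀ x ∈ D, r ≤ ‖x‖) (hG : ∀ y, u • y ∈ D → G =ᶠ[𝓝 y] rs (g.pm N.Ψ) u) :
    ∫ p in N.Om r ∪ N.Ψ '' D, g.scal p ∂g.vol = (∫ p in N.Om r, g.scal p ∂g.vol) +
      (Nat.card N.Γ : ℝ)⁻¹ * u ^ 2 *
        ∫ y in (fun y => u • y) ⁻¹' D, √(G y).det * scalarCurv G y := by
  obtain ⟨hm, hf⟩ := mu M g N hN D hD hs hi
  have := V.isFinite g
  have hc : Continuous g.scal := g.sm_scal.continuous
  have hI : Integrable g.scal g.vol := hc.integrable_of_hasCompactSupport (.of_compactSpace _)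
  have hd : Disjoint (N.Om r) (N.Ψ '' D) := disjoint_left.2 (by
    rintro _ h1 ⟨x, hx, rfl⟩
    have h2 := (hN.mem_Om hr).1 h1
    rw [hN.rad_Ψ (hs hx)] at h2
    linarith [hrD x hx])
  rw [setIntegral_union hd hm hI.integrableOn hI.integrableOn, (hf _ hc).2, int_scale hu hD,
    setIntegral_congr_fun (hD.preimage (measurable_const_smul u))
      (f := fun y => √(G y).det * scalarCurv G y)
      (g := fun y => u ^ 2 * (√(g.pm N.Ψ (u • y)).det * g.scal (N.Ψ (u • y)))) fun y hy => by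
        simp only
        rw [eh_ev (hG y hy), eh_rs hu (hN.par.riem g) (hs hy), hN.par.par_scal g (hs hy)],
    integral_const_mul]
  ring

theorem cm_ev (hu : 0 < u) (h1 : 1 / 2 < ‖y‖) (h2 : 16 * u * ‖y‖ < N.b) :
    cm g N u =ᶠ[𝓝 y] rs (g.pm N.Ψ) u := by
  have hb : 0 < N.b := lt_of_le_of_lt (by positivity) h2
  refine (glu_ev_in (by positivity) ?_ _ _ ?_).trans
    (glu_ev_out (by norm_num) (by norm_num) _ _ h1)
  · exact div_lt_div_of_pos_left hb (by positivity) (by linarith)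
  · rw [lt_div_iff₀ (by positivity)]; linarith

theorem good_jg (hN : N.Top) (h : Good g N m1 η Cs V) (hx : x ∈ shell N.a N.b) :
    0 ≤ η ∧ JG m1 (g.pm N.Ψ) x ‖x‖ (2 * η) := by
  have h0 : 0 < ‖x‖ := hN.a_pos.trans hx.1
  have hb : 0 < N.b := h0.trans hx.2
  have h1 : √(N.a / ‖x‖) ≤ 1 := Real.sqrt_le_one.2 ((div_le_one h0).2 hx.1.le)
  have h2 : √(‖x‖ / N.b) ≤ 1 := Real.sqrt_le_one.2 ((div_le_one hb).2 hx.2.le)
  have h3 : 0 < wt N.a N.b x :=
    add_pos_of_nonneg_of_pos (Real.sqrt_nonneg _) (Real.sqrt_pos.2 (by positivity))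
  have h4 : 0 ≤ η := nonneg_of_mul_nonneg_left (Rad.jg_nonneg (h.jet x hx)) h3
  refine ⟨h4, jg_mono (h.jet x hx) ?_⟩
  rw [wt, mul_comm 2]
  exact mul_le_mul_of_nonneg_left (by linarith) h4

theorem ric_ebd (hN : N.Top) (h : Good g N m1 η Cs V) (hη : η ≤ 1 / 200) {ρ e : ℝ} (hρ : 0 < ρ)
    (he : Ebd g N 2 ρ e) (hx : x ∈ shell N.a N.b) (h1 : ρ / 64 ≤ ‖x‖) (h2 : ‖x‖ ≤ N.b / 4)
    (i j : Fin 4) : ricci (g.pm N.Ψ) x i j ^ 2 ≤ 4 * (e / ρ ^ 2) ^ 2 := by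
  obtain ⟨J, j0, j1, j2⟩ := he
  have hu : 0 < ρ / 64 := by positivity
  obtain ⟨l, a, b⟩ := exists_nat_pow_near ((one_le_div hu).2 h1) one_lt_two
  have h3 := j1 l x ((le_div_iff₀ hu).1 a) ((div_le_iff₀ hu).1 b.le) h2 0 (Nat.zero_le _)
  rw [pow_zero, one_mul, hN.par.par_rc g 0 hx] at h3
  have h4 : J l ≤ e / ρ ^ 2 := by
    rw [le_div_iff₀ (by positivity), mul_comm]
    refine le_trans (mul_le_mul_of_nonneg_left ?_ (by positivity)) (j2 (l + 1))
    linarith [Finset.single_le_sum (fun i _ => j0 i) (Finset.self_mem_range_succ l)]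
  have hR := hN.par.riem g
  have h5 : ricci (g.pm N.Ψ) x i j ^ 2 ≤ 2 ^ 2 * nsq (g.pm N.Ψ) (ricT (g.pm N.Ψ)) x :=
    Ar.comp_sq_le (hR.posDef x hx) (Rad.jg_up (good_jg hN h hx).2 (by linarith))
      (ricT (g.pm N.Ψ) x) ![i, j]
  have h6 : nsq (g.pm N.Ψ) (ricT (g.pm N.Ψ)) x ≤ (e / ρ ^ 2) ^ 2 :=
    (Real.sqrt_le_left ((j0 l).trans h4)).1 (h3.trans h4)
  linarith

theorem pbm_comp {S T : E4 → E4} (hS : Differentiable ℝ S) (hT : Differentiable ℝ T)
    (G : MetricField 4) : pbm T (pbm S G) = pbm (fun z => S (T z)) G := by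
  funext y
  ext i j
  rw [pbm, Matrix.of_apply, matT_pbm, AI.pullT_comp _ (hT y) (hS _)]
  rfl

theorem inv_iso {Γ Γ' : Subgroup Iso} (A : Iso) (h : ∀ γ ∈ Γ, ∃ γ' ∈ Γ', ∀ x, A (γ x) = γ' (A x))
    (hG : Inv Γ' G) : Inv Γ (pbm A G) := by
  intro γ hγ x
  obtain ⟨γ', hγ', e⟩ := h γ hγ
  rw [matT_pbm, AI.pullT_comp _ (γ.differentiable x) (A.differentiable _),
    show (fun z => A (γ z)) = fun z => γ' (A z) from funext e,
    ← AI.pullT_comp _ (A.differentiable x) (γ'.differentiable _),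
    show pullT γ' (matT G) = matT G from funext fun z => (hG γ' hγ' z).symm]

/-- two necks with close radial functions -/
structure Cl (N N' : Nk M) (v : ℝ) : Prop where
  top : N.Top
  top' : N'.Top
  a : 2 * N.a ≤ v
  a' : 2 * N'.a ≤ v
  b : 256 * v ≤ N.b
  b' : 256 * v ≤ N'.b
  cmp : Cmp N N' v (16 * v)
  near : ∀ p, 4 * v < N.rad p → N.rad p < 16 * v → |N'.rad p - N.rad p| ≤ v / 4

namespace Cl

variable (h : Cl N N' v)
include h

theorem pos : 0 < v := by linarith [h.a, h.top.a_pos]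

theorem om {s : ℝ} (h1 : 1 ≤ s) (h2 : s ≤ 16) {p : M} : p ∈ N.Om (s * v) ↔ N.rad p < s * v :=
  h.top.mem_Om ⟨by nlinarith [h.a, h.pos], by nlinarith [h.b, h.pos]⟩

theorem om' {s : ℝ} (h1 : 1 ≤ s) (h2 : s ≤ 16) {p : M} : p ∈ N'.Om (s * v) ↔ N'.rad p < s * v :=
  h.top'.mem_Om ⟨by nlinarith [h.a', h.pos], by nlinarith [h.b', h.pos]⟩

theorem up {p : M} (hp : N.rad p < 8 * v) : N'.rad p < 9 * v := by
  have h0 := h.pos
  rcases lt_or_ge (N.rad p) (9 / 2 * v) with h1 | h1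
  · refine (h.om' (by norm_num) (by norm_num)).1 ((h.cmp (9 * v) ⟨by linarith, by linarith⟩).1 ?_)
    rw [show 9 * v / 2 = 9 / 2 * v by ring]
    exact (h.om (by norm_num) (by norm_num)).2 h1
  · linarith [(abs_le.1 (h.near p (by linarith) (by linarith))).2]

theorem down {p : M} (hp : N'.rad p < 13 / 2 * v) : N.rad p < 8 * v := by
  have h0 := h.pos
  have h1 : N.rad p < 13 * v := by
    refine (h.om (by norm_num) (by norm_num)).1 ((h.cmp (13 * v) ⟨by linarith, by linarith⟩).2 ?_)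
    rw [show 13 * v / 2 = 13 / 2 * v by ring]
    exact (h.om' (by norm_num) (by norm_num)).2 hp
  by_contra h2
  linarith [(abs_le.1 (h.near p (by linarith [not_lt.1 h2]) (by linarith))).1, not_lt.1 h2]

end Cl

/-- the part of the second neck which is inside radius `8 v` of the first one -/
def Dv (N N' : Nk M) (v : ℝ) : Set E4 :=
  {x | v ≤ ‖x‖} ∩ (shell N'.a (16 * v) ∩ N'.Ψ ⁻¹' N.Om (8 * v))

theorem Cl.sub (h : Cl N N' v) : shell N'.a (16 * v) ⊆ shell N'.a N'.b :=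
  fun _ hx => ⟨hx.1, by linarith [hx.2, h.b', h.pos]⟩

theorem Cl.union (h : Cl N N' v) : N'.Om v ∪ N'.Ψ '' Dv N N' v = N.Om (8 * v) := by
  have h0 := h.pos
  have e : ∀ p, p ∈ N'.Om v ↔ N'.rad p < v := fun p => by
    simpa using h.om' (p := p) le_rfl (by norm_num)
  refine Subset.antisymm ?_ fun p hp => ?_
  · rintro p (hp | ⟨x, hx, rfl⟩)
    · exact (h.om (by norm_num) (by norm_num)).2 (h.down (by linarith [(e p).1 hp]))
    · exact hx.2.2
  · have h1 := h.up ((h.om (by norm_num) (by norm_num)).1 hp)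
    rcases lt_or_ge (N'.rad p) v with h2 | h2
    · exact Or.inl ((e p).2 h2)
    · obtain ⟨x, hx, rfl, e'⟩ := h.top'.exists_of_rad (p := p) (by linarith [h.a'])
        (by linarith [h.b'])
      exact Or.inr ⟨x, ⟨h2.trans e'.ge, ⟨hx.1, by linarith⟩, hp⟩, rfl⟩

/-- the action of the second neck, cut along a sphere of the first one -/
theorem Cl.sv (h : Cl N N' v) {δ : ℝ} (hG : PE g N' v G δ) {S : E4 → E4}
    (hs : Function.Bijective S) (h1 : ∀ y, ‖y‖ - 1 / 4 ≤ ‖S y‖ ∧ ‖S y‖ ≤ ‖y‖ + 1 / 4)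
    (h2 : ∀ y, 6 ≤ ‖y‖ → ‖y‖ ≤ 11 → N'.Ψ (v • S y) = N.Ψ (v • y)) :
    Sv g N' v G = (∫ p in N.Om (8 * v), g.scal p ∂g.vol) + (Nat.card N'.Γ : ℝ)⁻¹ * v ^ 2 *
      ∫ y in S '' {y : E4 | 8 ≤ ‖y‖}, √(G y).det * scalarCurv G y := by
  have h0 := h.pos
  have hn := Ad.norm_smul' h0
  have hm : MeasurableSet (Dv N N' v) := (Ad.meas_ge v).inter
    ((h.top'.par.continuousOn.mono h.sub).isOpen_inter_preimage (Sk.isOpen_shell _ _)
      (h.top.opn _ ⟨by linarith [h.a], by linarith [h.b]⟩)).measurableSet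
  have r1 : ∀ y, 6 ≤ ‖y‖ → ‖y‖ ≤ 11 → N.rad (N'.Ψ (v • S y)) = v * ‖y‖ := fun y a b => by
    rw [h2 y a b, h.top.rad_Ψ ⟨by rw [hn]; nlinarith [h.a], by rw [hn]; nlinarith [h.b]⟩, hn]
  have key : ∀ y, 1 ≤ ‖S y‖ → (v • S y ∈ Dv N N' v ↔ ‖y‖ < 8) := fun y hy => by
    obtain ⟨a, b⟩ := h1 y
    refine ⟨fun hD => ?_, fun h8 => ?_⟩
    · have h3 := (h.om (by norm_num) (by norm_num)).1 hD.2.2
      by_contra h8
      rcases le_or_gt ‖y‖ 11 with h4 | h4
      · rw [r1 y (by linarith [not_lt.1 h8]) h4] at h3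
        nlinarith [not_lt.1 h8]
      · have h5 := h.up h3
        rw [h.top'.rad_Ψ (h.sub hD.2.1), hn] at h5
        nlinarith
    · have h3 : v • S y ∈ shell N'.a (16 * v) :=
        ⟨by rw [hn]; nlinarith [h.a'], by rw [hn]; nlinarith⟩
      refine ⟨show v ≤ _ by rw [hn]; nlinarith, h3, (h.om (by norm_num) (by norm_num)).2 ?_⟩
      rcases le_or_gt 6 ‖y‖ with h4 | h4
      · rw [r1 y h4 (by linarith)]; nlinarith
      · refine h.down ?_
        rw [h.top'.rad_Ψ (h.sub h3), hn]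
        nlinarith
  have e : {y : E4 | 1 ≤ ‖y‖} = S '' {y : E4 | 8 ≤ ‖y‖} ∪ (fun y => v • y) ⁻¹' Dv N N' v := by
    refine Subset.antisymm (fun z hz => ?_) ?_
    · obtain ⟨y, rfl⟩ := hs.2 z
      rcases le_or_gt 8 ‖y‖ with h8 | h8
      exacts [Or.inl ⟨y, h8, rfl⟩, Or.inr ((key y hz).2 h8)]
    · rintro z (⟨y, hy, rfl⟩ | hz)
      · exact le_trans (by linarith [show 8 ≤ ‖y‖ from hy]) (h1 y).1
      · have h3 : v ≤ ‖v • z‖ := hz.1
        rw [hn] at h3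
        show 1 ≤ ‖z‖
        nlinarith
  have hd : Disjoint (S '' {y : E4 | 8 ≤ ‖y‖}) ((fun y => v • y) ⁻¹' Dv N N' v) :=
    disjoint_left.2 (by
      rintro _ ⟨y, hy, rfl⟩ hz
      have h8 : 8 ≤ ‖y‖ := hy
      exact not_lt.2 h8 ((key y (by linarith [(h1 y).1])).1 hz))
  have hI := Ad.int_eh' hG.fl
  rw [Sv, e, setIntegral_union hd (hm.preimage (measurable_const_smul v)) hI.integrableOn
    hI.integrableOn, ← h.union, sh (G := G) h.top' h0 ⟨by linarith [h.a'], by linarith [h.b']⟩ hm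
    (fun x hx => h.sub hx.2.1) (fun γ hγ x hx => ⟨?_, ?_, ?_⟩) (fun x hx => hx.1) fun y hy => ?_]
  · ring
  · exact le_trans hx.1 (γ.norm_map x).ge
  · exact (shell_iso γ).2 hx.2.1
  · have := (h.top'.fib x (h.sub hx.2.1) _ (h.sub ((shell_iso γ).2 hx.2.1))).2 ⟨γ, hγ, rfl⟩
    rw [mem_preimage, ← this]
    exact hx.2.2
  · have a : v ≤ ‖v • y‖ := hy.1
    have b := hy.2.1.2
    rw [hn] at a b
    refine EventuallyEq.trans ((ev_lt (c := 16) (by nlinarith)).mono fun z hz =>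
      hG.eq (mem_ball_zero_iff.2 hz)) (cm_ev h0 (by nlinarith) (by nlinarith [h.b']))

/-- **change of the chart** -/
theorem ch (hT : TRANS M) : ∃ η0 C : ℝ, 0 < η0 ∧ 0 < C ∧ ∀ (g : Met 4 M) (N N' : Nk M) (m1 : ℕ)
    (η V v δ : ℝ) (Cs : ℕ → ℝ) (G : MetricField 4), 4 ≤ m1 → η ≤ η0 → N.Top → N'.Top →
    N'.b = N.b → 2 * N.a ≤ v → 2 * N'.a ≤ v → 256 * v ≤ N.b → Good g N m1 η Cs V →
    Good g N' m1 η Cs V → Cmp N N' v N.b → PE g N' v G δ →
    ∃ K : MetricField 4, Fl K ∧ Inv N.Γ K ∧ DS 3 K (C * (δ + η)) ∧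
      (∀ y : E4, 6 < ‖y‖ → ‖y‖ < 11 → K y = g.pm N.Ψ (v • y)) ∧ RL K 8 ≤ 2048 * RL G 1 ∧
      Sv g N' v G = (∫ p in N.Om (8 * v), g.scal p ∂g.vol) + (Nat.card N.Γ : ℝ)⁻¹ * v ^ 2 *
        ∫ y in {y : E4 | 8 ≤ ‖y‖}, √(K y).det * scalarCurv K y := by
  obtain ⟨η1, hη1, hT⟩ := hT
  obtain ⟨C1, hC1, hT⟩ := hT 2
  obtain ⟨C2, hC2, hM⟩ := exists_mp
  obtain ⟨C3, hC3, hP⟩ := pbiso 3
  obtain ⟨d0, hd0, -, hdet⟩ := exists_det
  have hC : 0 < C2 * (16 * C1) := by positivity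
  refine ⟨min (η1 / 2) (min d0 (1 / 65536) / (C2 * (16 * C1))),
    C3 + 4 * (3000000 * (C3 + C2 * (16 * C1))), by positivity, by positivity,
    fun g N N' m1 η V v δ Cs G hm hη hN hN' hb ha ha' hv hg hg' hc hG => ?_⟩
  have h0 : 0 < v := by linarith [hN.a_pos]
  have hn := Ad.norm_smul' h0
  have hη2 : 2 * η ≤ η1 := by linarith [hη.trans (min_le_left _ _)]
  have hd : C2 * (16 * C1 * η) ≤ min d0 (1 / 65536) := by
    have := (le_div_iff₀ hC).1 (hη.trans (min_le_right _ _))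
    linarith
  have hd1 := hd.trans (min_le_left _ _)
  have hd2 := hd.trans (min_le_right _ _)
  obtain ⟨x0, hx0⟩ := TR.shell_nonempty hN.a_pos.le hN.a_lt
  have hη0 := (good_jg hN hg hx0).1
  obtain ⟨Θ, ι, t1, t2, t3⟩ := hT g N N' V v N.b hN hN'
    ⟨fun x hx => Rad.jg_mono (good_jg hN hg hx).2 (by omega) hη2, hg.vol⟩
    ⟨fun x hx => Rad.jg_mono (good_jg hN' hg' hx).2 (by omega) hη2, hg'.vol⟩ ha ha' le_rfl hb.ge
    (by linarith) hc
  obtain ⟨A, a1, a2⟩ := t3 (8 * v) (2 * η) (by linarith) (by linarith) (by linarith) hη2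
    (fun x hx => jg_of_le (good_jg hN hg ⟨by linarith [hx.1], by linarith [hx.2]⟩).2 (by omega))
    (fun x hx => jg_of_le (good_jg hN' hg' ⟨by linarith [hx.1], by linarith [hx.2]⟩).2 (by omega))
  have s1 : ∀ y ∈ shell 4 16, v • y ∈ shell v (N.b / 2) := fun y hy =>
    ⟨by rw [hn]; nlinarith [hy.1], by rw [hn]; nlinarith [hy.2]⟩
  have jb : ∀ x ∈ shell (4 * v) (16 * v), JB 4 (fun y => Θ y - A y) x (8 * v) (16 * C1 * η * v) :=
    fun x hx => ⟨(t1.contDiffAt ((Sk.isOpen_shell _ _).mem_nhds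
      ⟨by linarith [hx.1], by linarith [hx.2]⟩)).sub A.contDiff.contDiffAt, fun k hk =>
      (a2 x ⟨by linarith [hx.1], by linarith [hx.2]⟩ k hk).trans (le_of_eq (by ring))⟩
  set W : E4 → E4 := fun y => v⁻¹ • A.symm (Θ (v • y) - A (v • y)) with hW
  have mp := hM W (16 * C1 * η) (by positivity) fun y hy => by
    have j1 := JB.unit h0 ((jb (v • y) ⟨by rw [hn]; nlinarith [hy.1],
      by rw [hn]; nlinarith [hy.2]⟩).scale (by positivity) h0.le le_rfl (by linarith))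
    refine (j1.clm (v⁻¹ • (A.symm.toContinuousLinearEquiv : E4 →L[ℝ] E4)) zero_le_one (l := v⁻¹)
      ?_).mono (le_of_eq (by field_simp))
    rw [norm_smul, norm_inv, Real.norm_of_nonneg h0.le]
    exact mul_le_of_le_one_right (by positivity)
      A.symm.toLinearIsometry.norm_toContinuousLinearMap_le
  set T : E4 → E4 := fun y => y + chi y • W y with hTd
  have hd3 : C2 * (16 * C1 * η) ≤ 1 / 2 := by linarith
  have e1 : ∀ y : E4, 6 ≤ ‖y‖ → ‖y‖ ≤ 11 → A (T y) = v⁻¹ • Θ (v • y) := fun y a b => by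
    simp only [hTd, hW, chi_one a b, one_smul, map_add, map_smul, A.apply_symm_apply, smul_sub,
      inv_smul_smul₀ h0.ne']
    abel
  have e2 : ∀ y : E4, 6 ≤ ‖y‖ → ‖y‖ ≤ 11 → N'.Ψ (v • A (T y)) = N.Ψ (v • y) := fun y a b => by
    rw [e1 y a b, smul_inv_smul₀ h0.ne']
    exact (t2 _ (s1 y ⟨by linarith, by linarith⟩)).2.1
  have hA : ∀ y, ‖y‖ - 1 / 4 ≤ ‖A (T y)‖ ∧ ‖A (T y)‖ ≤ ‖y‖ + 1 / 4 := fun y => by
    rw [A.norm_map]
    constructor <;> linarith [(mp.abs_le y).1, (mp.abs_le y).2]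
  have cl : Cl N N' v := ⟨hN, hN', ha, ha', hv, hb ▸ hv,
    fun r hr => hc r ⟨hr.1, by linarith [hr.2]⟩, fun p p1 p2 => by
      obtain ⟨x, hx, rfl, e⟩ := hN.exists_of_rad (p := p) (by linarith) (by linarith)
      rw [← e] at p1 p2 ⊢
      obtain ⟨q1, q2, -⟩ := t2 x ⟨by linarith, by linarith⟩
      rw [← q2, hN'.rad_Ψ q1, ← A.norm_map x]
      refine (abs_norm_sub_norm_le _ _).trans ((jb x ⟨p1, p2⟩).val.trans ?_)
      have : 16 * C1 * η ≤ C2 * (16 * C1 * η) := le_mul_of_one_le_left (by positivity) hC2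
      nlinarith⟩
  obtain ⟨p1, -, p3, -, -, p6⟩ := hP A G hG.fl
  have hTd' := mp.sm.differentiable (by simp)
  have eK := pbm_comp A.differentiable hTd' G
  have hδ := Ad.ds_nonneg hG.ds
  refine ⟨pbm T (pbm A G), mp.fl hd3 p1, inv_pbm mp.sm (fun γ hγ y => ?_)
    (inv_iso A (fun γ hγ => ⟨_, (ι ⟨γ, hγ⟩).2, a1 ⟨γ, hγ⟩⟩) hG.inv), ?_, fun y a b => ?_, ?_, ?_⟩
  · simp only [hTd, chi_iso, map_add, map_smul]
    by_cases hy : y ∈ shell 4 16
    · congr 2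
      apply A.injective
      have k1 := (t2 _ (s1 y hy)).2.2 ⟨γ, hγ⟩
      have k2 := a1 ⟨γ, hγ⟩
      simp only [map_smul] at k1 k2
      simp only [hW, map_smul, k2, k1, A.apply_symm_apply, map_sub]
    · rw [shell, mem_ofPred_eq, not_and_or, not_lt, not_lt] at hy
      rw [chi_zero (hy.imp (fun h => by linarith) fun h => by linarith), zero_smul, zero_smul]
  · refine ds_mono (ds_glue (p6 δ hG.ds) (by positivity) (fun y hy => mp.jg (by linarith) p1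
      (Ad.ds_sml (p6 δ hG.ds) le_rfl) hy) fun y hy => mp.ev (by linarith)) ?_
    have k1 : 0 ≤ C3 * η := by positivity
    have k2 : 0 ≤ C2 * (16 * C1) * δ := by positivity
    nlinarith
  · have p := TR.pull_scale (Gs.pull_of' g hN.par hN'.par (Sk.isOpen_shell v (N.b / 2))
      (fun x hx => ⟨by linarith [hx.1], by linarith [hx.2]⟩) t1 fun x hx =>
        ⟨(t2 x hx).1, (t2 x hx).2.1⟩) h0
    have k1 := AI.matT_pull p (s1 y ⟨by linarith, by linarith⟩)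
    have k2 : (fun z => A (T z)) =ᶠ[𝓝 y] fun z => v⁻¹ • Θ (v • z) := by
      filter_upwards [ev_gt a, ev_lt b] with z z1 z2 using e1 z z1.le z2.le
    have k3 : G (A (T y)) = g.pm N'.Ψ (v • A (T y)) :=
      (hG.eq (mem_ball_zero_iff.2 (by linarith [(hA y).2]))).trans
        (cm_ev h0 (by linarith [(hA y).1]) (by nlinarith [(hA y).2])).eq_of_nhds
    ext i j
    rw [eK, pbm, Matrix.of_apply, AI.pullT_congr (T' := matT fun z => g.pm N'.Ψ (v • z)) k2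
      (by funext I; simp only [matT, k3]), ← k1]
    rfl
  · rw [← p3]
    refine mp.rl hd3 p1 fun x => ?_
    rw [fderiv_eq_add mp.sm]
    exact hdet _ ((mp.der x).trans hd1)
  · rw [cl.sv hG (A.bijective.comp (mp.bij hd3)) hA e2, Nat.card_congr ι.toEquiv, eK,
      cov (A.contDiff.comp mp.sm) (A.injective.comp (mp.bij hd3).1) ?_ hG.fl (Ad.meas_ge 8)]
    · rfl
    · intro y
      rw [fderiv_comp y (A.differentiable _) (hTd' y)]
      exact (inj_iso A _).comp (mp.inj hd3 y)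

end Crest.Agent.N207.Ph.Sw

end
end

-- ▼ part N207/Ph/Sw3

/-!
# Row 207, block PHI (helper2): the change of the radius, and `SW`
-/

set_option autoImplicit false
set_option linter.unusedSectionVars false

open scoped ContDiff Manifold Topology Nat
open Set MeasureTheory Filter Metric
open Crest.GeometryTopology.CoordMetric Crest.GeometryTopology.ChartCurvature
  Crest.GeometryTopology.MetricFamily
open Crest.Agent.R202.Tens

noncomputable section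

namespace Crest.Agent.N207.Ph.Sw

open Sk G

section

variable {G1 K : MetricField 4} {κ : ℝ} {y : E4} {Γ : Subgroup Iso}

open Classical in
/-- `G₁` inside, `G₂` outside the sphere of radius `c` -/
def pw (c : ℝ) (G1 G2 : MetricField 4) : MetricField 4 := fun y => if ‖y‖ < c then G1 y else G2 y

variable (hκ : 1 ≤ κ) (e : ∀ z : E4, 6 * κ < ‖z‖ → ‖z‖ < 11 * κ → G1 z = K z)
include hκ e

theorem pw_in (hy : ‖y‖ < 11 * κ) : pw (8 * κ) G1 K =ᶠ[𝓝 y] G1 := (ev_lt hy).mono fun z hz => by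
  rw [pw]
  split_ifs with h
  exacts [rfl, (e z (by linarith [not_lt.1 h]) hz).symm]

theorem pw_out (hy : 6 * κ < ‖y‖) : pw (8 * κ) G1 K =ᶠ[𝓝 y] K := (ev_gt hy).mono fun z hz => by
  rw [pw]
  split_ifs with h
  exacts [e z hz (by linarith), rfl]

theorem pw_fl (h1 : Fl G1) (h2 : Fl K) : Fl (pw (8 * κ) G1 K) := by
  have key : ∀ y : E4, ∃ G, Fl G ∧ pw (8 * κ) G1 K =ᶠ[𝓝 y] G := fun y => by
    rcases lt_or_ge ‖y‖ (8 * κ) with h | h
    exacts [⟨G1, h1, pw_in hκ e (by linarith)⟩, ⟨K, h2, pw_out hκ e (by linarith)⟩]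
  obtain ⟨R, hR⟩ := h2.flat
  refine ⟨⟨isOpen_univ, fun i j y _ => ?_, fun y _ => ?_⟩, max R (8 * κ), fun x hx => ?_⟩
  · obtain ⟨G, hG, h⟩ := key y
    exact ((hG.sm y i j).congr_of_eventuallyEq (h.mono fun z hz => by simp only [hz])).contDiffWithinAt
  · obtain ⟨G, hG, h⟩ := key y
    rw [h.eq_of_nhds]
    exact hG.riem.posDef y (mem_univ y)
  · rw [pw, if_neg (not_lt.2 ((le_max_right _ _).trans hx)), hR x ((le_max_left _ _).trans hx)]

omit hκ e in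
theorem pw_inv {c : ℝ} (h1 : Inv Γ G1) (h2 : Inv Γ K) : Inv Γ (pw c G1 K) := by
  intro γ hγ x
  by_cases h : ‖x‖ < c
  · rw [AI.pullT_congr (T' := matT G1) EventuallyEq.rfl (by
      funext I; simp only [matT, pw, γ.norm_map, if_pos h]), ← h1 γ hγ x]
    funext I; simp only [matT, pw, if_pos h]
  · rw [AI.pullT_congr (T' := matT K) EventuallyEq.rfl (by
      funext I; simp only [matT, pw, γ.norm_map, if_neg h]), ← h2 γ hγ x]
    funext I; simp only [matT, pw, if_neg h]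

end

theorem int_split {f : E4 → ℝ} (hf : Integrable f) {c : ℝ} (hc : 1 ≤ c) :
    ∫ y in {y : E4 | 1 ≤ ‖y‖}, f y =
      (∫ y in {y : E4 | 1 ≤ ‖y‖ ∧ ‖y‖ < c}, f y) + ∫ y in {y : E4 | c ≤ ‖y‖}, f y := by
  rw [← setIntegral_union (s := {y : E4 | 1 ≤ ‖y‖ ∧ ‖y‖ < c}) (t := {y : E4 | c ≤ ‖y‖})
    (disjoint_left.2 fun y a b => not_le.2 a.2 b) (Ad.meas_ge c) hf.integrableOn hf.integrableOn]
  congr 2
  ext y
  simp only [mem_ofPred_eq, mem_union]
  exact ⟨fun h => (lt_or_ge ‖y‖ c).imp (fun a => ⟨h, a⟩) id, fun h => h.elim And.left hc.trans⟩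

theorem num_le {l B a b c x : ℝ} (hl : 0 ≤ l) (hB : 0 ≤ B) (ha : 0 ≤ a) (hb : 0 ≤ b) (hc : 0 ≤ c)
    (h : x ≤ 4096 * l * B * a + l * c) : b + x ≤ (1 + l + 4096 * l * B) * (a + b + c) := by
  have h1 := mul_nonneg hl hB
  nlinarith [mul_nonneg h1 hb, mul_nonneg h1 hc, mul_nonneg hl hb, mul_nonneg hl ha]

variable {M : Type*} [TopologicalSpace M] [ChartedSpace E4 M] [IsManifold 𝓘(ℝ, E4) ∞ M]
  [CompactSpace M] [T3Space M] [ConnectedSpace M] [MeasurableSpace M] [BorelSpace M]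

set_option maxHeartbeats 800000 in
/-- **change of the radius** -/
theorem rad (hCM : CMStmt M) (hRG : RGStmt) : ∃ η0 δ0 : ℝ, 0 < η0 ∧ 0 < δ0 ∧ ∀ L : ℝ, 1 ≤ L →
    ∃ C : ℝ, 0 < C ∧ ∀ (g : Met 4 M) (N : Nk M) (m1 : ℕ) (η V ρ e κ : ℝ) (Cs : ℕ → ℝ)
    (G K : MetricField 4), 4 ≤ m1 → η ≤ η0 → Rng N ρ → Good g N m1 η Cs V → Ebd g N 2 ρ e →
    1 ≤ κ → κ ≤ L → 1024 * (κ * ρ) ≤ N.b → PE g N (ρ / 64) G δ0 → Fl K → Inv N.Γ K → DS 3 K δ0 →
    (∀ y : E4, 6 < ‖y‖ → ‖y‖ < 11 → K y = g.pm N.Ψ ((κ * ρ / 64) • y)) →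
    |Sv g N (ρ / 64) G - ((∫ p in N.Om (8 * (κ * ρ / 64)), g.scal p ∂g.vol) +
      (Nat.card N.Γ : ℝ)⁻¹ * (κ * ρ / 64) ^ 2 *
        ∫ y in {y : E4 | 8 ≤ ‖y‖}, √(K y).det * scalarCurv K y)| ≤
      C * ρ ^ 2 * (e ^ 2 + RL G 1 + RL K 8) := by
  obtain ⟨η1, C1, hη1, hC1, hCM⟩ := hCM
  obtain ⟨δ1, C2, hδ1, hC2, hRG⟩ := hRG
  refine ⟨min (min η1 (1 / 200)) (δ1 / 4 / C1), δ1 / 4, by positivity, by positivity, fun L hL => ?_⟩
  set B := volume.real (closedBall (0 : E4) (8 * L)) with hB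
  have hB0 : 0 ≤ B := measureReal_nonneg
  refine ⟨C2 * (1 + L ^ 2 + 4096 * L ^ 2 * B), by positivity,
    fun g N m1 η V ρ e κ Cs G K hm hη hR hg he k1 k2 kb hG hK hI hD hE => ?_⟩
  have hN := hR.top
  have hρ : 0 < ρ := by linarith [hR.a_le, hN.a_pos]
  have h0 : 0 < κ := by linarith
  have ha := hR.a_le
  have hρ1 : ρ ≤ 1 := by linarith [hR.le_b, hR.b_le]
  have hκρ : ρ ≤ κ * ρ := le_mul_of_one_le_left hρ.le k1
  obtain ⟨Cs', hCM⟩ := hCM Cs
  obtain ⟨c1, c2, c3, -⟩ := hCM g N m1 η V ρ hm (hη.trans ((min_le_left _ _).trans (min_le_left _ _)))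
    hR hg
  have hη2 : η ≤ 1 / 200 := hη.trans ((min_le_left _ _).trans (min_le_right _ _))
  have hη3 : C1 * η ≤ δ1 / 4 := by
    have := (le_div_iff₀ hC1).1 (hη.trans (min_le_right _ _))
    linarith
  obtain ⟨u, hu'⟩ : ∃ u, u = ρ / 64 := ⟨_, rfl⟩
  rw [show κ * ρ / 64 = κ * u by rw [hu']; ring] at hE ⊢
  rw [← hu'] at hG c1 c2 c3 ⊢
  have hu : 0 < u := by rw [hu']; positivity
  have hb : 65536 * (κ * u) ≤ N.b := by rw [hu']; linarith
  have hκu : u ≤ κ * u := le_mul_of_one_le_left hu.le k1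
  have hau : 16 * N.a ≤ u := by rw [hu']; linarith
  have hn := Ad.norm_smul' hu
  have cv : ∀ y : E4, 1 ≤ ‖y‖ → ‖y‖ < 11 * κ → cm g N u =ᶠ[𝓝 y] rs (g.pm N.Ψ) u :=
    fun y a b => cm_ev hu (by linarith) (by nlinarith)
  have ov : ∀ z : E4, 6 * κ < ‖z‖ → ‖z‖ < 11 * κ → cm g N u z = rs K κ⁻¹ z := fun z a b => by
    have h1 := Ad.norm_inv_smul h0 z
    rw [(cv z (by linarith) b).eq_of_nhds, rs, rs, hE _ (by nlinarith) (by nlinarith), smul_smul,
      mul_right_comm, mul_inv_cancel₀ h0.ne', one_mul]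
  have hK' := Ad.fl_rs (inv_pos.2 h0) hK
  set H := pw (8 * κ) (cm g N u) (rs K κ⁻¹) with hH
  have f1 : Fl H := pw_fl k1 ov c1 hK'
  have i1 : ∀ y : E4, ‖y‖ < 11 * κ → H =ᶠ[𝓝 y] cm g N u := fun y hy => pw_in k1 ov hy
  have i2 : ∀ y : E4, 6 * κ < ‖y‖ → H =ᶠ[𝓝 y] rs K κ⁻¹ := fun y hy => pw_out k1 ov hy
  have f2 : EqOn G H (ball 0 2) := fun y hy => by
    have := mem_ball_zero_iff.1 hy
    rw [(i1 y (by linarith)).eq_of_nhds]
    exact hG.eq (mem_ball_zero_iff.2 (by linarith))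
  have rg := hRG N.Γ G H hN.grp hG.fl f1 hG.inv (pw_inv c2 (Ad.inv_rs hI _))
    (ds_mono hG.ds (by linarith)) (ds_mono (ds_glue2 (ds_le c3 (by norm_num)) hD k1
      (fun y hy => i1 y (by linarith)) fun y hy => i2 y (by linarith)) (by linarith)) f2
  -- the action of `H`
  have hD1 : {x : E4 | u ≤ ‖x‖ ∧ ‖x‖ < 8 * (κ * u)} ⊆ shell N.a N.b := fun x hx =>
    ⟨by linarith [hx.1, hN.a_pos], by linarith [hx.2]⟩
  have p1 : (fun y : E4 => u • y) ⁻¹' {x : E4 | u ≤ ‖x‖ ∧ ‖x‖ < 8 * (κ * u)} =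
      {y : E4 | 1 ≤ ‖y‖ ∧ ‖y‖ < 8 * κ} := by
    ext y
    simp only [mem_preimage, mem_ofPred_eq, hn]
    exact ⟨fun h => ⟨by nlinarith [h.1], by nlinarith [h.2]⟩,
      fun h => ⟨by nlinarith [h.1], by nlinarith [h.2]⟩⟩
  have p2 : N.Om u ∪ N.Ψ '' {x : E4 | u ≤ ‖x‖ ∧ ‖x‖ < 8 * (κ * u)} = N.Om (8 * (κ * u)) := by
    rw [Nk.Om, Nk.Om, union_assoc, ← image_union]
    congr 2
    ext x
    simp only [shell, mem_union, mem_ofPred_eq]
    exact ⟨fun h => h.elim (fun a => ⟨a.1, by linarith [a.2]⟩)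
      fun a => ⟨by linarith [a.1, hN.a_pos], a.2⟩,
      fun h => (lt_or_ge ‖x‖ u).imp (fun a => ⟨h.1, a⟩) fun a => ⟨a, h.2⟩⟩
  have s1 := sh (g := g) (G := H) (D := {x : E4 | u ≤ ‖x‖ ∧ ‖x‖ < 8 * (κ * u)}) hN hu ⟨by linarith [hN.a_pos], by linarith⟩
    ((Ad.meas_ge u).inter (isOpen_lt continuous_norm continuous_const).measurableSet) hD1
    (fun γ _ x hx => by simpa only [mem_ofPred_eq, γ.norm_map] using hx) (fun x hx => hx.1)
    fun y hy => by
      have h1 : y ∈ {y : E4 | 1 ≤ ‖y‖ ∧ ‖y‖ < 8 * κ} := p1 ▸ hy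
      exact (i1 y (by linarith [h1.2])).trans (cv y h1.1 (by linarith [h1.2]))
  rw [p1, p2] at s1
  have p3 : (fun y : E4 => κ⁻¹ • y) ⁻¹' {y : E4 | 8 ≤ ‖y‖} = {y : E4 | 8 * κ ≤ ‖y‖} := by
    ext y
    simp only [mem_preimage, mem_ofPred_eq]
    rw [Ad.norm_inv_smul h0 y]
    exact ⟨fun h => by nlinarith, fun h => by nlinarith⟩
  have s2 : ∫ y in {y : E4 | 8 * κ ≤ ‖y‖}, √(H y).det * scalarCurv H y =
      κ ^ 2 * ∫ y in {y : E4 | 8 ≤ ‖y‖}, √(K y).det * scalarCurv K y := by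
    rw [int_scale (inv_pos.2 h0) (Ad.meas_ge 8), p3, setIntegral_congr_fun (Ad.meas_ge _)
      fun y (hy : 8 * κ ≤ ‖y‖) => (eh_ev (i2 y (by linarith))).trans
        (eh_rs (inv_pos.2 h0) hK.riem (mem_univ _)), integral_const_mul]
    field_simp
  have s3 := eh_sub hG.fl f1 f2
  rw [int_split (Ad.int_eh' f1) (c := 8 * κ) (by linarith), s2] at s3
  -- the Ricci energy of `H`
  have r1 : RL H 1 ≤ 4096 * L ^ 2 * B * e ^ 2 + L ^ 2 * RL K 8 := by
    rw [RL, int_split f1.ric_int (c := 8 * κ) (by linarith)]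
    refine add_le_add ?_ ?_
    · have hs : {y : E4 | 1 ≤ ‖y‖ ∧ ‖y‖ < 8 * κ} ⊆ closedBall 0 (8 * L) := fun y hy =>
        mem_closedBall_zero_iff.2 (by linarith [hy.2])
      refine (Real.le_norm_self _).trans ((norm_setIntegral_le_of_norm_le_const
        (C := 4096 * L ^ 2 * e ^ 2) ((measure_mono hs).trans_lt measure_closedBall_lt_top)
        fun y hy => ?_).trans ?_)
      · have hy1 : 1 ≤ ‖y‖ := hy.1
        have hy2 : ‖y‖ < 8 * κ := hy.2
        have hx : u • y ∈ shell N.a N.b := hD1 (p1.ge hy)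
        have q1 : ∀ i j, ricci H y i j ^ 2 ≤ 4 * e ^ 2 := fun i j => by
          rw [(AI.ricci_congr ((i1 y (by linarith)).trans (cv y hy1 (by linarith)))).eq_of_nhds,
            Ad.ricci_rs hu (hN.par.riem g) hx, mul_pow]
          have q2 := ric_ebd hN hg hη2 hρ he hx (by rw [hn, ← hu']; nlinarith)
            (by rw [hn]; nlinarith) i j
          have q3 : (u ^ 2) ^ 2 ≤ (ρ ^ 2) ^ 2 := by gcongr; rw [hu']; linarith
          calc _ ≤ (ρ ^ 2) ^ 2 * (4 * (e / ρ ^ 2) ^ 2) := by gcongr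
            _ = _ := by field_simp
        have q4 : ∑ i, ∑ j, ricci H y i j ^ 2 ≤ ∑ _i : Fin 4, ∑ _j : Fin 4, 4 * e ^ 2 :=
          Finset.sum_le_sum fun i _ => Finset.sum_le_sum fun j _ => q1 i j
        simp only [Finset.sum_const, Finset.card_univ, Fintype.card_fin, nsmul_eq_mul,
          Nat.cast_ofNat] at q4
        rw [Real.norm_of_nonneg (Ad.ric_nonneg H y)]
        calc _ ≤ (8 * L) ^ 2 * (4 * (4 * (4 * e ^ 2))) := by gcongr; linarith
          _ = _ := by ring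
      · rw [mul_right_comm _ B]
        exact mul_le_mul_of_nonneg_left (measureReal_mono hs measure_closedBall_lt_top.ne)
          (by positivity)
    · rw [setIntegral_congr_fun (Ad.meas_ge _) (g := fun y =>
        ‖y‖ ^ 2 * ∑ i, ∑ j, ricci (rs K κ⁻¹) y i j ^ 2) fun y (hy : 8 * κ ≤ ‖y‖) => by
          simp only [(AI.ricci_congr (i2 y (by linarith))).eq_of_nhds], mul_comm 8 κ]
      exact (Ad.RL_rs h0 hK 8).trans_le
        (mul_le_mul_of_nonneg_right (by gcongr) (Ad.RL_nonneg K 8))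
  have hc0 : (0 : ℝ) ≤ (Nat.card N.Γ : ℝ)⁻¹ := by positivity
  have hc1 : (Nat.card N.Γ : ℝ)⁻¹ ≤ 1 := Nat.cast_inv_le_one _
  have n1 := Ad.RL_nonneg G 1
  have n2 := Ad.RL_nonneg K 8
  have n3 := Ad.RL_nonneg H 1
  rw [Sv, s1, show ∀ a c x y z : ℝ, a + c * u ^ 2 * x - (a + c * u ^ 2 * y + c * (κ * u) ^ 2 * z) =
    c * u ^ 2 * (x - (y + κ ^ 2 * z)) from fun _ _ _ _ _ => by ring, s3, abs_mul,
    abs_of_nonneg (by positivity)]
  have q5 : (Nat.card N.Γ : ℝ)⁻¹ * u ^ 2 ≤ ρ ^ 2 :=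
    (mul_le_of_le_one_left (by positivity) hc1).trans (by gcongr; rw [hu']; linarith)
  have q6 := num_le (sq_nonneg L) hB0 (sq_nonneg e) n1 n2 r1
  calc _ ≤ ρ ^ 2 * (C2 * ((1 + L ^ 2 + 4096 * L ^ 2 * B) * (e ^ 2 + RL G 1 + RL K 8))) :=
        mul_le_mul q5 (rg.trans (mul_le_mul_of_nonneg_left q6 hC2.le)) (abs_nonneg _)
          (by positivity)
    _ = _ := by ring

theorem pe_mono {g : Met 4 M} {N : Nk M} {u δ δ' : ℝ} {G : MetricField 4} (h : PE g N u G δ)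
    (hδ : δ ≤ δ') : PE g N u G δ' := ⟨h.fl, h.inv, ds_mono h.ds hδ, h.eq⟩

theorem sw1 (hT : TRANS M) (hCM : CMStmt M) (hRG : RGStmt) :
    ∃ η0 δ0 : ℝ, 0 < η0 ∧ 0 < δ0 ∧ ∀ L : ℝ, 1 ≤ L → ∃ C : ℝ, 0 < C ∧ ∀ (g : Met 4 M) (N N' : Nk M)
    (m1 : ℕ) (η V ρ ρ' e : ℝ) (Cs : ℕ → ℝ) (G G' : MetricField 4), 4 ≤ m1 → η ≤ η0 →
    Rng N ρ → Rng N' ρ' → N'.b = N.b → Good g N m1 η Cs V → Good g N' m1 η Cs V → ρ ≤ ρ' →
    ρ' ≤ L * ρ → Cmp N N' (ρ / 64) N.b → Ebd g N 2 ρ e →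
    PE g N (ρ / 64) G δ0 → PE g N' (ρ' / 64) G' δ0 →
    |Sv g N (ρ / 64) G - Sv g N' (ρ' / 64) G'| ≤ C * ρ ^ 2 * (e ^ 2 + RL G 1 + RL G' 1) := by
  obtain ⟨η1, C1, hη1, hC1, h1⟩ := ch hT
  obtain ⟨η2, δ2, hη2, hδ2, h2⟩ := rad hCM hRG
  refine ⟨min (min η1 η2) (δ2 / 2 / C1), min δ2 (δ2 / 2 / C1), by positivity, by positivity,
    fun L hL => ?_⟩
  obtain ⟨C, hC, h2⟩ := h2 L hL
  refine ⟨C * 2048, by positivity,
    fun g N N' m1 η V ρ ρ' e Cs G G' hm hη hR hR' hb hg hg' k1 k2 hc he hG hG' => ?_⟩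
  have hρ : 0 < ρ := by linarith [hR.a_le, hR.top.a_pos]
  have hb' := hb ▸ hR'.le_b
  obtain ⟨K, f1, f2, f3, f4, f5, f6⟩ := h1 g N N' m1 η V (ρ' / 64) _ Cs G' hm
    (hη.trans ((min_le_left _ _).trans (min_le_left _ _))) hR.top hR'.top hb
    (by linarith [hR.a_le]) (by linarith [hR'.a_le]) (by linarith) hg hg'
    (fun r hr => hc r ⟨by linarith [hr.1], hr.2⟩) hG'
  have e1 : ρ' / ρ * ρ = ρ' := div_mul_cancel₀ _ hρ.ne'
  have q1 := (le_div_iff₀ hC1).1 (hη.trans (min_le_right _ _))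
  have q2 := (le_div_iff₀ hC1).1 (min_le_right δ2 (δ2 / 2 / C1))
  have := h2 g N m1 η V ρ e (ρ' / ρ) Cs G K hm
    (hη.trans ((min_le_left _ _).trans (min_le_right _ _))) hR hg he ((one_le_div hρ).2 k1)
    ((div_le_iff₀ hρ).2 k2) (by rwa [e1]) (pe_mono hG (min_le_left _ _)) f1 f2
    (ds_mono f3 (by linarith)) (by rwa [e1])
  rw [e1, ← f6] at this
  refine this.trans ?_
  have n1 := Ad.RL_nonneg G 1
  have n2 := sq_nonneg e
  calc _ ≤ C * ρ ^ 2 * (2048 * (e ^ 2 + RL G 1 + RL G' 1)) :=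
        mul_le_mul_of_nonneg_left (by linarith) (by positivity)
    _ = _ := by ring

end Crest.Agent.N207.Ph.Sw

namespace Crest.Agent.N207.Ph

open Sk

variable {M : Type*} [TopologicalSpace M] [ChartedSpace E4 M] [IsManifold 𝓘(ℝ, E4) ∞ M]
  [CompactSpace M] [T3Space M] [ConnectedSpace M] [MeasurableSpace M] [BorelSpace M]

/-- **(SW)** -/
theorem sw (hT : TRANS M) (hCM : CMStmt M) (hRG : RGStmt) : SWStmt M := by
  obtain ⟨η0, δ0, hη0, hδ0, h⟩ := Sw.sw1 hT hCM hRG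
  refine ⟨η0, δ0, hη0, hδ0, fun L hL => ?_⟩
  obtain ⟨C, hC, h⟩ := h L hL
  refine ⟨C, hC, fun g N N' m1 η V ρ ρ' e e' Cs G G' hm hη hR hR' hb hg hg' k1 k2 hc he he' hG hG' => ?_⟩
  have n1 := Ad.RL_nonneg G 1
  have n2 := Ad.RL_nonneg G' 1
  rcases le_total ρ ρ' with k | k
  · rw [min_eq_left k] at hc
    refine (h g N N' m1 η V ρ ρ' e Cs G G' hm hη hR hR' hb hg hg' k k2 hc he hG hG').trans ?_
    exact mul_le_mul_of_nonneg_left (by linarith [sq_nonneg e']) (by positivity)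
  · rw [min_eq_right k, ← hb] at hc
    have hρ : 0 < ρ' := by linarith [hR'.a_le, hR'.top.a_pos]
    rw [abs_sub_comm]
    refine (h g N' N m1 η V ρ' ρ e' Cs G' G hm hη hR' hR hb.symm hg' hg k k1 (TR.cmp_symm hc) he'
      hG' hG).trans ?_
    exact mul_le_mul (by gcongr) (by linarith [sq_nonneg e]) (by positivity) (by positivity)

end Crest.Agent.N207.Ph

end
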