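import Crest.Agent.N207.Ph.NwDefs
import Crest.Agent.N207.G.Jb
import Crest.Agent.N207.TR.Core
import Crest.Agent.N207.Rad.Crd
import Crest.Agent.N207.Ph.Nw2
import Crest.Agent.N207.Ph.Ad1
import Crest.Agent.N207.Ph.Pb0
import Crest.Agent.R247.Bo4_84

-- ▼ part N207/Ph/Hc1
section

/-!
# Row 207, block PHI (helper11): harmonic coordinates, part 1: calculus on cells, coefficients
-/

set_option autoImplicit false
set_option linter.unusedSectionVars false

open scoped ContDiff Topology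
open Set Filter Metric Asymptotics
open Crest.GeometryTopology.CoordMetric

noncomputable section

namespace Crest.Agent.N207.Ph.Hc

open Crest.Agent.NLib.Ell Crest.Agent.N207.G Sk TR

variable {F : Type} [NormedAddCommGroup F] [NormedSpace ℝ F]

/-- partial derivatives of vector valued functions -/
def pv (i : Fin 4) (w : E4 → F) (x : E4) : F := fderiv ℝ w x (EuclideanSpace.single i 1)

theorem sc_pos (y : E4) : 0 < ‖y‖ + 1 := by positivity

theorem cl_zero (y : E4) : cl y 0 = y := by simp [cl]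

theorem cl_sm (y : E4) : ContDiff ℝ ∞ (cl y) := by unfold cl; fun_prop

theorem cl_norm {y Y : E4} (hY : Y ∈ ball (0 : E4) 1) :
    3 / 4 * (‖y‖ + 1) ≤ ‖cl y Y‖ + 1 ∧ ‖cl y Y‖ + 1 ≤ 5 / 4 * (‖y‖ + 1) := by
  have h1 : ‖cl y Y - y‖ ≤ (‖y‖ + 1) / 4 := by
    rw [cl, add_sub_cancel_left, norm_smul, Real.norm_of_nonneg (by positivity)]
    exact mul_le_of_le_one_right (by positivity) (mem_ball_zero_iff.1 hY).le
  have h2 := abs_le.1 ((abs_norm_sub_norm_le _ _).trans h1)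
  constructor <;> linarith [h2.1, h2.2]

theorem fderiv_cl (w : E4 → F) (y Y : E4) :
    fderiv ℝ (fun Y => w (cl y Y)) Y = ((‖y‖ + 1) / 4) • fderiv ℝ w (cl y Y) := by
  have h := fderiv_comp_smul (𝕜 := ℝ) (f := fun z => w (y + z)) (x := Y) ((‖y‖ + 1) / 4)
  rw [fderiv_comp_add_left] at h
  exact h

theorem exists_shell (y : E4) : ∃ l : ℕ, 2 ^ l ≤ ‖y‖ + 1 ∧ ‖y‖ + 1 ≤ 2 ^ (l + 1) := by
  obtain ⟨l, h1, h2⟩ := exists_nat_pow_near (x := ‖y‖ + 1) (y := 2)
    (by linarith [norm_nonneg y]) one_lt_two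
  exact ⟨l, h1, h2.le⟩

variable {k : ℕ} {M N : ℝ} {f g : E4 → F} {y : E4}

theorem ck_val (h : CK k M f y) : ‖f y‖ ≤ M := by
  have := CKA.bdd h (mem_ball_self one_pos)
  rwa [cl_zero] at this

theorem ck_nonneg (h : CK k M f y) : 0 ≤ M := (norm_nonneg _).trans (ck_val h)

theorem ck_pv (h : CK (k + 1) M f y) (i : Fin 4) : CK k (4 / (‖y‖ + 1) * M) (pv i f) y := by
  have hs := sc_pos y
  have h1 := (CKA.pd h i).smul isOpen_ball (4 / (‖y‖ + 1))
  rw [abs_of_pos (by positivity)] at h1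
  refine h1.congr isOpen_ball fun Y _ => ?_
  rw [fderiv_cl, smul_apply, smul_smul,
    show 4 / (‖y‖ + 1) * ((‖y‖ + 1) / 4) = 1 by field_simp, one_smul]
  rfl

theorem jb_cl {m : ℕ} {Y : E4} {c : ℝ} (hY : Y ∈ ball (0 : E4) 1)
    (h : JB m f (cl y Y) (‖cl y Y‖ + 1) c) : JB m (fun Y => f (cl y Y)) Y 1 c := by
  have hs := sc_pos y
  have h1 : JB m f (cl y Y) ((‖y‖ + 1) / 4) c := by
    simpa using h.scale (l := 1) (s' := (‖y‖ + 1) / 4) (by positivity) (by positivity) le_rfl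
      (by linarith [(cl_norm (y := y) hY).1])
  have h2 : JB m (fun z => f (y + z)) (((‖y‖ + 1) / 4) • Y) ((‖y‖ + 1) / 4) c :=
    ⟨h1.sm.comp (f := fun z => y + z) _ (by fun_prop), fun j hj => by
      rw [iteratedFDeriv_comp_add_left]; exact h1.bd j hj⟩
  exact h2.unit (by positivity)

theorem cka_of_jb {c : ℝ} {u : E4 → F} (h : ∀ Y ∈ ball (0 : E4) 1, JB (k + 1) u Y 1 c) :
    CKA (1 / 2) (ball (0 : E4) 1) k (2 * c) u :=
  CKA.of_bounds isOpen_ball (convex_ball _ _) (by norm_num) (by norm_num)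
    (fun Y hY => ((h Y hY).sm.of_le (kle _)).contDiffWithinAt) fun j hj Y hY => by
      simpa using (h Y hY).bd j hj

theorem ck_of_jb {c : ℝ} (h : ∀ Y ∈ ball (0 : E4) 1, JB (k + 1) f (cl y Y) (‖cl y Y‖ + 1) c) :
    CK k (2 * c) f y := cka_of_jb fun Y hY => jb_cl hY (h Y hY)

theorem eq_cl (f : E4 → F) (y : E4) :
    f = fun x => (fun z => f (cl y (((‖y‖ + 1) / 4)⁻¹ • z))) (x - y) := by
  funext x
  have hs := sc_pos y
  simp only [cl]
  rw [smul_inv_smul₀ (by positivity), add_sub_cancel]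


theorem jb_of_ck (hf : ContDiffAt ℝ ∞ f y) (h : CK k M f y) : JB k f y (‖y‖ + 1) (16 ^ k * M) := by
  have hs := sc_pos y
  have hM := ck_nonneg h
  refine ⟨hf, fun j hj => ?_⟩
  have h1 := ((CKA.of_le h hj).ho_iter isOpen_ball).bdd 0 (mem_ball_self one_pos)
  have h2 := norm_comp_smul (fun Y => f (cl y Y)) (a := ((‖y‖ + 1) / 4)⁻¹) (by positivity) 0 j
  rw [smul_zero] at h2
  have h3 : iteratedFDeriv ℝ j f y =
      iteratedFDeriv ℝ j (fun z => f (cl y (((‖y‖ + 1) / 4)⁻¹ • z))) 0 := by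
    have := iteratedFDeriv_comp_sub (𝕜 := ℝ)
      (f := fun z => f (cl y (((‖y‖ + 1) / 4)⁻¹ • z))) j y y
    rw [sub_self] at this
    rw [← this]
    exact congrArg (fun u => iteratedFDeriv ℝ j u y) (eq_cl f y)
  rw [h3]
  calc _ ≤ ((4 : ℕ) ^ j * M * ((‖y‖ + 1) / 4)⁻¹ ^ j) * (‖y‖ + 1) ^ j := by
        gcongr; exact h2.trans (by gcongr)
    _ = 16 ^ j * M := by
        rw [mul_assoc, ← mul_pow, show ((‖y‖ + 1) / 4)⁻¹ * (‖y‖ + 1) = 4 by field_simp,
          show (16 : ℝ) = 4 * 4 by norm_num, mul_pow]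
        push_cast; ring
    _ ≤ _ := by gcongr; norm_num

/-- derivatives of pointwise limits -/
theorem lim_pv [CompleteSpace F] {u : ℕ → E4 → F} (hu : ∀ y, ∃ M, ∀ n, CK (k + 1) M (u n) y)
    (hf : ∀ x, Tendsto (fun n => u n x) atTop (𝓝 (f x))) (i : Fin 4) (x : E4) :
    Tendsto (fun n => pv i (u n) x) atTop (𝓝 (pv i f x)) := by
  obtain ⟨M, hM⟩ := hu x
  have hs := sc_pos x
  have h := (CKA.limit_one (f := fun Y => f (cl x Y)) (u := fun n Y => u n (cl x Y)) isOpen_ball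
    (by norm_num) (Eventually.of_forall fun n => CKA.of_le (hM n) (by omega))
    (fun Y _ => hf _) (mem_ball_self one_pos)).2 (EuclideanSpace.single i 1)
  simp only [fderiv_cl, cl_zero, smul_apply] at h
  have h2 := h.const_smul ((‖x‖ + 1) / 4)⁻¹
  simpa only [pv, inv_smul_smul₀ (show (‖x‖ + 1) / 4 ≠ 0 by positivity)] using h2



theorem wd_pv {a : ℕ → ℝ} (h : WD (k + 1) a f) (i : Fin 4) :
    WD k (fun l => 4 / 2 ^ l * a l) (pv i f) := fun l y h1 h2 =>
  CKA.mono (ck_pv (h l y h1 h2) i) (by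
    have := ck_nonneg (h l y h1 h2)
    show 4 / (‖y‖ + 1) * a l ≤ 4 / 2 ^ l * a l
    gcongr)

theorem wd_ck {a : ℕ → ℝ} (h : WD k a f) (y : E4) : ∃ M, CK k M f y := by
  obtain ⟨l, h1, h2⟩ := exists_shell y
  exact ⟨_, h l y h1 h2⟩

theorem wd_id (k : ℕ) : WD k (fun l => 8 * 2 ^ l) fun x : E4 => x := fun l y _ h2 => by
  refine CKA.mono (ck_of_jb (c := 5 / 4 * (‖y‖ + 1)) fun Y hY => ⟨contDiffAt_fun_id, fun j _ => ?_⟩)
    (by rw [pow_succ] at h2; nlinarith [norm_nonneg y])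
  have h := (cl_norm (y := y) hY).2
  rcases j with _ | _ | j
  · simp only [norm_iteratedFDeriv_zero, pow_zero, mul_one]; linarith
  · rw [zero_add, norm_iteratedFDeriv_one, fderiv_fun_id, pow_one]
    exact (mul_le_of_le_one_left (by positivity) ContinuousLinearMap.norm_id_le).trans h
  · rw [← norm_iteratedFDeriv_fderiv, show (fderiv ℝ fun x : E4 => x) =
      fun _ => ContinuousLinearMap.id ℝ E4 from funext fun _ => fderiv_fun_id,
      iteratedFDeriv_const_of_ne (by omega)]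
    simp only [Pi.zero_apply, norm_zero, zero_mul]
    positivity

/-! ### the coefficients -/

/-- `δ - G⁻¹` -/
def hd (G : MetricField 4) (a b : Fin 4) (x : E4) : ℝ :=
  (1 : Matrix (Fin 4) (Fin 4) ℝ) a b - (G x)⁻¹ a b

/-- `G^{ab} Γ^c_{ab}` -/
def gm (G : MetricField 4) (c : Fin 4) (x : E4) : ℝ :=
  ∑ a, ∑ b, (G x)⁻¹ a b * christoffel G x c a b

theorem gm_cl (G : MetricField 4) (c : Fin 4) (y Y : E4) :
    gm (fun Y => G (cl y Y)) c Y = (‖y‖ + 1) / 4 * gm G c (cl y Y) := by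
  have e : ∀ i a b, pderiv i (fun Y => G (cl y Y) a b) Y =
      (‖y‖ + 1) / 4 * pderiv i (fun x => G x a b) (cl y Y) := fun i a b => by
    unfold pderiv
    rw [fderiv_cl (fun x => G x a b)]; rfl
  simp only [gm, christoffel, inverseField, e, Finset.mul_sum]
  refine Finset.sum_congr rfl fun a _ => Finset.sum_congr rfl fun b _ =>
    Finset.sum_congr rfl fun l _ => by ring

/-- the data of `coef` -/
structure Dc (m : ℕ) (K : ℝ) where
  g : MetricField 4
  x : E4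
  ε : ℝ
  riem : IsRiemannianOn g univ
  small : JG 0 g x 1 (1 / 100)
  jet : JG (m + 1) g x 1 ε
  le : ε ≤ K

theorem coef (m : ℕ) (K : ℝ) : ∃ C : ℝ, 0 < C ∧ ∀ D : Dc m K,
    (∀ a b, JB m (hd D.g a b) D.x 1 (C * D.ε)) ∧ ∀ c, JB m (gm D.g c) D.x 1 (C * D.ε) := by
  have h0 : ∀ D : Dc m K, 0 ≤ D.ε := fun D => Rad.jg_nonneg D.jet
  have hw : (fun D : Dc m K => D.ε) =O[⊤] fun _ => (1 : ℝ) :=
    IsBigO.of_bound K (eventually_top.2 fun D => by simpa [abs_of_nonneg (h0 D)] using D.le)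
  have hg : ∀ a b, FO (m + 1) (fun D : Dc m K => D.ε) (fun D => dv D.g a b) fun D => D.x :=
    fun a b => FO.of_le (fun D => sm_dv D.riem (mem_univ _) a b) (C := 1) fun k hk D => by
      simpa [J1, abs_of_nonneg (h0 D)] using D.jet k hk a b
  have hp : ∀ D : Dc m K, Jt.Pos (1 / 2) (D.g D.x) := fun D =>
    pos_of_dv D.riem (mem_univ _) (Rad.jg_ent D.small)
  have h1 : ∀ a b, FO m (fun _ => 1) (fun (D : Dc m K) y => D.g y a b) fun D => D.x :=
    fun a b => by
      have := (((hg a b).wt hw).mono (Nat.le_succ m)).add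
        (FO.const ((1 : Matrix (Fin 4) (Fin 4) ℝ) a b))
      simpa [dv] using this
  have h2 : FO m (fun _ => 1) (fun (D : Dc m K) y => fun a b => D.g y a b) fun D => D.x :=
    FO.pi fun a => FO.pi fun b => h1 a b
  obtain ⟨C, -, hC⟩ := h2.le
  have h3 : ∀ a b, FO m (fun _ => 1) (fun (D : Dc m K) y => (D.g y)⁻¹ a b) fun D => D.x :=
    fun a b => FO.smoothOn (Φ := fun A : Fin 4 → Fin 4 → ℝ => (Matrix.of A)⁻¹ a b)
      ((isCompact_closedBall (0 : Fin 4 → Fin 4 → ℝ) C).inter_right (Jt.isClosed_pos (1 / 2)))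
      (fun A hA => TR.sm_inv a b A (hA.2.posDef (by norm_num))) h2 fun j =>
        ⟨mem_closedBall_zero_iff.2 (by
          simpa [norm_iteratedFDeriv_zero] using hC 0 (Nat.zero_le _) j), hp j⟩
  have h4 : ∀ a b c, FO m (fun D : Dc m K => D.ε) (fun D => pderiv c (fun y => D.g y a b))
      fun D => D.x := fun a b c => by simpa only [pd_dv] using (hg a b).pd c
  have h5 : ∀ c, FO m (fun D : Dc m K => D.ε) (fun D => gm D.g c) fun D => D.x := fun c =>
    FO.sum Finset.univ fun a _ => FO.sum Finset.univ fun b _ => (h3 a b).mul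
      ((FO.const (1 / 2 : ℝ)).mul (FO.sum Finset.univ fun d _ => (h3 c d).mul
        (((h4 b d a).add (h4 a d b)).sub (h4 a b d))))
  have h6 : ∀ a b, FO m (fun D : Dc m K => D.ε) (fun D => hd D.g a b) fun D => D.x := fun a b => by
    refine (FO.sum Finset.univ fun c _ => (h3 a c).mul ((hg c b).mono (Nat.le_succ m))).congr
      fun D => Eventually.of_forall fun y => ?_
    simp only [hd, dv, mul_sub, Finset.sum_sub_distrib, ginv_g D.riem (mem_univ y),
      Matrix.one_apply]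
    simp
  have h7 : FO m (fun D : Dc m K => D.ε)
      (fun D y => fun p : (Fin 4 × Fin 4) ⊕ Fin 4 =>
        Sum.elim (fun q => hd D.g q.1 q.2 y) (fun c => gm D.g c y) p) fun D => D.x :=
    FO.pi fun p => by
      rcases p with q | c
      · exact h6 q.1 q.2
      · exact h5 c
  obtain ⟨C', hC', h8⟩ := h7.le
  have h9 : ∀ (D : Dc m K) p, JB m (fun y => Sum.elim (fun q : Fin 4 × Fin 4 => hd D.g q.1 q.2 y)
      (fun c => gm D.g c y) p) D.x 1 (C' * D.ε) := fun D p => by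
    have := JB.clm (ContinuousLinearMap.proj (R := ℝ) (φ := fun _ : (Fin 4 × Fin 4) ⊕ Fin 4 => ℝ) p)
      zero_le_one ⟨h7.sm D, fun k hk => by simpa [abs_of_nonneg (h0 D)] using h8 k hk D⟩ (l := 1)
      (ContinuousLinearMap.opNorm_le_bound _ zero_le_one fun v => by
        simpa using norm_le_pi_norm v p)
    simpa using this
  exact ⟨C', hC', fun D => ⟨fun a b => h9 D (Sum.inl (a, b)), fun c => h9 D (Sum.inr c)⟩⟩

/-- the coefficients on one cell -/
theorem coef_ck (k : ℕ) (K : ℝ) : ∃ C : ℝ, 0 < C ∧ ∀ (G : MetricField 4) (y : E4) (ε : ℝ),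
    IsRiemannianOn G univ → Sml 0 G (1 / 100) → ε ≤ K →
    (∀ Y ∈ ball (0 : E4) 1, JG (k + 2) G (cl y Y) (‖cl y Y‖ + 1) ε) →
    (∀ a b, CK k (C * ε) (hd G a b) y) ∧ ∀ c, CK k (C * ε / (‖y‖ + 1)) (gm G c) y := by
  obtain ⟨C, hC, h⟩ := coef (k + 1) K
  refine ⟨8 * C, by positivity, fun G y ε hG h0 hK hJ => ?_⟩
  have hs := sc_pos y
  have hε : 0 ≤ ε := Rad.jg_nonneg (hJ 0 (mem_ball_self one_pos))
  have hr : IsRiemannianOn (fun Y => G (cl y Y)) univ :=
    ⟨isOpen_univ, fun i j => (hG.contDiffOn i j).comp (cl_sm y).contDiffOn (mapsTo_univ _ _),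
      fun Y _ => hG.posDef _ (mem_univ _)⟩
  have hj : ∀ {m c}, ∀ Y ∈ ball (0 : E4) 1, JG m G (cl y Y) (‖cl y Y‖ + 1) c →
      JG m (fun Y => G (cl y Y)) Y 1 c := fun Y hY hh j hj a b =>
    (jb_cl (f := dv G a b) hY ⟨sm_dv hG (mem_univ _) a b, fun j hj => hh j hj a b⟩).bd j hj
  have hD : ∀ Y ∈ ball (0 : E4) 1,
      (∀ a b, JB (k + 1) (fun Y => hd G a b (cl y Y)) Y 1 (C * ε)) ∧
        ∀ c, JB (k + 1) (gm (fun Y => G (cl y Y)) c) Y 1 (C * ε) := fun Y hY =>
    h ⟨fun Y => G (cl y Y), Y, ε, hr, hj Y hY (h0 _), hj Y hY (hJ Y hY), hK⟩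
  refine ⟨fun a b => CKA.mono (cka_of_jb fun Y hY => (hD Y hY).1 a b) (by nlinarith), fun c => ?_⟩
  have h1 := (cka_of_jb fun Y hY => (hD Y hY).2 c).const_mul isOpen_ball (4 / (‖y‖ + 1))
  rw [abs_of_pos (by positivity)] at h1
  refine (h1.congr isOpen_ball fun Y _ => ?_).mono (le_of_eq (by ring))
  rw [gm_cl]; field_simp

end Crest.Agent.N207.Ph.Hc

end
end

-- ▼ part N207/Ph/Hc2

/-!
# Row 207, block PHI (helper11): harmonic coordinates, part 2: the operator `Δ - Δ_G`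
-/

set_option autoImplicit false
set_option linter.unusedSectionVars false

open scoped ContDiff Topology
open Set Filter Metric
open Crest.GeometryTopology.CoordMetric Crest.Agent.R202.Tens

noncomputable section

namespace Crest.Agent.N207.Ph.Hc

open Crest.Agent.NLib.Ell Crest.Agent.N207.G Sk
open Crest.Agent.R240.Fr (lap fderiv_apply_contDiff)
open Crest.Agent.R238 (Ell)

variable {F F' : Type} [NormedAddCommGroup F] [NormedSpace ℝ F] [NormedAddCommGroup F']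
  [NormedSpace ℝ F'] {G : MetricField 4} {w w' : E4 → F} {x : E4}

/-- `Δ - Δ_G` -/
def DD (G : MetricField 4) (w : E4 → F) (x : E4) : F :=
  ∑ a, ∑ b, hd G a b x • pv a (pv b w) x + ∑ c, gm G c x • pv c w x

theorem lap_pv (w : E4 → F) (x : E4) : lap w x = ∑ i, pv i (pv i w) x := rfl

theorem pv_sm (hw : ContDiff ℝ ∞ w) (i : Fin 4) : ContDiff ℝ ∞ (pv i w) :=
  fderiv_apply_contDiff hw _

theorem pv_diff (hw : ContDiff ℝ 2 w) (i : Fin 4) : Differentiable ℝ (pv i w) :=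
  ((hw.fderiv_right (m := 1) (by norm_num)).clm_apply contDiff_const).differentiable (by simp)

theorem pv_clm (L : F →L[ℝ] F') (hw : Differentiable ℝ w) (i : Fin 4) :
    pv i (fun x => L (w x)) = fun x => L (pv i w x) := funext fun x => by
  have h : fderiv ℝ (fun x => L (w x)) x = _ := (L.hasFDerivAt.comp x (hw x).hasFDerivAt).fderiv
  rw [pv, h]; rfl

theorem pv_add (hw : Differentiable ℝ w) (hw' : Differentiable ℝ w') (i : Fin 4) :
    pv i (fun x => w x + w' x) = fun x => pv i w x + pv i w' x := funext fun x => by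
  rw [pv, fderiv_fun_add (hw x) (hw' x)]; rfl

theorem pv_congr (h : w =ᶠ[𝓝 x] w') (i : Fin 4) : pv i w =ᶠ[𝓝 x] pv i w' :=
  h.eventuallyEq_nhds.mono fun y hy => by simp only [pv, hy.fderiv_eq]

theorem pv_const (c : F) (i : Fin 4) : pv i (fun _ => c) = fun _ => 0 :=
  funext fun x => by simp [pv]

theorem pv_id (i : Fin 4) : pv i (fun x : E4 => x) = fun _ => EuclideanSpace.single i 1 :=
  funext fun x => by simp [pv]

theorem d2 (hw : ContDiff ℝ 2 w) : Differentiable ℝ w := hw.differentiable (by simp)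

theorem DD_clm (L : F →L[ℝ] F') (hw : ContDiff ℝ 2 w) (x : E4) :
    DD G (fun x => L (w x)) x = L (DD G w x) := by
  simp only [DD, pv_clm L (d2 hw), pv_clm L (pv_diff hw _), map_add, map_sum, map_smul]

theorem lap_clm (L : F →L[ℝ] F') (hw : ContDiff ℝ 2 w) (x : E4) :
    lap (fun x => L (w x)) x = L (lap w x) := by
  simp only [lap_pv, pv_clm L (d2 hw), pv_clm L (pv_diff hw _), map_sum]

theorem DD_add (hw : ContDiff ℝ 2 w) (hw' : ContDiff ℝ 2 w') (x : E4) :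
    DD G (fun x => w x + w' x) x = DD G w x + DD G w' x := by
  simp only [DD, pv_add (d2 hw) (d2 hw'), pv_add (pv_diff hw _) (pv_diff hw' _), smul_add,
    Finset.sum_add_distrib]
  abel

theorem lap_add (hw : ContDiff ℝ 2 w) (hw' : ContDiff ℝ 2 w') (x : E4) :
    lap (fun x => w x + w' x) x = lap w x + lap w' x := by
  simp only [lap_pv, pv_add (d2 hw) (d2 hw'), pv_add (pv_diff hw _) (pv_diff hw' _),
    Finset.sum_add_distrib]

theorem DD_congr (h : w =ᶠ[𝓝 x] w') : DD G w x = DD G w' x := by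
  simp only [DD, (pv_congr h _).eq_of_nhds, (pv_congr (pv_congr h _) _).eq_of_nhds]

theorem lap_congr (h : w =ᶠ[𝓝 x] w') : lap w x = lap w' x := by
  simp only [lap_pv, (pv_congr (pv_congr h _) _).eq_of_nhds]

theorem DD_zero (x : E4) : DD G (fun _ => (0 : F)) x = 0 := by simp [DD, pv_const]

theorem lap_zero (x : E4) : lap (fun _ => (0 : F)) x = 0 := by simp [lap_pv, pv_const]

theorem lap_id (x : E4) : lap (fun x : E4 => x) x = 0 := by simp [lap_pv, pv_const, pv_id]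

theorem DD_id (x : E4) (k : Fin 4) : DD G (fun x : E4 => x) x k = gm G k x := by
  simp [DD, pv_const, pv_id, Pi.single_apply]

theorem DD_far (h : ∀ᶠ z in 𝓝 x, G z = 1) (w : E4 → F) : DD G w x = 0 := by
  have h1 : ∀ a b, hd G a b x = 0 := fun a b => by simp [hd, h.self_of_nhds]
  have h2 : ∀ i a b, pderiv i (fun y => G y a b) x = 0 := fun i a b => by
    have : (fun y => G y a b) =ᶠ[𝓝 x] fun _ => (1 : Matrix (Fin 4) (Fin 4) ℝ) a b :=
      h.mono fun y hy => by simp only [hy]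
    simp [pderiv, this.fderiv_eq]
  simp [DD, h1, gm, christoffel, h2]

theorem far_ev {R : ℝ} (hR : ∀ x : E4, R ≤ ‖x‖ → G x = 1) (hx : R < ‖x‖) : ∀ᶠ z in 𝓝 x, G z = 1 := by
  filter_upwards [(isOpen_lt continuous_const continuous_norm).mem_nhds hx] with z hz
  exact hR z hz.le

theorem DD_cpt (hG : Fl G) (w : E4 → F) : HasCompactSupport (DD G w) := by
  obtain ⟨R, hR⟩ := hG.flat
  refine HasCompactSupport.intro (isCompact_closedBall 0 R) fun x hx => DD_far (far_ev hR ?_) w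
  rwa [mem_closedBall_zero_iff, not_le] at hx

theorem hd_sm (hG : IsRiemannianOn G univ) (a b : Fin 4) : ContDiff ℝ ∞ (hd G a b) :=
  contDiff_const.sub (contDiffOn_univ.1 (N207.sm_inv hG a b))

theorem gm_sm (hG : IsRiemannianOn G univ) (c : Fin 4) : ContDiff ℝ ∞ (gm G c) :=
  ContDiff.sum fun a _ => ContDiff.sum fun b _ =>
    (contDiffOn_univ.1 (N207.sm_inv hG a b)).mul (contDiffOn_univ.1 (sm_chr hG c a b))

theorem DD_sm (hG : IsRiemannianOn G univ) (hw : ContDiff ℝ ∞ w) : ContDiff ℝ ∞ (DD G w) :=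
  (ContDiff.sum fun a _ => ContDiff.sum fun b _ => (hd_sm hG a b).smul (pv_sm (pv_sm hw b) a)).add
    (ContDiff.sum fun c _ => (gm_sm hG c).smul (pv_sm hw c))

/-- the scalar operator in coordinates -/
theorem lap_sub_DD (u : E4 → ℝ) (x : E4) : lap u x - DD G u x =
    ∑ a, ∑ b, (G x)⁻¹ a b * pderiv a (pderiv b u) x + ∑ c, -gm G c x * pderiv c u x := by
  have e : ∀ (i : Fin 4) (u : E4 → ℝ), pv i u = pderiv i u := fun _ _ => rfl
  simp only [lap_pv, DD, e, hd, smul_eq_mul, sub_mul, Finset.sum_sub_distrib, Matrix.one_apply,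
    ite_mul, one_mul, zero_mul, Finset.sum_ite_eq, Finset.mem_univ, if_true, neg_mul,
    Finset.sum_neg_distrib]
  ring

theorem lapB_eq (hG : IsRiemannianOn G univ) {u : E4 → ℝ} (hu : ContDiffAt ℝ 2 u x) :
    laplaceBeltrami G u x = lap u x - DD G u x := by
  rw [lapB_coord hG (mem_univ x) hu, lap_sub_DD]
  simp only [mul_sub, Finset.sum_sub_distrib, gm, neg_mul, Finset.sum_neg_distrib, Finset.mul_sum,
    Finset.sum_mul, ← sub_eq_add_neg]
  congr 1
  rw [Finset.sum_comm (s := Finset.univ) (t := Finset.univ)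
    (f := fun c a => ∑ b, (G x)⁻¹ a b * christoffel G x c a b * pderiv c u x)]
  refine Finset.sum_congr rfl fun a _ => ?_
  rw [Finset.sum_comm]
  exact Finset.sum_congr rfl fun _ _ => Finset.sum_congr rfl fun _ _ => by ring

/-! ### equivariance -/

theorem pull_iso (hG : IsRiemannianOn G univ) (γ : Iso)
    (h : ∀ x, matT G x = pullT γ (matT G) x) : Pull G G γ univ univ :=
  ⟨isOpen_univ, hG, fun _ _ => mem_univ _, γ.contDiff.contDiffOn, fun y _ i j => by
    rw [← Ad.pbm_apply]; exact congrFun (h y) ![i, j], fun y _ => inj_iso γ y⟩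

theorem DD_iso (hG : IsRiemannianOn G univ) (γ : Iso) (h : ∀ x, matT G x = pullT γ (matT G) x)
    {u : E4 → ℝ} (hu : ContDiff ℝ 2 u) (x : E4) : DD G (fun z => u (γ z)) x = DD G u (γ x) := by
  have hu' : ContDiff ℝ 2 fun z => u (γ z) := hu.comp γ.contDiff
  have h1 := R247.Bo84.lap_pull (pull_iso hG γ h) (mem_univ x) hu.contDiffAt
  have h2 := R247.Bo84.lap_pull (pull_flat γ) (mem_univ x) hu.contDiffAt
  rw [lapB_eq hG hu.contDiffAt, lapB_eq hG hu'.contDiffAt] at h1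
  rw [lapB_eq riem_flat hu.contDiffAt, lapB_eq riem_flat hu'.contDiffAt,
    DD_far (G := flat) (Eventually.of_forall fun _ => rfl),
    DD_far (G := flat) (Eventually.of_forall fun _ => rfl)] at h2
  linarith

theorem DD_eqv {Γ : Subgroup Iso} (hG : IsRiemannianOn G univ) (hI : Inv Γ G) {w : E4 → E4}
    (hw : ContDiff ℝ 2 w) (he : Eqv Γ w) : Eqv Γ (DD G w) := fun γ hγ x => by
  ext k
  set P : E4 →L[ℝ] ℝ := EuclideanSpace.proj k
  have h1 := DD_iso hG γ (hI γ hγ) (u := fun z => P (w z)) (P.contDiff.comp hw) x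
  have h2 := DD_clm (G := G) (P.comp (γ.toContinuousLinearEquiv : E4 →L[ℝ] E4)) hw x
  simp only [he γ hγ] at h1
  rw [DD_clm P hw] at h1
  exact h1.symm.trans h2

theorem eqv_zero {Γ : Subgroup Iso} (hΓ : Grp Γ) {w : E4 → E4} (he : Eqv Γ w) : w 0 = 0 := by
  by_contra h
  refine hΓ.ne ((Subgroup.eq_bot_iff_forall _).2 fun γ hγ => hΓ.free γ hγ _ h ?_)
  rw [← he γ hγ, map_zero]

/-! ### estimates -/

/-- bounds of the coefficients -/
def Cf (k : ℕ) (e : ℕ → ℝ) (G : MetricField 4) : Prop :=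
  (∀ a b, WD k e (hd G a b)) ∧ ∀ c, WD k (fun l => e l / 2 ^ l) (gm G c)

theorem Cf.of_le {k j : ℕ} {e : ℕ → ℝ} (h : Cf k e G) (hj : j ≤ k) : Cf j e G :=
  ⟨fun a b => (h.1 a b).of_le hj, fun c => (h.2 c).of_le hj⟩

theorem Cf.mono {k : ℕ} {e e' : ℕ → ℝ} (h : Cf k e G) (he : ∀ l, e l ≤ e' l) : Cf k e' G :=
  ⟨fun a b => (h.1 a b).mono he, fun c => (h.2 c).mono fun l => by have := he l; gcongr⟩

theorem DD_wd {e c : ℕ → ℝ} (h : Cf 0 e G) (hw : WD 2 (fun l => c l * 2 ^ l) w) :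
    WD 0 (fun l => 544 * e l * c l / 2 ^ l) (DD G w) := fun l y h1 h2 => by
  have h3 := CK.sum_le fun a => CK.sum_le fun b =>
    (h.1 a b l y h1 h2).smulF (wd_pv (wd_pv hw b) a l y h1 h2)
  have h4 := CK.sum_le fun a => (h.2 a l y h1 h2).smulF ((wd_pv hw a l y h1 h2).of_le zero_le_one)
  refine (h3.add h4).mono (le_of_eq ?_)
  simp only [Fintype.card_fin]
  field_simp
  ring

theorem cf_of (k : ℕ) (K : ℝ) : ∃ C : ℝ, 0 < C ∧ ∀ (G : MetricField 4) (ε e : ℕ → ℝ),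
    IsRiemannianOn G univ → Sml 0 G (1 / 100) → (∀ l, e l ≤ K) → Nb ε e →
    (∀ (l : ℕ) (y : E4), 2 ^ l ≤ ‖y‖ + 1 → ‖y‖ + 1 ≤ 2 ^ (l + 1) →
      JG (k + 2) G y (‖y‖ + 1) (ε l)) → Cf k (fun l => C * e l) G := by
  obtain ⟨C, hC, h⟩ := coef_ck k K
  refine ⟨C, hC, fun G ε e hG h0 hK hN hJ => ?_⟩
  have h1 := fun (l : ℕ) (y : E4) (h1 : 2 ^ l ≤ ‖y‖ + 1) (h2 : ‖y‖ + 1 ≤ 2 ^ (l + 1)) =>
    h G y (e l) hG h0 (hK l) fun Y hY => by
      obtain ⟨i, h3, h4, h5, h6⟩ := exists_lv_cl hY h1 h2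
      exact Rad.jg_mono (hJ i _ h3 h4) le_rfl (hN l i h5 h6)
  refine ⟨fun a b l y h2 h3 => (h1 l y h2 h3).1 a b, fun c l y h2 h3 =>
    ((h1 l y h2 h3).2 c).mono ?_⟩
  exact div_le_div_of_nonneg_left ((h1 l y h2 h3).1 0 0).nonneg (by positivity) h2

/-- the coefficients of a metric with summable smallness -/
theorem cf_ds : ∃ C : ℝ, 0 < C ∧ ∀ (G : MetricField 4) (δ : ℝ), Fl G → δ ≤ 1 / 100 → DS 3 G δ →
    ∃ (e : ℕ → ℝ) (L : ℕ), Cf 1 e G ∧ (∀ n, ∑ l ∈ Finset.range n, e l ≤ C * δ) ∧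
      ∀ l, L < l → e l = 0 := by
  obtain ⟨C, hC, h⟩ := cf_of 1 1
  refine ⟨3 * C, by positivity, fun G δ hG hδ hD => ?_⟩
  have hS := Ad.sml_mono (Ad.ds_sml hD (Nat.zero_le 3)) hδ
  obtain ⟨ε, h0, h1, h2⟩ := hD
  obtain ⟨R, hR⟩ := hG.flat
  obtain ⟨L, hL⟩ := pow_unbounded_of_one_lt (R + 1) (one_lt_two (α := ℝ))
  set ε' : ℕ → ℝ := fun l => if L ≤ l then 0 else ε l with hε'
  have g0 : ∀ l, 0 ≤ ε' l := fun l => by simp only [hε']; split_ifs; exacts [le_rfl, h0 l]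
  have g1 : ∀ l, ε' l ≤ ε l := fun l => by simp only [hε']; split_ifs; exacts [h0 l, le_rfl]
  have g2 : ∀ n, ∑ l ∈ Finset.range n, ε' l ≤ δ := fun n =>
    (Finset.sum_le_sum fun l _ => g1 l).trans (h1 n)
  have g3 : ∀ l, ε' l ≤ δ := fun l => le_trans
    (Finset.single_le_sum (fun i _ => g0 i) (Finset.self_mem_range_succ l)) (g2 (l + 1))
  set e : ℕ → ℝ := fun l => (if l = 0 then 0 else ε' (l - 1)) + ε' l + ε' (l + 1) with he
  refine ⟨fun l => C * e l, L, h G ε' e hG.riem hS (fun l => ?_) (fun j i h3 h4 => ?_)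
    fun l y h3 h4 => ?_, fun n => ?_, fun l hl => ?_⟩
  · simp only [he]
    split_ifs <;> linarith [g3 l, g3 (l + 1), g3 (l - 1)]
  · have := g0 j
    have := g0 (j + 1)
    have := g0 (j - 1)
    simp only [he]
    rcases (by omega : i = j ∨ i = j + 1 ∨ (j ≠ 0 ∧ i = j - 1)) with rfl | rfl | ⟨h5, rfl⟩
    · split_ifs <;> linarith
    · split_ifs <;> linarith
    · rw [if_neg h5]; linarith
  · simp only [hε']
    split_ifs with h5
    · have h6 : R < ‖y‖ := by
        have : (2 : ℝ) ^ L ≤ 2 ^ l := pow_le_pow_right₀ one_le_two h5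
        linarith
      intro k hk i j
      have h7 : dv G i j =ᶠ[𝓝 y] dv flat i j := (far_ev hR h6).mono fun z hz => by
        simp only [dv, hz, flat]
      have := Ad.jg_flat 3 y (‖y‖ + 1) le_rfl k hk i j
      rwa [J1, ← (h7.iteratedFDeriv ℝ k).eq_of_nhds] at this
    · exact h2 l y h3 h4
  · rw [← Finset.mul_sum, mul_comm 3 C, mul_assoc]
    refine mul_le_mul_of_nonneg_left ?_ hC.le
    simp only [he, Finset.sum_add_distrib]
    have a1 : ∑ l ∈ Finset.range n, (if l = 0 then 0 else ε' (l - 1)) ≤ δ := by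
      rcases n with _ | n
      · simpa using g2 0
      · rw [Finset.sum_range_succ']; simpa using g2 n
    have a2 := g2 (n + 1)
    rw [Finset.sum_range_succ'] at a2
    linarith [g2 n, g0 0]
  · simp only [he, hε']
    rw [if_neg (by omega), if_pos (by omega), if_pos (by omega), if_pos (by omega)]
    simp

/-- the coefficients of a metric with bounded jets -/
theorem cf_all (Cs : ℕ → ℝ) (k : ℕ) : ∃ E : ℝ, ∀ G : MetricField 4, IsRiemannianOn G univ →
    Sml 0 G (1 / 100) → All Cs G → Cf k (fun _ => E) G := by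
  set K := ∑ j ∈ Finset.range (k + 3), |Cs j|
  obtain ⟨C, -, h⟩ := cf_of k K
  refine ⟨C * K, fun G hG h0 hA => h G (fun _ => K) (fun _ => K) hG h0 (fun _ => le_rfl)
    (fun _ _ _ _ => le_rfl) fun l y _ _ j hj a b => le_trans (hA y j a b) ?_⟩
  rw [mul_one]
  exact (le_abs_self _).trans (Finset.single_le_sum (f := fun j => |Cs j|)
    (fun _ _ => abs_nonneg _) (Finset.mem_range.2 (by omega)))

theorem ell_inv (hG : IsRiemannianOn G univ) (h0 : Sml 0 G (1 / 100)) (x : E4) :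
    Ell (1 / 2) 2 (G x)⁻¹ := by
  refine ⟨ginv_symm hG (mem_univ x), fun z => ?_⟩
  have h := abs_le.1 (Rad.quad_le (Rad.jg_inv hG (mem_univ x) (h0 x) le_rfl) (WithLp.toLp 2 z))
  rw [EuclideanSpace.real_norm_sq_eq] at h
  simp only [sub_mul, Finset.sum_sub_distrib, Matrix.one_apply, ite_mul, one_mul, zero_mul,
    Finset.sum_ite_eq, Finset.mem_univ, if_true, ← sq] at h
  have h1 : 0 ≤ ∑ i, z i ^ 2 := by positivity
  constructor <;> linarith [h.1, h.2]

end Crest.Agent.N207.Ph.Hc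

end
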