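import Crest.Agent.N207.A.Co3
import Crest.Agent.N207.AI.GlobT
import Crest.Agent.N207.Ph.St
import Crest.Agent.N207.U.JG
import Crest.Agent.N207.I.NkRs
import Crest.Agent.N207.GE.Dist

-- ▼ part N207/A/Co4
section

/-!
# Row 207, block A2 (helper41), file 4: paths of functions, differentiable with their jets

`JD J t U m f f'`: `f s` is smooth on `U` for `s` near `t` in `J`, and the space derivatives of
order `≤ m` of `f s` have the `s`-derivative (within `J`, at `t`) given by those of `f'`.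
-/

set_option autoImplicit false

open scoped ContDiff Topology
open Filter Set Function
open Crest.GeometryTopology.CoordMetric Crest.GeometryTopology.ChartCurvature
  Crest.GeometryTopology.MetricFamily
open Crest.Agent.R202.Tens Crest.Agent.R247

noncomputable section

namespace Crest.Agent.N207

variable {n k : ℕ}

/-- order zero -/
structure JD0 (J : Set ℝ) (t : ℝ) (U : Set (En n)) (f : ℝ → En n → ℝ) (f' : En n → ℝ) : Prop where
  isOpen : IsOpen U
  ev : ∀ᶠ s in 𝓝[J] t, ContDiffOn ℝ ∞ (f s) U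
  sm : ContDiffOn ℝ ∞ (f t) U
  sm' : ContDiffOn ℝ ∞ f' U
  d : ∀ y ∈ U, HasDerivWithinAt (fun s => f s y) (f' y) J t

/-- paths of smooth functions, differentiable with the space derivatives of order `≤ m` -/
def JD (J : Set ℝ) (t : ℝ) (U : Set (En n)) : ℕ → (ℝ → En n → ℝ) → (En n → ℝ) → Prop
  | 0, f, f' => JD0 J t U f f'
  | m + 1, f, f' => JD0 J t U f f' ∧ ∀ i, JD J t U m (fun s => pderiv i (f s)) (pderiv i f')

variable {J : Set ℝ} {t : ℝ} {U : Set (En n)} {f g : ℝ → En n → ℝ} {f' g' : En n → ℝ}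

namespace JD

theorem zero : ∀ {m : ℕ}, JD J t U m f f' → JD0 J t U f f'
  | 0, h => h
  | _ + 1, h => h.1

theorem pd {m : ℕ} (h : JD J t U (m + 1) f f') (i : Fin n) :
    JD J t U m (fun s => pderiv i (f s)) (pderiv i f') := h.2 i

theorem pred : ∀ {m : ℕ} {f : ℝ → En n → ℝ} {f' : En n → ℝ},
    JD J t U (m + 1) f f' → JD J t U m f f'
  | 0, _, _, h => h.1
  | _ + 1, _, _, h => ⟨h.1, fun i => pred (h.2 i)⟩

theorem of_le {m m' : ℕ} (h : JD J t U m f f') (hm : m' ≤ m) : JD J t U m' f f' := by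
  induction hm with
  | refl => exact h
  | step _ ih => exact ih h.pred

theorem d {m : ℕ} (h : JD J t U m f f') {y : En n} (hy : y ∈ U) :
    HasDerivWithinAt (fun s => f s y) (f' y) J t := h.zero.d y hy

theorem congr : ∀ {m : ℕ} {f g : ℝ → En n → ℝ} {f' g' : En n → ℝ}, JD J t U m f f' →
    (∀ᶠ s in 𝓝[J] t, ∀ y ∈ U, g s y = f s y) → (∀ y ∈ U, g t y = f t y) →
    (∀ y ∈ U, g' y = f' y) → JD J t U m g g'
  | 0, _, _, _, _, h, h1, h2, h3 =>
    ⟨h.isOpen, (h.ev.and h1).mono fun _ hs => hs.1.congr hs.2, h.sm.congr h2, h.sm'.congr h3,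
      fun y hy => h3 y hy ▸ (h.d hy).congr_of_eventuallyEq (h1.mono fun _ hs => hs y hy)
        (h2 y hy)⟩
  | _ + 1, _, _, _, _, h, h1, h2, h3 =>
    ⟨congr (m := 0) h.1 h1 h2 h3, fun i => congr (h.2 i)
      (h1.mono fun _ hs _ hy => pd_congr_on i h.1.isOpen hy hs)
      (fun _ hy => pd_congr_on i h.1.isOpen hy h2) fun _ hy => pd_congr_on i h.1.isOpen hy h3⟩

theorem congr' {m : ℕ} (h : JD J t U m f f') (h3 : ∀ y ∈ U, g' y = f' y) : JD J t U m f g' :=
  h.congr (Eventually.of_forall fun _ _ _ => rfl) (fun _ _ => rfl) h3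

theorem static (hU : IsOpen U) : ∀ (m : ℕ) {u : En n → ℝ}, ContDiffOn ℝ ∞ u U →
    JD J t U m (fun _ => u) fun _ => 0
  | 0, _, hu => ⟨hU, Eventually.of_forall fun _ => hu, hu, contDiffOn_const,
      fun _ _ => hasDerivWithinAt_const _ _ _⟩
  | m + 1, _, hu => ⟨static hU 0 hu, fun i =>
      (static hU m (sm_pd hU hu i)).congr' fun _ _ => pd_const i 0⟩

theorem add : ∀ {m : ℕ} {f g : ℝ → En n → ℝ} {f' g' : En n → ℝ}, JD J t U m f f' →
    JD J t U m g g' → JD J t U m (fun s y => f s y + g s y) fun y => f' y + g' y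
  | 0, _, _, _, _, hf, hg =>
    ⟨hf.isOpen, (hf.ev.and hg.ev).mono fun _ hs => hs.1.add hs.2, hf.sm.add hg.sm,
      hf.sm'.add hg.sm', fun _ hy => (hf.d hy).add (hg.d hy)⟩
  | _ + 1, _, _, _, _, hf, hg =>
    ⟨add (m := 0) hf.1 hg.1, fun i => (add (hf.2 i) (hg.2 i)).congr
      ((hf.1.ev.and hg.1.ev).mono fun _ hs _ hy =>
        pd_add i (dAt hs.1 hf.1.isOpen hy) (dAt hs.2 hf.1.isOpen hy))
      (fun _ hy => pd_add i (dAt hf.1.sm hf.1.isOpen hy) (dAt hg.1.sm hf.1.isOpen hy))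
      fun _ hy => pd_add i (dAt hf.1.sm' hf.1.isOpen hy) (dAt hg.1.sm' hf.1.isOpen hy)⟩

theorem mul : ∀ {m : ℕ} {f g : ℝ → En n → ℝ} {f' g' : En n → ℝ}, JD J t U m f f' →
    JD J t U m g g' → JD J t U m (fun s y => f s y * g s y) fun y => f' y * g t y + f t y * g' y
  | 0, _, _, _, _, hf, hg =>
    ⟨hf.isOpen, (hf.ev.and hg.ev).mono fun _ hs => hs.1.mul hs.2, hf.sm.mul hg.sm,
      (hf.sm'.mul hg.sm).add (hf.sm.mul hg.sm'), fun _ hy => (hf.d hy).mul (hg.d hy)⟩
  | _ + 1, _, _, _, _, hf, hg =>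
    ⟨mul (m := 0) hf.1 hg.1, fun i =>
      ((mul (hf.2 i) hg.pred).add (mul hf.pred (hg.2 i))).congr
      ((hf.1.ev.and hg.1.ev).mono fun _ hs _ hy =>
        pd_mul i (dAt hs.1 hf.1.isOpen hy) (dAt hs.2 hf.1.isOpen hy))
      (fun _ hy => pd_mul i (dAt hf.1.sm hf.1.isOpen hy) (dAt hg.1.sm hf.1.isOpen hy))
      fun y hy => by
        have a1 := dAt hf.1.sm hf.1.isOpen hy
        have a2 := dAt hg.1.sm hf.1.isOpen hy
        have a3 := dAt hf.1.sm' hf.1.isOpen hy
        have a4 := dAt hg.1.sm' hf.1.isOpen hy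
        rw [pd_add i (a3.fun_mul a2) (a1.fun_mul a4), pd_mul i a3 a2, pd_mul i a1 a4]
        ring⟩

theorem cmul {m : ℕ} (c : ℝ) (hf : JD J t U m f f') :
    JD J t U m (fun s y => c * f s y) fun y => c * f' y :=
  ((static hf.zero.isOpen m (u := fun _ => c) contDiffOn_const).mul hf).congr' fun _ _ => by ring

theorem neg {m : ℕ} (hf : JD J t U m f f') : JD J t U m (fun s y => -f s y) fun y => -f' y :=
  (hf.cmul (-1)).congr (Eventually.of_forall fun _ _ _ => by ring) (fun _ _ => by ring)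
    fun _ _ => by ring

theorem sub {m : ℕ} (hf : JD J t U m f f') (hg : JD J t U m g g') :
    JD J t U m (fun s y => f s y - g s y) fun y => f' y - g' y :=
  (hf.add hg.neg).congr (Eventually.of_forall fun _ _ _ => by ring) (fun _ _ => by ring)
    fun _ _ => by ring

theorem sum {m : ℕ} {ι : Type*} (hU : IsOpen U) (s : Finset ι) {F : ι → ℝ → En n → ℝ}
    {F' : ι → En n → ℝ} (hF : ∀ a ∈ s, JD J t U m (F a) (F' a)) :
    JD J t U m (fun r y => ∑ a ∈ s, F a r y) fun y => ∑ a ∈ s, F' a y := by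
  classical
  induction s using Finset.induction_on with
  | empty => simpa using static (J := J) (t := t) hU m (u := fun _ => 0) contDiffOn_const
  | insert a s ha ih =>
    simp only [Finset.sum_insert ha]
    exact (hF a (Finset.mem_insert_self _ _)).add
      (ih fun b hb => hF b (Finset.mem_insert_of_mem hb))



end JD

/-- time and space derivatives commute -/
theorem hasDerivAt_pd {f : ℝ → En n → ℝ} (hJ : IsOpen J) (hU : IsOpen U) (hf : St f J U)
    (ht : t ∈ J) {y : En n} (hy : y ∈ U) (i : Fin n) :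
    HasDerivAt (fun s => pderiv i (f s) y) (pderiv i (fun z => deriv (fun s => f s z) t) y) t := by
  set F : ℝ × En n → ℝ := fun p => f p.1 p.2 with hF
  have hO : IsOpen (J ×ˢ U) := hJ.prod hU
  have hAt : ∀ p ∈ J ×ˢ U, ContDiffAt ℝ ∞ F p := fun p hp => hf.contDiffAt (hO.mem_nhds hp)
  have hd : ∀ p ∈ J ×ˢ U, HasFDerivAt F (fderiv ℝ F p) p := fun p hp =>
    ((hAt p hp).differentiableAt (by norm_num)).hasFDerivAt
  have h2 : ContDiffAt ℝ 2 F (t, y) := (hAt _ ⟨ht, hy⟩).of_le Bo84.two_le_infty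
  have hD : HasFDerivAt (fderiv ℝ F) (fderiv ℝ (fderiv ℝ F) (t, y)) (t, y) :=
    ((h2.fderiv_right (m := 1) (by norm_num)).differentiableAt (by norm_num)).hasFDerivAt
  have hsym := h2.isSymmSndFDerivAt (by simp)
  have e1 : (fun s => pderiv i (f s) y) =ᶠ[𝓝 t]
      fun s => fderiv ℝ F (s, y) (0, EuclideanSpace.single i 1) := by
    filter_upwards [hJ.mem_nhds ht] with s hs
    have h := (hd (s, y) ⟨hs, hy⟩).comp y (hasFDerivAt_prodMk_right s y)
    have h' : f s = F ∘ fun z => (s, z) := rfl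
    rw [pderiv, h', h.fderiv]
    simp
  have e2 : (fun z => deriv (fun s => f s z) t) =ᶠ[𝓝 y] fun z => fderiv ℝ F (t, z) (1, 0) := by
    filter_upwards [hU.mem_nhds hy] with z hz
    have h := (hd (t, z) ⟨ht, hz⟩).comp_hasDerivAt t
      ((hasDerivAt_id t).prodMk (hasDerivAt_const t z))
    exact h.deriv
  have a1 : HasDerivAt (fun s => fderiv ℝ F (s, y) (0, EuclideanSpace.single i 1))
      (fderiv ℝ (fderiv ℝ F) (t, y) (1, 0) (0, EuclideanSpace.single i 1)) t := by
    have h := hD.comp_hasDerivAt t ((hasDerivAt_id t).prodMk (hasDerivAt_const t y))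
    simpa using h.clm_apply (hasDerivAt_const t ((0 : ℝ), EuclideanSpace.single i (1 : ℝ)))
  have a2 : pderiv i (fun z => fderiv ℝ F (t, z) (1, 0)) y =
      fderiv ℝ (fderiv ℝ F) (t, y) (0, EuclideanSpace.single i 1) (1, 0) := by
    have h := hD.comp y (hasFDerivAt_prodMk_right t y)
    have h3 := h.clm_apply (hasFDerivAt_const ((1 : ℝ), (0 : En n)) y)
    rw [pderiv]
    erw [h3.fderiv]
    simp
  rw [pd_congr i e2, a2, ← hsym.eq]
  exact a1.congr_of_eventuallyEq e1

/-- jointly smooth functions, `J` open -/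
theorem jd_of_st (hJ : IsOpen J) (hU : IsOpen U) (ht : t ∈ J) (J' : Set ℝ) :
    ∀ (m : ℕ) {f : ℝ → En n → ℝ}, St f J U → JD J' t U m f fun y => deriv (fun s => f s y) t
  | 0, _, hf =>
    ⟨hU, mem_nhdsWithin_of_mem_nhds (mem_of_superset (hJ.mem_nhds ht) fun _ hs => st_slice hf hs),
      st_slice hf ht, st_slice (st_deriv hJ hf) ht, fun _ hy =>
        (((st_tslice hf hy).contDiffAt (hJ.mem_nhds ht)).differentiableAt
          (by norm_num)).hasDerivAt.hasDerivWithinAt⟩
  | m + 1, _, hf => ⟨jd_of_st hJ hU ht J' 0 hf, fun i =>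
      (jd_of_st hJ hU ht J' m (st_pderiv hU hf i)).congr' fun _ hy =>
        (hasDerivAt_pd hJ hU hf ht hy i).deriv.symm⟩

end Crest.Agent.N207

end
end

-- ▼ part N207/A/Co5
section

/-!
# Row 207, block A2 (helper41), file 5: first variation of `g⁻¹`, `√det g`, `Γ`, `Rm`
-/

set_option autoImplicit false

open scoped ContDiff Topology
open Filter Set Function
open Crest.GeometryTopology.CoordMetric Crest.GeometryTopology.ChartCurvature
  Crest.GeometryTopology.MetricFamily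
open Crest.Agent.R202.Tens Crest.Agent.R247

noncomputable section

namespace Crest.Agent.N207

variable {n k : ℕ}

/-- a path of metrics on `U` with velocity `h` at the time `t` (within `J`), to the order `m` -/
structure Var (J : Set ℝ) (t : ℝ) (U : Set (En n)) (m : ℕ) (G : ℝ → MetricField n) (h : Tn n 2) :
    Prop where
  riem : IsRiemannianOn (G t) U
  ev : ∀ᶠ s in 𝓝[J] t, IsRiemannianOn (G s) U
  jd : ∀ i j, JD J t U m (fun s z => G s z i j) fun z => h z ![i, j]
  symm : ∀ z ∈ U, ∀ i j, h z ![i, j] = h z ![j, i]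

/-- a path of tensors with velocity `T'` -/
def JDT (J : Set ℝ) (t : ℝ) (U : Set (En n)) (m : ℕ) (T : ℝ → Tn n k) (T' : Tn n k) : Prop :=
  ∀ I, JD J t U m (fun s z => T s z I) fun z => T' z I

/-- the trace of a 2-tensor, as a function -/
def trF (g : MetricField n) (h : Tn n 2) (z : En n) : ℝ := trT g h z ![]

/-- the lowered variation of the Christoffel symbols,
`vC l i j = (∇ᵢ h_{jl} + ∇ⱼ h_{il} - ∇ₗ h_{ij}) / 2` -/
def vC (g : MetricField n) (h : Tn n 2) : Tn n 3 := fun z I =>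
  (1 / 2) * (cov g h z ![I 1, I 2, I 0] + cov g h z ![I 2, I 1, I 0] - cov g h z ![I 0, I 1, I 2])

/-- the variation of `Γˡᵢⱼ` -/
def dCh (g : MetricField n) (h : Tn n 2) (z : En n) (l i j : Fin n) : ℝ :=
  ∑ m, (g z)⁻¹ l m * vC g h z ![m, i, j]

theorem vC_apply (g : MetricField n) (h : Tn n 2) (z : En n) (l i j : Fin n) :
    vC g h z ![l, i, j] =
      (1 / 2) * (cov g h z ![i, j, l] + cov g h z ![j, i, l] - cov g h z ![l, i, j]) := rfl

theorem trF_apply (g : MetricField n) (h : Tn n 2) (z : En n) :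
    trF g h z = ∑ a, ∑ b, (g z)⁻¹ a b * h z ![a, b] := rfl

variable {J : Set ℝ} {t : ℝ} {U : Set (En n)} {G : ℝ → MetricField n} {h : Tn n 2}
  {g : MetricField n} {y : En n}

theorem SmT.vC (hg : IsRiemannianOn g U) (hh : SmT h U) : SmT (vC g h) U := fun _ =>
  contDiffOn_const.mul (((hh.cov hg _).add (hh.cov hg _)).sub (hh.cov hg _))

theorem sm_trF (hg : IsRiemannianOn g U) (hh : SmT h U) : ContDiffOn ℝ ∞ (trF g h) U :=
  hh.trT hg ![]

theorem sum_mul3 (P X Q : Matrix (Fin n) (Fin n) ℝ) (a b : Fin n) :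
    ∑ c, ∑ d, P a c * X c d * Q d b = (P * X * Q) a b := by
  simp only [Matrix.mul_apply, Finset.sum_mul]
  rw [Finset.sum_comm]

/-- entries of a matrix as continuous linear maps -/
def entL (i j : Fin n) : (Fin n → Fin n → ℝ) →L[ℝ] ℝ :=
  (ContinuousLinearMap.proj (R := ℝ) (φ := fun _ : Fin n => ℝ) j).comp
    (ContinuousLinearMap.proj (R := ℝ) (φ := fun _ : Fin n => Fin n → ℝ) i)

theorem entL_apply (i j : Fin n) (B : Fin n → Fin n → ℝ) : entL i j B = B i j := rfl

theorem hasFDerivAt_ent (i j : Fin n) (x : Fin n → Fin n → ℝ) :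
    HasFDerivAt (fun B : Fin n → Fin n → ℝ => B i j) (entL i j) x := (entL i j).hasFDerivAt

/-- raising the index `0` and differentiating -/
theorem pd_raise {T : Tn n (k + 1)} (hg : IsRiemannianOn g U) (hy : y ∈ U) (hT : DfT T y)
    (i l : Fin n) (I : Fin k → Fin n) :
    pderiv i (fun z => ∑ m, (g z)⁻¹ l m * T z (Fin.cons m I)) y =
      ∑ m, (g y)⁻¹ l m * cov g T y (Fin.cons i (Fin.cons m I))
      - ∑ a, christoffel g y l i a * ∑ m, (g y)⁻¹ a m * T y (Fin.cons m I)
      + ∑ m, (g y)⁻¹ l m * actA (fun m a => christoffel g y m i a) (slA m (T y)) I := by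
  have hi : ∀ a b, DifferentiableAt ℝ (fun z => (g z)⁻¹ a b) y := fun a b =>
    dAt (sm_inv hg a b) hg.isOpen hy
  rw [pd_sum i _ fun m _ => (hi l m).fun_mul (hT (Fin.cons m I))]
  simp only [fun m => pd_mul i (hi l m) (hT (Fin.cons m I)), pd_ginv hg hy, cov_cons, actA_cons,
    mul_sub, mul_add, sub_mul, neg_mul, Finset.sum_add_distrib, Finset.sum_sub_distrib,
    Finset.sum_neg_distrib]
  have e1 : ∑ x, (∑ m, christoffel g y l i m * (g y)⁻¹ m x) * T y (Fin.cons x I) =
      ∑ a, christoffel g y l i a * ∑ m, (g y)⁻¹ a m * T y (Fin.cons m I) := by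
    simp only [Finset.sum_mul, Finset.mul_sum]
    rw [Finset.sum_comm]
    exact Finset.sum_congr rfl fun _ _ => Finset.sum_congr rfl fun _ _ => by ring
  have e2 : ∑ x, (∑ m, christoffel g y x i m * (g y)⁻¹ l m) * T y (Fin.cons x I) =
      ∑ x, (g y)⁻¹ l x * ∑ m, christoffel g y m i x * T y (Fin.cons m I) := by
    simp only [Finset.sum_mul, Finset.mul_sum]
    rw [Finset.sum_comm]
    exact Finset.sum_congr rfl fun _ _ => Finset.sum_congr rfl fun _ _ => by ring
  rw [e1, e2]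
  ring

theorem actA_one (B : Fin n → Fin n → ℝ) (A : Arr n 1) (a : Fin n) :
    actA B A ![a] = ∑ m, B m a * A ![m] := by
  have h := actA_cons B A a ![]
  rw [actA_zero_rank, add_zero] at h
  exact h

theorem actA_two (B : Fin n → Fin n → ℝ) (A : Arr n 2) (a b : Fin n) :
    actA B A ![a, b] = ∑ m, B m a * A ![m, b] + ∑ m, B m b * A ![a, m] := by
  have h := actA_cons B A a ![b]
  rw [actA_one] at h
  exact h


theorem vC_coord (hg : IsRiemannianOn g U) (hy : y ∈ U)
    (hs : ∀ z ∈ U, ∀ i j, h z ![i, j] = h z ![j, i]) (l i j : Fin n) :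
    vC g h y ![l, i, j] = (1 / 2) * (pderiv i (fun z => h z ![j, l]) y
      + pderiv j (fun z => h z ![i, l]) y - pderiv l (fun z => h z ![i, j]) y)
      - ∑ m, christoffel g y m i j * h y ![l, m] := by
  rw [vC_apply, cov_two, cov_two, cov_two]
  simp only [fun m => christoffel_symm hg hy m j i, fun m => christoffel_symm hg hy m l i,
    fun m => christoffel_symm hg hy m l j, fun m => hs y hy m l, fun m => hs y hy m j]
  ring

namespace Var

variable {m : ℕ}

theorem pred (v : Var J t U (m + 1) G h) : Var J t U m G h :=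
  ⟨v.riem, v.ev, fun i j => (v.jd i j).pred, v.symm⟩

theorem of_le {m' : ℕ} (v : Var J t U m G h) (hm : m' ≤ m) : Var J t U m' G h :=
  ⟨v.riem, v.ev, fun i j => (v.jd i j).of_le hm, v.symm⟩

theorem smT (v : Var J t U m G h) : SmT h U := fun I => by
  have hI : I = ![I 0, I 1] := by funext s; fin_cases s <;> rfl
  rw [hI]
  exact (v.jd _ _).zero.sm'

theorem det0 (v : Var J t U m G h) (hy : y ∈ U) :
    HasDerivWithinAt (fun s => (G s y).det) ((G t y).det * trF (G t) h y) J t := by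
  have hF := Bo84.hasFDerivAt_det (V := Fin n → Fin n → ℝ) (A := fun B => Matrix.of B)
    (x := fun i j => G t y i j)
    (A' := entL) (fun i j => hasFDerivAt_ent i j _)
  have hP : HasDerivWithinAt (fun s => fun i j => G s y i j) (fun i j => h y ![i, j]) J t :=
    hasDerivWithinAt_pi.2 fun i => hasDerivWithinAt_pi.2 fun j => (v.jd i j).d hy
  refine (hF.comp_hasDerivWithinAt t hP).congr_deriv ?_
  symm
  have hne := (Bo84.det_pos v.riem hy).ne'
  have hadj : ∀ i j, (G t y).adjugate i j = (G t y).det * (G t y)⁻¹ i j := by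
    intro i j
    simp only [Matrix.inv_def, Ring.inverse_eq_inv', Matrix.smul_apply, smul_eq_mul]
    field_simp
  simp only [sum_apply, smul_apply, smul_eq_mul, trF_apply, Finset.mul_sum, entL_apply]
  refine Finset.sum_congr rfl fun i _ => Finset.sum_congr rfl fun j _ => ?_
  rw [v.symm y hy j i, ← mul_assoc, ← hadj]
  rfl

/-- `∂ₛ √det g = (tr h / 2) √det g` -/
theorem sqrt_det (v : Var J t U m G h) (hy : y ∈ U) :
    HasDerivWithinAt (fun s => Real.sqrt (G s y).det)
      ((1 / 2) * trF (G t) h y * Real.sqrt (G t y).det) J t := by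
  have hpos := Bo84.det_pos v.riem hy
  convert (v.det0 hy).sqrt hpos.ne' using 1
  have h2 : Real.sqrt (G t y).det ≠ 0 := (Real.sqrt_pos.2 hpos).ne'
  have h3 : (G t y).det = Real.sqrt (G t y).det * Real.sqrt (G t y).det :=
    (Real.mul_self_sqrt hpos.le).symm
  set s := Real.sqrt (G t y).det
  rw [h3]
  field_simp

theorem ginv0 (v : Var J t U m G h) (hy : y ∈ U) (a b : Fin n) :
    HasDerivWithinAt (fun s => (G s y)⁻¹ a b)
      (-∑ c, ∑ d, (G t y)⁻¹ a c * h y ![c, d] * (G t y)⁻¹ d b) J t := by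
  have hne := (Bo84.det_pos v.riem hy).ne'
  have hF : ∀ a b, DifferentiableAt ℝ (fun B : Fin n → Fin n → ℝ => (Matrix.of B)⁻¹ a b)
      fun i j => G t y i j := by
    intro a b
    have hO : IsOpen {B : Fin n → Fin n → ℝ | (Matrix.of B).det ≠ 0} :=
      isOpen_ne_fun (Continuous.matrix_det continuous_id) continuous_const
    exact ((contDiffOn_inv' (A := fun B : Fin n → Fin n → ℝ => Matrix.of B)
      (fun i j => (contDiff_apply_apply ℝ ℝ i j).contDiffOn) (fun _ hB => hB) a b).contDiffAt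
        (hO.mem_nhds hne)).differentiableAt (by norm_num)
  set x0 : Fin n → Fin n → ℝ := fun i j => G t y i j with hx0
  set w : Fin n → Fin n → ℝ := fun i j => h y ![i, j] with hw
  have hP : HasDerivWithinAt (fun s => fun i j => G s y i j) w J t :=
    hasDerivWithinAt_pi.2 fun i => hasDerivWithinAt_pi.2 fun j => (v.jd i j).d hy
  have key := inv_deriv_alg (A := G t y) (A' := Matrix.of w)
    (H' := Matrix.of fun c d => fderiv ℝ (fun B : Fin n → Fin n → ℝ => (Matrix.of B)⁻¹ c d) x0 w)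
    (Matrix.nonsing_inv_mul _ hne.isUnit) (Matrix.mul_nonsing_inv _ hne.isUnit) (by
      ext c d
      have h1 := HasFDerivAt.fun_sum (u := Finset.univ) fun e _ =>
        (hF c e).hasFDerivAt.fun_mul (hasFDerivAt_ent e d x0)
      have h2 : (fun B : Fin n → Fin n → ℝ => ∑ e, (Matrix.of B)⁻¹ c e * B e d) =ᶠ[𝓝 x0]
          fun _ => (1 : Matrix (Fin n) (Fin n) ℝ) c d := by
        have hO : IsOpen {B : Fin n → Fin n → ℝ | (Matrix.of B).det ≠ 0} :=
          isOpen_ne_fun (Continuous.matrix_det continuous_id) continuous_const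
        filter_upwards [hO.mem_nhds hne] with B hB
        rw [← Matrix.nonsing_inv_mul (Matrix.of B) (Ne.isUnit hB), Matrix.mul_apply]
        rfl
      have h3 := (h1.congr_of_eventuallyEq h2.symm).unique (hasFDerivAt_const _ _)
      have h4 := congrArg (fun L => L w) h3
      simp only [sum_apply, add_apply, smul_apply, smul_eq_mul, entL_apply, zero_apply] at h4
      simp only [Matrix.add_apply, Matrix.mul_apply, Matrix.of_apply, Matrix.zero_apply,
        ← Finset.sum_add_distrib]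
      rw [← h4]
      exact Finset.sum_congr rfl fun e _ => by
        rw [add_comm, mul_comm (x0 e d)]; rfl)
  have h5 := (hF a b).hasFDerivAt.comp_hasDerivWithinAt t hP
  have h6 := congrFun (congrFun key a) b
  rw [Matrix.of_apply, Matrix.neg_apply, ← sum_mul3] at h6
  rw [h6] at h5
  exact h5

/-- `∂ₛ g⁻¹ = - g⁻¹ h g⁻¹` -/
theorem ginv : ∀ {m : ℕ}, Var J t U m G h → ∀ a b, JD J t U m (fun s z => (G s z)⁻¹ a b)
    fun z => -∑ c, ∑ d, (G t z)⁻¹ a c * h z ![c, d] * (G t z)⁻¹ d b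
  | 0, v, a, b => ⟨v.riem.isOpen, v.ev.mono fun _ hs => sm_inv hs a b, sm_inv v.riem a b,
      (ContDiffOn.sum fun c _ => ContDiffOn.sum fun d _ =>
        ((sm_inv v.riem a c).mul (v.smT _)).mul (sm_inv v.riem d b)).neg,
      fun _ hy => v.ginv0 hy a b⟩
  | m + 1, v, a, b => ⟨ginv (m := 0) (v.of_le (Nat.zero_le _)) a b, fun l => by
      have hU := v.riem.isOpen
      refine (JD.sum hU Finset.univ fun c _ => JD.sum hU Finset.univ fun d _ =>
        ((ginv v.pred a c).mul ((v.jd c d).pd l)).mul (ginv v.pred d b)).neg.congr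
        (v.ev.mono fun s hs z hz => pd_ginv' hs hz l a b) (fun z hz => pd_ginv' v.riem hz l a b)
        fun z hz => ?_
      have hi : ∀ a b, DifferentiableAt ℝ (fun z => (G t z)⁻¹ a b) z := fun a b =>
        dAt (sm_inv v.riem a b) hU hz
      have hh := v.smT.dAt hU hz
      rw [pd_neg, pd_sum l _ fun c _ => DifferentiableAt.fun_sum fun d _ =>
        ((hi a c).fun_mul (hh ![c, d])).fun_mul (hi d b)]
      simp only [fun c => pd_sum l Finset.univ fun d _ =>
        ((hi a c).fun_mul (hh ![c, d])).fun_mul (hi d b),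
        fun c d => pd_mul l ((hi a c).fun_mul (hh ![c, d])) (hi d b),
        fun c d => pd_mul l (hi a c) (hh ![c, d]), pd_ginv' v.riem hz]
      set H := (G t z)⁻¹
      set X : Matrix (Fin n) (Fin n) ℝ := Matrix.of fun c d => h z ![c, d] with hX
      set Y : Matrix (Fin n) (Fin n) ℝ := Matrix.of fun c d => pderiv l (fun z => G t z c d) z
        with hY
      set Z : Matrix (Fin n) (Fin n) ℝ := Matrix.of fun c d => pderiv l (fun z => h z ![c, d]) z
        with hZ
      have eX : ∀ c d, h z ![c, d] = X c d := fun _ _ => rfl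
      have eY : ∀ c d, pderiv l (fun z => G t z c d) z = Y c d := fun _ _ => rfl
      have eZ : ∀ c d, pderiv l (fun z => h z ![c, d]) z = Z c d := fun _ _ => rfl
      simp only [eX, eY, eZ, sum_mul3]
      simp only [neg_mul, mul_neg, add_mul, Finset.sum_add_distrib, Finset.sum_neg_distrib,
        sum_mul3, Matrix.mul_assoc]
      ring⟩

/-- `∂ₛ Γ` -/
theorem chr (v : Var J t U (m + 1) G h) (l i j : Fin n) :
    JD J t U m (fun s z => christoffel (G s) z l i j) fun z => dCh (G t) h z l i j := by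
  have hU := v.riem.isOpen
  refine ((JD.sum hU Finset.univ fun a _ => (v.pred.ginv l a).mul
    ((((v.jd j a).pd i).add ((v.jd i a).pd j)).sub ((v.jd i j).pd a))).cmul (1 / 2)).congr'
    fun z hz => ?_
  simp only [dCh, vC_coord v.riem hz v.symm, mul_sub, Finset.sum_add_distrib,
    Finset.sum_sub_distrib]
  have e : ∑ a, (-∑ c, ∑ d, (G t z)⁻¹ l c * h z ![c, d] * (G t z)⁻¹ d a) *
      (pderiv i (fun z => G t z j a) z + pderiv j (fun z => G t z i a) z
        - pderiv a (fun z => G t z i j) z) =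
      -(2 * ∑ x, (G t z)⁻¹ l x * ∑ m, christoffel (G t) z m i j * h z ![x, m]) := by
    simp only [christoffel, inverseField, neg_mul, Finset.sum_neg_distrib, Finset.sum_mul,
      Finset.mul_sum]
    congr 1
    rw [Finset.sum_comm]
    refine Finset.sum_congr rfl fun c _ => ?_
    rw [Finset.sum_comm]
    exact Finset.sum_congr rfl fun _ _ => Finset.sum_congr rfl fun _ _ => by ring
  simp only [mul_sub] at e
  simp only [Finset.sum_sub_distrib] at e
  rw [e]
  simp only [mul_add, Finset.sum_add_distrib, mul_left_comm _ (1 / 2 : ℝ), ← Finset.mul_sum]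
  ring

/-- `∂ₛ Rˡₖᵢⱼ = ∇ᵢ δΓˡⱼₖ - ∇ⱼ δΓˡᵢₖ` -/
theorem riemann (v : Var J t U (m + 2) G h) (l a i j : Fin n) :
    JD J t U m (fun s z => riemann (G s) z l a i j) fun z => ∑ b, (G t z)⁻¹ l b *
      (cov (G t) (vC (G t) h) z ![i, b, j, a] - cov (G t) (vC (G t) h) z ![j, b, i, a]) := by
  have hU := v.riem.isOpen
  refine ((((v.chr l j a).pd i).sub ((v.chr l i a).pd j)).add (JD.sum hU Finset.univ fun c _ =>
    ((v.pred.chr l i c).mul (v.pred.chr c j a)).sub
      ((v.pred.chr l j c).mul (v.pred.chr c i a)))).congr' fun z hz => ?_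
  have hC := (v.smT.vC v.riem).dAt hU hz
  have h1 := pd_raise v.riem hz hC i l ![j, a]
  have h2 := pd_raise v.riem hz hC j l ![i, a]
  simp only [actA_two] at h1 h2
  have e : ∀ (z : En n) (p q r : Fin n),
      vC (G t) h z (Fin.cons p ![q, r]) = vC (G t) h z ![p, q, r] := fun _ _ _ _ => rfl
  have e' : ∀ (p q r s : Fin n), cov (G t) (vC (G t) h) z (Fin.cons p (Fin.cons q ![r, s])) =
      cov (G t) (vC (G t) h) z ![p, q, r, s] := fun _ _ _ _ => rfl
  simp only [slA, e, e'] at h1 h2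
  have sw : ∀ (c : Fin n → ℝ) (X : Fin n → Fin n → ℝ),
      ∑ m, (G t z)⁻¹ l m * ∑ x, c x * X m x = ∑ x, (∑ m, (G t z)⁻¹ l m * X m x) * c x := by
    intro c X
    simp only [Finset.sum_mul, Finset.mul_sum]
    rw [Finset.sum_comm]
    exact Finset.sum_congr rfl fun _ _ => Finset.sum_congr rfl fun _ _ => by ring
  simp only [mul_add, Finset.sum_add_distrib, sw] at h1 h2
  simp only [dCh, h1, h2, mul_sub, Finset.sum_sub_distrib, Finset.sum_add_distrib,
    fun m => christoffel_symm v.riem hz m j i]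
  ring


end Var

end Crest.Agent.N207

end
end

-- ▼ part N207/A/Co6
section

/-!
# Row 207, block A2 (helper41), file 6: first variation of `Ric`, `R`, `Δ`, `∇`, `⟨,⟩`
-/

set_option autoImplicit false

open scoped ContDiff Topology
open Filter Set Function
open Crest.GeometryTopology.CoordMetric Crest.GeometryTopology.ChartCurvature
  Crest.GeometryTopology.MetricFamily
open Crest.Agent.R202.Tens Crest.Agent.R247

noncomputable section

namespace Crest.Agent.N207

variable {n k : ℕ} {J : Set ℝ} {t : ℝ} {U : Set (En n)} {G : ℝ → MetricField n} {h : Tn n 2}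
  {g : MetricField n} {y : En n}

/-- trace over the indices `1, 2` -/
def tr1T (g : MetricField n) (W : Tn n (k + 3)) : Tn n (k + 1) := fun z I =>
  ∑ a, ∑ b, (g z)⁻¹ a b * W z (Fin.cons (I 0) (Fin.cons a (Fin.cons b (Fin.tail I))))

theorem SmT.tr1T {W : Tn n (k + 3)} (hg : IsRiemannianOn g U) (hW : SmT W U) :
    SmT (tr1T g W) U := fun _ =>
  ContDiffOn.sum fun _ _ => ContDiffOn.sum fun _ _ => (sm_inv hg _ _).mul (hW _)

theorem cov_trT_eq {T : Tn n (k + 2)} (hg : IsRiemannianOn g U) (hy : y ∈ U) (hT : DfT T y) :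
    cov g (trT g T) y = tr1T g (cov g T) y := arr_ext fun l I => cov_trT hg hy hT l I

theorem cov_tr1T {W : Tn n (k + 3)} (hg : IsRiemannianOn g U) (hy : y ∈ U) (hW : DfT W y)
    (a b : Fin n) (I : Fin k → Fin n) : cov g (tr1T g W) y (Fin.cons a (Fin.cons b I)) =
      ∑ c, ∑ d, (g y)⁻¹ c d * cov g W y (Fin.cons a (Fin.cons b (Fin.cons c (Fin.cons d I)))) := by
  have e : slT b (tr1T g W) = trT g (slT b W) := rfl
  rw [cov_cons_cons, e, cov_trT (T := slT b W) hg hy fun J => hW _]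
  simp only [cov_cons_cons g W y a b, mul_sub, Finset.sum_sub_distrib, tr1T, Fin.cons_zero,
    Fin.tail_cons, Finset.mul_sum]
  congr 1
  rw [Finset.sum_comm]
  refine Finset.sum_congr rfl fun c _ => ?_
  rw [Finset.sum_comm]
  exact Finset.sum_congr rfl fun _ _ => Finset.sum_congr rfl fun _ _ => by ring

theorem cov_cov_trT {T : Tn n (k + 2)} (hg : IsRiemannianOn g U) (hy : y ∈ U) (hT : SmT T U)
    (a b : Fin n) (I : Fin k → Fin n) :
    cov g (cov g (trT g T)) y (Fin.cons a (Fin.cons b I)) = ∑ c, ∑ d, (g y)⁻¹ c d *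
      cov g (cov g T) y (Fin.cons a (Fin.cons b (Fin.cons c (Fin.cons d I)))) := by
  rw [cov_congr_on hg.isOpen hy fun z hz => cov_trT_eq hg hz (hT.dAt hg.isOpen hz),
    cov_tr1T hg hy ((hT.cov hg).dAt hg.isOpen hy)]

theorem sum_comm4 (H : Matrix (Fin n) (Fin n) ℝ) (X : Fin n → Fin n → Fin n → Fin n → ℝ) :
    ∑ a, ∑ b, H a b * ∑ c, ∑ d, H c d * X a b c d =
      ∑ c, ∑ d, H c d * ∑ a, ∑ b, H a b * X a b c d := by
  have e : ∀ Y : Fin n → Fin n → Fin n → Fin n → ℝ,
      ∑ a, ∑ b, H a b * ∑ c, ∑ d, H c d * Y a b c d =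
      ∑ p : Fin n × Fin n, ∑ q : Fin n × Fin n, H p.1 p.2 * H q.1 q.2 * Y p.1 p.2 q.1 q.2 := by
    intro Y
    simp only [Fintype.sum_prod_type, Finset.mul_sum, mul_assoc]
  rw [e, e fun c d a b => X a b c d, Finset.sum_comm]
  exact Finset.sum_congr rfl fun _ _ => Finset.sum_congr rfl fun _ _ => by ring

/-- `Δ` commutes with the trace -/
theorem lapT_trT {T : Tn n (k + 2)} (hg : IsRiemannianOn g U) (hy : y ∈ U) (hT : SmT T U) :
    lapT g (trT g T) y = trT g (lapT g T) y := by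
  funext I
  simp only [lapT, trT.eq_1 g (cov g (cov g (trT g T))), cov_cov_trT hg hy hT]
  rw [sum_comm4]
  rfl

theorem fnT_trF (g : MetricField n) (h : Tn n 2) : fnT (trF g h) = trT g h := by
  funext z I
  rw [Subsingleton.elim I ![]]
  rfl

theorem hessT_trF (hg : IsRiemannianOn g U) (hy : y ∈ U) (hh : SmT h U) (a b : Fin n) :
    hessT g (trF g h) y ![a, b] = ∑ c, ∑ d, (g y)⁻¹ c d * cov g (cov g h) y ![a, b, c, d] := by
  rw [hessT, ← cov_fnT g, fnT_trF]
  exact cov_cov_trT hg hy hh a b ![]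



theorem cov_divT_two (hg : IsRiemannianOn g U) (hy : y ∈ U) (hh : SmT h U) (a b : Fin n) :
    cov g (divT g h) y ![a, b] = ∑ c, ∑ d, (g y)⁻¹ c d * cov g (cov g h) y ![a, c, d, b] :=
  cov_trT hg hy ((hh.cov hg).dAt hg.isOpen hy) a ![b]

theorem lapT_two (g : MetricField n) (h : Tn n 2) (y : En n) (a b : Fin n) :
    lapT g h y ![a, b] = ∑ c, ∑ d, (g y)⁻¹ c d * cov g (cov g h) y ![c, d, a, b] := rfl

theorem cov_symm_two (hg : IsRiemannianOn g U) (hy : y ∈ U)
    (hs : ∀ z ∈ U, ∀ i j, h z ![i, j] = h z ![j, i]) (l i j : Fin n) :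
    cov g h y ![l, i, j] = cov g h y ![l, j, i] := by
  rw [cov_two, cov_two, pd_congr_on l hg.isOpen hy fun z hz => hs z hz i j]
  simp only [fun m => hs y hy m j, fun m => hs y hy m i]
  ring

theorem cov_cov_symm_two (hg : IsRiemannianOn g U) (hy : y ∈ U)
    (hs : ∀ z ∈ U, ∀ i j, h z ![i, j] = h z ![j, i]) (a l i j : Fin n) :
    cov g (cov g h) y ![a, l, i, j] = cov g (cov g h) y ![a, l, j, i] := by
  rw [cov_three, cov_three, pd_congr_on a hg.isOpen hy fun z hz => cov_symm_two hg hz hs l i j]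
  simp only [fun m => cov_symm_two hg hy hs m i j, fun m => cov_symm_two hg hy hs l m j,
    fun m => cov_symm_two hg hy hs l m i]
  ring

theorem cov_vC (hg : IsRiemannianOn g U) (hy : y ∈ U) (hh : SmT h U) (a l i j : Fin n) :
    cov g (vC g h) y ![a, l, i, j] = (1 / 2) * (cov g (cov g h) y ![a, i, j, l]
      + cov g (cov g h) y ![a, j, i, l] - cov g (cov g h) y ![a, l, i, j]) := by
  have hd := (hh.cov hg).dAt hg.isOpen hy
  simp only [cov_three, vC_apply]
  rw [pd_cmul, pd_sub a ((hd _).fun_add (hd _)) (hd _), pd_add a (hd _) (hd _)]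
  simp only [mul_left_comm _ (1 / 2 : ℝ), ← Finset.mul_sum, mul_add, mul_sub,
    Finset.sum_add_distrib, Finset.sum_sub_distrib]
  ring

theorem sum_ginv_swap (hg : IsRiemannianOn g U) (hy : y ∈ U) (X : Fin n → Fin n → ℝ) :
    ∑ a, ∑ b, (g y)⁻¹ a b * X a b = ∑ a, ∑ b, (g y)⁻¹ a b * X b a := by
  rw [Finset.sum_comm]
  exact Finset.sum_congr rfl fun a _ => Finset.sum_congr rfl fun b _ => by rw [ginv_symm hg hy]


/-- the variation of the Ricci tensor -/
def dRic (g : MetricField n) (h : Tn n 2) : Tn n 2 := fun z I =>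
  (1 / 2) * (∑ a, ∑ b, (g z)⁻¹ a b * cov g (cov g h) z ![a, I 0, I 1, b]
    + ∑ a, ∑ b, (g z)⁻¹ a b * cov g (cov g h) z ![a, I 1, I 0, b]
    - lapT g h z I - hessT g (trF g h) z I)

theorem dRic_apply (g : MetricField n) (h : Tn n 2) (z : En n) (i j : Fin n) :
    dRic g h z ![i, j] = (1 / 2) * (∑ a, ∑ b, (g z)⁻¹ a b * cov g (cov g h) z ![a, i, j, b]
      + ∑ a, ∑ b, (g z)⁻¹ a b * cov g (cov g h) z ![a, j, i, b]
      - lapT g h z ![i, j] - hessT g (trF g h) z ![i, j]) := rfl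

/-- the variation of the scalar curvature -/
def dScal (g : MetricField n) (h : Tn n 2) (z : En n) : ℝ :=
  divT g (divT g h) z ![] - laplaceBeltrami g (trF g h) z - ip g (ricT g) h z

theorem tr_dRic (hg : IsRiemannianOn g U) (hy : y ∈ U) (hh : SmT h U)
    (hs : ∀ z ∈ U, ∀ i j, h z ![i, j] = h z ![j, i]) :
    ∑ i, ∑ j, (g y)⁻¹ i j * dRic g h y ![i, j] =
      divT g (divT g h) y ![] - laplaceBeltrami g (trF g h) y := by
  have e1 : divT g (divT g h) y ![] = ∑ i, ∑ j, (g y)⁻¹ i j *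
      ∑ a, ∑ b, (g y)⁻¹ a b * cov g (cov g h) y ![a, i, j, b] := by
    rw [divT, trT_zero_rank, ← sum_comm4]
    simp only [cov_divT_two hg hy hh]
  have e2 : laplaceBeltrami g (trF g h) y = ∑ i, ∑ j, (g y)⁻¹ i j * hessT g (trF g h) y ![i, j] :=
    lapB_eq_trT hg hy (c2At (sm_trF hg hh) hg.isOpen hy)
  have e3 : laplaceBeltrami g (trF g h) y = ∑ i, ∑ j, (g y)⁻¹ i j * lapT g h y ![i, j] := by
    rw [lapB_eq_lapT hg hy (c2At (sm_trF hg hh) hg.isOpen hy), fnT_trF, lapT_trT hg hy hh]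
    rfl
  have _h := hs
  simp only [dRic_apply, mul_left_comm _ (1 / 2 : ℝ), ← Finset.mul_sum, mul_add, mul_sub,
    Finset.sum_add_distrib, Finset.sum_sub_distrib]
  rw [sum_ginv_swap hg hy fun i j => ∑ a, ∑ b, (g y)⁻¹ a b * cov g (cov g h) y ![a, j, i, b],
    ← e1, ← e2, ← e3]
  ring

theorem ip_two (g : MetricField n) (S T : Tn n 2) (y : En n) : ip g S T y =
    ∑ a, ∑ b, ∑ c, ∑ d, (g y)⁻¹ a b * (g y)⁻¹ c d * (S y ![a, c] * T y ![b, d]) := ipA_two _ _

theorem sum_dinv_mul (hg : IsRiemannianOn g U) (hy : y ∈ U) (S : Tn n 2) :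
    ∑ i, ∑ j, (-∑ c, ∑ d, (g y)⁻¹ i c * h y ![c, d] * (g y)⁻¹ d j) * S y ![i, j] =
      -ip g S h y := by
  rw [ip_two]
  simp only [neg_mul, Finset.sum_neg_distrib, Finset.sum_mul]
  congr 1
  refine Finset.sum_congr rfl fun i _ => ?_
  rw [Finset.sum_comm]
  refine Finset.sum_congr rfl fun c _ => Finset.sum_congr rfl fun j _ =>
    Finset.sum_congr rfl fun d _ => ?_
  rw [ginv_symm hg hy d j]
  ring

namespace Var

variable {m : ℕ}

/-- `∂ₛ Ric` -/
theorem ricci (v : Var J t U (m + 2) G h) (i j : Fin n) :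
    JD J t U m (fun s z => ricci (G s) z i j) fun z => dRic (G t) h z ![i, j] := by
  refine (JD.sum v.riem.isOpen Finset.univ fun a _ => v.riemann a i a j).congr
    (v.ev.mono fun s hs z hz => ricci_eq_sum_riemann hs hz i j)
    (fun z hz => ricci_eq_sum_riemann v.riem hz i j) fun z hz => ?_
  rw [dRic_apply, hessT_symm v.riem hz (c2At (sm_trF v.riem v.smT) v.riem.isOpen hz),
    hessT_trF v.riem hz v.smT, lapT_two]
  simp only [cov_vC v.riem hz v.smT, mul_left_comm _ (1 / 2 : ℝ), ← Finset.mul_sum, mul_add,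
    mul_sub, Finset.sum_add_distrib, Finset.sum_sub_distrib,
    fun a b => cov_cov_symm_two v.riem hz v.symm a b j i,
    fun a b => cov_cov_symm_two v.riem hz v.symm j a i b]
  rw [sum_ginv_swap v.riem hz fun a b => cov (G t) (cov (G t) h) z ![j, b, a, i]]
  ring

/-- `∂ₛ R = div div h - Δ tr h - ⟨Ric, h⟩` -/
theorem scal (v : Var J t U (m + 2) G h) :
    JD J t U m (fun s => scalarCurv (G s)) (dScal (G t) h) := by
  have hU := v.riem.isOpen
  refine (JD.sum hU Finset.univ fun i _ => JD.sum hU Finset.univ fun j _ =>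
    ((v.of_le (Nat.le_add_right m 2)).ginv i j).mul (v.ricci i j)).congr' fun z hz => ?_
  simp only [Finset.sum_add_distrib]
  rw [tr_dRic v.riem hz v.smT v.symm, dScal]
  have h1 := sum_dinv_mul (h := h) v.riem hz (ricT (G t))
  simp only [ricT, Matrix.cons_val_zero, Matrix.cons_val_one] at h1
  rw [h1]
  ring

/-- `∂ₛ Hess f` -/
theorem hessT {f : ℝ → En n → ℝ} {f' : En n → ℝ} (v : Var J t U (m + 1) G h)
    (hf : JD J t U (m + 2) f f') (a b : Fin n) :
    JD J t U m (fun s z => hessT (G s) (f s) z ![a, b]) fun z =>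
      N207.hessT (G t) f' z ![a, b] - ∑ c, dCh (G t) h z c a b * pderiv c (f t) z := by
  simp only [hessT_apply]
  refine (((hf.pd b).pd a).sub (JD.sum v.riem.isOpen Finset.univ fun c _ =>
    (v.chr c a b).mul (hf.pd c).pred)).congr' fun z _ => ?_
  simp only [Finset.sum_add_distrib]
  ring


/-- `∂ₛ ∇T = ∇T' - δΓ * T` -/
theorem cov {T : ℝ → Tn n k} {T' : Tn n k} (v : Var J t U (m + 1) G h)
    (hT : JDT J t U (m + 1) T T') : JDT J t U m (fun s => cov (G s) (T s)) fun z I =>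
      N207.cov (G t) T' z I - actA (fun a i => dCh (G t) h z a (I 0) i) (T t z) (Fin.tail I) := by
  intro I
  have hU := v.riem.isOpen
  refine (((hT (Fin.tail I)).pd (I 0)).sub (JD.sum hU Finset.univ fun s _ =>
    JD.sum hU Finset.univ fun a _ => (v.chr a (I 0) (Fin.tail I s)).mul
      (hT (update (Fin.tail I) s a)).pred)).congr' fun z _ => ?_
  simp only [N207.cov, actA, Finset.sum_add_distrib]
  ring


end Var

/-- a jointly smooth family on an open time set is a `Var` at every order -/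
theorem CFam.var (c : CFam G J U) (hJ : IsOpen J) (ht : t ∈ J) (J' : Set ℝ) (m : ℕ) :
    Var J' t U m G (dtT (fun s => matT (G s)) t) where
  riem := c.riem ht
  ev := mem_nhdsWithin_of_mem_nhds (mem_of_superset (hJ.mem_nhds ht) fun _ hs => c.riem hs)
  jd i j := jd_of_st hJ c.isOpen ht J' m (c.sm i j)
  symm z hz i j := by
    refine Filter.EventuallyEq.deriv_eq ?_
    filter_upwards [hJ.mem_nhds ht] with s hs using metric_symm (c.riem hs) hz i j


/-- a Ricci flow is a `Var` with velocity `-2 Ric` -/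
theorem CFlow.var (c : CFlow G J U) (ht : t ∈ J) (J' : Set ℝ) (m : ℕ) :
    Var J' t U m G ((-2 : ℝ) • ricT (G t)) := by
  have v := c.toCFam.var c.isOpenJ ht J' m
  have e : ∀ z ∈ U, ∀ i j, ((-2 : ℝ) • ricT (G t)) z ![i, j] =
      dtT (fun s => matT (G s)) t z ![i, j] := fun z hz i j => (c.rf t ht z hz i j).deriv.symm
  exact ⟨v.riem, v.ev, fun i j => (v.jd i j).congr' fun z hz => e z hz i j,
    fun z hz i j => by rw [e z hz, e z hz, v.symm z hz]⟩

end Crest.Agent.N207

end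
end

-- ▼ part N207/Ph/Ws1

/-!
# Row 207, block PHI (helper89): the time step `WS`, file 1: gluing, scaling, pointwise bounds
-/

set_option autoImplicit false
set_option linter.unusedSectionVars false

open scoped ContDiff Manifold Topology
open Set MeasureTheory Filter Metric
open Crest.GeometryTopology.CoordMetric Crest.GeometryTopology.ChartCurvature
  Crest.GeometryTopology.MetricFamily
open Crest.Agent.R247

noncomputable section

namespace Crest.Agent.N207.Ph.Ws

open Sk U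

variable {a b : ℝ} {y : E4} {G G1 G2 : MetricField 4}

theorem up_cd (a b : ℝ) : ContDiff ℝ ∞ (up a b) :=
  Real.smoothTransition.contDiff.comp (((contDiff_norm_sq ℝ).sub contDiff_const).div_const _)

theorem up_zero (ha : 0 < a) (hab : a < b) (h : ‖y‖ ≤ a) : up a b y = 0 :=
  Real.smoothTransition.zero_of_nonpos (div_nonpos_of_nonpos_of_nonneg
    (by nlinarith [norm_nonneg y]) (by nlinarith))

theorem up_one (ha : 0 < a) (hab : a < b) (h : b ≤ ‖y‖) : up a b y = 1 :=
  Real.smoothTransition.one_of_one_le (by rw [le_div_iff₀ (by nlinarith)]; nlinarith)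

theorem up_nonneg (a b : ℝ) (y : E4) : 0 ≤ up a b y := Real.smoothTransition.nonneg _

theorem up_le_one (a b : ℝ) (y : E4) : up a b y ≤ 1 := Real.smoothTransition.le_one _

theorem up_iso (a b : ℝ) (γ : Iso) (y : E4) : up a b (γ y) = up a b y := by
  rw [up, up, γ.norm_map]

theorem glu_apply (i j : Fin 4) :
    glu a b G1 G2 y i j = G1 y i j + up a b y * (G2 y i j - G1 y i j) := rfl

theorem glu_lo (ha : 0 < a) (hab : a < b) (h : ‖y‖ ≤ a) : glu a b G1 G2 y = G1 y := by
  rw [glu, up_zero ha hab h, zero_smul, add_zero]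

theorem glu_hi (ha : 0 < a) (hab : a < b) (h : b ≤ ‖y‖) : glu a b G1 G2 y = G2 y := by
  rw [glu, up_one ha hab h, one_smul, add_sub_cancel]

theorem ev_lt (h : ‖y‖ < a) : ∀ᶠ z in 𝓝 y, ‖z‖ < a :=
  continuous_norm.continuousAt.eventually (gt_mem_nhds h)

theorem ev_gt (h : a < ‖y‖) : ∀ᶠ z in 𝓝 y, a < ‖z‖ :=
  continuous_norm.continuousAt.eventually (lt_mem_nhds h)

theorem glu_lo_ev (ha : 0 < a) (hab : a < b) (h : ‖y‖ < a) : glu a b G1 G2 =ᶠ[𝓝 y] G1 :=
  (ev_lt h).mono fun _ hz => glu_lo ha hab hz.le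

theorem glu_hi_ev (ha : 0 < a) (hab : a < b) (h : b < ‖y‖) : glu a b G1 G2 =ᶠ[𝓝 y] G2 :=
  (ev_gt h).mono fun _ hz => glu_hi ha hab hz.le

theorem glu_pos (h1 : (G1 y).PosDef) (h2 : (G2 y).PosDef) : (glu a b G1 G2 y).PosDef := by
  have e : glu a b G1 G2 y = up a b y • G2 y + (1 - up a b y) • G1 y := by
    rw [glu, smul_sub, sub_smul, one_smul]; abel
  rw [e]
  rcases (up_nonneg a b y).eq_or_lt with h | h
  · rw [← h]; simpa using h1
  · exact (h2.smul h).add_posSemidef (h1.posSemidef.smul (sub_nonneg.2 (up_le_one a b y)))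

theorem fl_glu (ha : 0 < a) (hab : a < b) (h1 : Fl G1) (h2 : Fl G2) : Fl (glu a b G1 G2) := by
  obtain ⟨R, hR⟩ := h2.flat
  refine ⟨⟨isOpen_univ, fun i j => (h1.riem.contDiffOn i j).add ((up_cd a b).contDiffOn.mul
    ((h2.riem.contDiffOn i j).sub (h1.riem.contDiffOn i j))), fun x hx =>
      glu_pos (h1.riem.posDef x hx) (h2.riem.posDef x hx)⟩, max R b, fun x hx => ?_⟩
  rw [glu_hi ha hab ((le_max_right _ _).trans hx), hR x ((le_max_left _ _).trans hx)]

theorem inv_glu {Γ : Subgroup Iso} (h1 : Inv Γ G1) (h2 : Inv Γ G2) : Inv Γ (glu a b G1 G2) := by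
  intro γ hγ x
  funext I
  have e : pullT γ (matT (glu a b G1 G2)) x I = pullT γ (matT G1) x I +
      up a b (γ x) * (pullT γ (matT G2) x I - pullT γ (matT G1) x I) := by
    simp only [pullT]
    rw [← AI.evT_sub, ← AI.evT_mul, ← AI.evT_add]
    rfl
  rw [e, ← h1 γ hγ x, ← h2 γ hγ x, up_iso]
  rfl

theorem DS.nonneg {m : ℕ} {δ : ℝ} (h : DS m G δ) : 0 ≤ δ := by
  obtain ⟨ε, -, h2, -⟩ := h
  simpa using h2 0

theorem DS.sml {m : ℕ} {δ : ℝ} (h : DS m G δ) : Sml m G δ := by
  obtain ⟨ε, h1, h2, h3⟩ := h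
  intro y
  obtain ⟨l, hl, hl'⟩ := exists_nat_pow_near (x := ‖y‖ + 1) (y := 2)
    (by linarith [norm_nonneg y]) one_lt_two
  refine jg_mono (h3 l y hl hl'.le) le_rfl (le_trans ?_ (h2 (l + 1)))
  exact Finset.single_le_sum (fun i _ => h1 i) (Finset.self_mem_range_succ l)

theorem ds_glu (hG : GLStmt) : ∃ C : ℝ, 0 < C ∧ ∀ (G1 G2 : MetricField 4) (δ1 δ2 : ℝ), Fl G1 →
    Fl G2 → DS 4 G1 δ1 → DS 3 G2 δ2 → DS 3 (glu 16 24 G1 G2) (C * (δ1 + δ2)) := by
  obtain ⟨C, hC, h⟩ := hG 3 3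
  refine ⟨C, hC, fun G1 G2 δ1 δ2 f1 f2 ⟨ε, a1, a2, a3⟩ ⟨ε', b1, b2, b3⟩ =>
    ⟨fun l => C * (ε l + ε' l), fun l => mul_nonneg hC.le (add_nonneg (a1 l) (b1 l)),
      fun n => ?_, fun l y h1 h2 => ?_⟩⟩
  · rw [← Finset.mul_sum, Finset.sum_add_distrib]
    exact mul_le_mul_of_nonneg_left (add_le_add (a2 n) (b2 n)) hC.le
  · exact h G1 G2 16 24 (by norm_num) (by norm_num) (by norm_num) y _ _ (by positivity)
      (add_nonneg (a1 l) (b1 l)) (fun h => by linarith)
      (fun i j => Or.inl ((f1.riem.contDiffOn i j).contDiffAt univ_mem))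
      (fun i j => Or.inl ((f2.riem.contDiffOn i j).contDiffAt univ_mem))
      (Or.inl (jg_mono (a3 l y h1 h2) (by norm_num) (by linarith [b1 l])))
      (Or.inl (jg_mono (b3 l y h1 h2) le_rfl (by linarith [a1 l])))

theorem J1.one {k : ℕ} {f : E4 → ℝ} {s c : ℝ} (h : J1 k f y s c) (hs : 1 ≤ s) : J1 k f y 1 c :=
  le_trans (mul_le_mul_of_nonneg_left (pow_le_pow_left₀ zero_le_one hs k) (norm_nonneg _)) h

theorem Sml.one {m : ℕ} {δ : ℝ} (h : Sml m G δ) (y : E4) : JG m G y 1 δ :=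
  fun k hk i j => J1.one (h y k hk i j) (by linarith [norm_nonneg y])

/-! ### constant multiples of a metric -/

theorem scal_csmul {c : ℝ} (hc : c ≠ 0) (G : MetricField 4) (y : E4) :
    scalarCurv (fun z => c • G z) y = c⁻¹ * scalarCurv G y := by
  simp only [scalarCurv, I.ricci_csmul hc, I.minv_smul hc, Matrix.smul_apply, smul_eq_mul,
    Finset.mul_sum, mul_assoc]


theorem sqrt_det_smul (c : ℝ) (A : Matrix (Fin 4) (Fin 4) ℝ) : √(c • A).det = c ^ 2 * √A.det := by
  rw [Matrix.det_smul, Fintype.card_fin, show c ^ 4 = (c ^ 2) ^ 2 by ring,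
    Real.sqrt_mul (by positivity), Real.sqrt_sq (by positivity)]

/-! ### flat ends -/

theorem ricci_flat (h : ∀ᶠ z in 𝓝 y, G z = 1) (i j : Fin 4) : ricci G y i j = 0 := by
  rw [ricci_congr (G' := fun _ => 1) h]
  simp [ricci, christoffel, pderiv]

theorem Fl.ric (h : Fl G) : ∃ R : ℝ, ∀ y : E4, R < ‖y‖ → ∀ i j, ricci G y i j = 0 := by
  obtain ⟨R, hR⟩ := h.flat
  exact ⟨R, fun y hy => ricci_flat ((ev_gt hy).mono fun z hz => hR z hz.le)⟩

theorem integrable_of {f : E4 → ℝ} (hf : Continuous f) {R : ℝ} (h : ∀ y : E4, R < ‖y‖ → f y = 0) :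
    Integrable f := hf.integrable_of_hasCompactSupport (HasCompactSupport.intro
      (isCompact_closedBall 0 R) fun y hy => h y (by simpa using hy))

/-- the density of the action -/
def lg (G : MetricField 4) (y : E4) : ℝ := √(G y).det * scalarCurv G y

theorem Fl.int_lg (h : Fl G) {φ : E4 → ℝ} (hφ : Continuous φ) : Integrable fun y => φ y * lg G y := by
  obtain ⟨R, hR⟩ := Fl.ric h
  refine integrable_of (R := R) (hφ.mul (continuousOn_univ.1
    ((sm_sqrt_det h.riem).mul (sm_scal h.riem)).continuousOn)) fun y hy => ?_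
  simp [lg, scalarCurv, hR y hy]

theorem Fl.int_rl (h : Fl G) : Integrable fun x : E4 => ‖x‖ ^ 2 * ∑ i, ∑ j, ricci G x i j ^ 2 := by
  obtain ⟨R, hR⟩ := Fl.ric h
  refine integrable_of (R := R) ((continuous_norm.pow 2).mul (continuous_finset_sum _ fun i _ =>
    continuous_finset_sum _ fun j _ => (continuousOn_univ.1
      (sm_ricci h.riem i j).continuousOn).pow 2)) fun y hy => ?_
  simp [hR y hy]

/-! ### pointwise bounds -/

theorem pb_fixed {ι : Type*} {x : ι → E4} {R : ℝ} (hx : ∀ i, ‖x i‖ ≤ R) {f : E4 → ℝ}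
    (hf : ContDiff ℝ ∞ f) (m : ℕ) : PB x (fun _ => 1) m (fun _ => 1) fun _ => f := by
  refine PB.of_itd (fun _ => one_pos) (fun _ => hf.contDiffAt) fun k _ => ?_
  obtain ⟨C, hC⟩ := (isCompact_closedBall (0 : E4) R).exists_bound_of_continuousOn
    (hf.continuous_iteratedFDeriv (kle k)).continuousOn
  exact ⟨|C|, abs_nonneg C, fun i => by
    simpa using (hC (x i) (by simpa using hx i)).trans (le_abs_self C)⟩

/-- the velocity of the glued family -/
def vel (T : Tn 4 2) : Tn 4 2 := smT (fun y => 1 - up 16 24 y) T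

/-- data of the pointwise estimate -/
structure Dt where
  P : MetricField 4
  x : E4
  T : Tn 4 2
  w : ℝ
  Y : ℝ
  riem : IsRiemannianOn P univ
  le : ‖x‖ ≤ 32
  jg : JG 2 P x 1 (1 / 8)
  sm : ∀ I, ContDiffAt ℝ ∞ (fun z => T z I) x
  nn : 0 ≤ w
  jt : ∀ k ≤ 2, ∀ I, J1 k (fun z => T z I) x 1 w
  ric : ∀ i j, |ricci P x i j| ≤ Y

theorem est : ∃ C : ℝ, 0 < C ∧ ∀ d : Dt, (∀ i j, |dRic d.P (vel d.T) d.x ![i, j]| ≤ C * d.w) ∧
    |√(d.P d.x).det * (-ip d.P (ricT d.P) (vel d.T) d.x +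
      1 / 2 * trF d.P (vel d.T) d.x * scalarCurv d.P d.x)| ≤ C * (d.w * d.Y) := by
  have h : MW (fun d : Dt => d.x) (fun _ => 1) 2 (fun _ => 1) fun d => d.P :=
    MW.of_jg (fun d => ⟨univ, d.riem, mem_univ _⟩) (fun _ => one_pos) (fun _ => zero_le_one)
      (K := 1) (fun _ => le_rfl) (fun d => jg_mono d.jg (Nat.zero_le _) le_rfl) (fun _ => 1 / 8)
      fun d k hk a b => by simpa using d.jg k hk a b
  have hT : PT (fun d : Dt => d.x) (fun _ => 1) 2 (fun d => d.w) fun d => vel d.T := fun I =>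
    (pb_fixed (fun d : Dt => d.le) (contDiff_const.sub (up_cd 16 24)) 2).bmul
      (PB.of_itd (fun _ => one_pos) (fun d => d.sm I) fun k hk =>
        ⟨1, zero_le_one, fun d => by simpa [J1] using d.jt k hk I⟩)
  have hR : PT (fun d : Dt => d.x) (fun _ => 1) 0 (fun d => d.Y) fun d => ricT d.P := fun I =>
    ⟨fun d => (sm_ricci d.riem _ _).contDiffAt univ_mem, 1, zero_le_one,
      fun d => by simpa [ricT] using d.ric (I 0) (I 1)⟩
  have h0 := h.of_le (Nat.zero_le 2)
  have c2 : ∀ {k : ℕ} {S : Dt → Tn 4 k}, PT (fun d : Dt => d.x) (fun _ => 1) 2 (fun d => d.w) S →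
      PT (fun d : Dt => d.x) (fun _ => 1) 0 (fun d => d.w) fun d => cov d.P (cov d.P (S d)) :=
    fun hS => (h.pred.cov (h.cov hS)).wte fun d => by simp
  have e1 : ∀ i j, ∃ C, ∀ d : Dt, |dRic d.P (vel d.T) d.x ![i, j]| ≤ C * d.w := fun i j => by
    obtain ⟨C, -, hC⟩ := (((((PB.sum Finset.univ fun a _ => PB.sum Finset.univ fun b _ =>
      (h0.ginv a b).bmul (c2 hT ![a, i, j, b])).add (PB.sum Finset.univ fun a _ =>
        PB.sum Finset.univ fun b _ => (h0.ginv a b).bmul (c2 hT ![a, j, i, b]))).sub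
      (h0.trT (c2 hT) ![i, j])).sub (c2 (h.trT hT) ![i, j])).cmul (1 / 2)).val
    refine ⟨C, fun d => ?_⟩
    rw [dRic_apply, hessT, ← cov_fnT d.P, fnT_trF]
    exact hC d
  obtain ⟨C1, hC1, h1⟩ := unif (κ := Fin 4 × Fin 4) (ι := Dt)
    (P := fun p d C => |dRic d.P (vel d.T) d.x ![p.1, p.2]| ≤ C * d.w)
    (fun p d C D hCD hP => hP.trans (mul_le_mul_of_nonneg_right hCD d.nn)) fun p => e1 p.1 p.2
  obtain ⟨C2, hC2, h2⟩ := ((((h0.ip hR (hT.of_le (Nat.zero_le 2))).neg).wte
    (ψ := fun d => d.w * d.Y) fun d => mul_comm _ _).add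
      (((h0.trT (hT.of_le (Nat.zero_le 2)) ![]).cmul (1 / 2)).mul (h0.trT hR ![]))).val
  refine ⟨C1 + 3 * C2, by positivity, fun d => ⟨fun i j => (h1 (i, j) d).trans
    (mul_le_mul_of_nonneg_right (by linarith) d.nn), ?_⟩⟩
  have hw : 0 ≤ d.w * d.Y := mul_nonneg d.nn ((abs_nonneg _).trans (d.ric 0 0))
  have h3 : √(d.P d.x).det ≤ 3 := d.jg.near.sqrt_det_le.trans (by norm_num)
  rw [abs_mul, abs_of_nonneg (Real.sqrt_nonneg _)]
  exact (mul_le_mul h3 (h2 d) (abs_nonneg _) (by norm_num)).trans (by nlinarith)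

end Crest.Agent.N207.Ph.Ws

end
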