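import Crest.Agent.N207.Ph.En1
import Crest.Agent.N207.Ph.Kit
import Crest.Agent.N207.Lg.Flat
import Crest.Agent.N207.Ph.Hc2
import Crest.Agent.N207.U.Cmp
import Crest.Agent.N207.Ph.Hc3
import Crest.Agent.N207.Ph.Nw5
import Crest.Agent.N207.Ga.Ten
import Crest.Agent.N207.A.Tg3
import Crest.Agent.N207.Rad.Crd
import Crest.Agent.N207.Ph.Ws1
import Crest.Agent.N207.V.Div
import Crest.Agent.N207.V.Dt
import Crest.Agent.N207.Ph.Ad4
import Crest.Agent.N207.Ph.Cv
import Crest.Agent.N207.Ph.Mu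
import Crest.Agent.N207.A.Sta
import Crest.Agent.N207.Ph.Gl

-- ▼ part N207/Ph/En2
section

/-!
# Row 207, block PHI (helper41): integration frame for EN and QU; the theorem `qu`
-/

set_option autoImplicit false
set_option linter.unusedSectionVars false

open scoped ContDiff Topology
open Set Filter Finset MeasureTheory Metric
open Crest.GeometryTopology.CoordMetric Crest.GeometryTopology.ChartCurvature
  Crest.GeometryTopology.MetricFamily

noncomputable section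

namespace Crest.Agent.N207.Ph

open Sk Lg

namespace EQ

/-- a metric which is flat outside the ball of radius `R` -/
structure Fr (R : ℝ) (G : MetricField 4) : Prop where
  riem : IsRiemannianOn G univ
  out : ∀ x : E4, R < ‖x‖ → G =ᶠ[𝓝 x] flat

theorem exists_fr {G1 G2 : MetricField 4} (h1 : Fl G1) (h2 : Fl G2) : ∃ R, Fr R G1 ∧ Fr R G2 := by
  obtain ⟨R1, e1⟩ := h1.flat
  obtain ⟨R2, e2⟩ := h2.flat
  have o := fun (x : E4) (hx : max R1 R2 < ‖x‖) =>
    (isOpen_lt continuous_const continuous_norm).mem_nhds hx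
  refine ⟨max R1 R2, ⟨h1.riem, fun x hx => ?_⟩, ⟨h2.riem, fun x hx => ?_⟩⟩
  · filter_upwards [o x hx] with y hy using e1 y ((le_max_left _ _).trans hy.le)
  · filter_upwards [o x hx] with y hy using e2 y ((le_max_right _ _).trans hy.le)

variable {R : ℝ} {G G1 G2 : MetricField 4}

namespace Fr

theorem c2 (h : Fr R G) (x : E4) : C2 G x := .of_riem h.riem trivial
theorem sm (h : Fr R G) (i j : Fin 4) : ContDiff ℝ ∞ fun x => G x i j :=
  contDiffOn_univ.1 (h.riem.contDiffOn i j)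
theorem c_g (h : Fr R G) (x : E4) : ContDiffAt (F := M2 (Fin 4) ℝ) ℝ 1 G x :=
  (h.c2 x).c_g.of_le one_le_two
theorem c_iv (h : Fr R G) (x : E4) : ContDiffAt ℝ 1 (iv G) x := (h.c2 x).c_iv.of_le one_le_two
theorem c_sq (h : Fr R G) (x : E4) : ContDiffAt ℝ 1 (Lg.sq G) x := (h.c2 x).c_sq.of_le one_le_two
theorem c_jet (h : Fr R G) (x : E4) : ContDiffAt ℝ 1 (jet G) x := (h.c2 x).c_jet
theorem c_ric (h : Fr R G) (i j : Fin 4) : Continuous fun x => ricci G x i j :=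
  (contDiffOn_univ.1 (sm_ricci h.riem i j)).continuous
theorem g_out (h : Fr R G) {x : E4} (hx : R < ‖x‖) : G x = 1 := (h.out x hx).eq_of_nhds
theorem jet_out (h : Fr R G) {x : E4} (hx : R < ‖x‖) : jet G x = 0 :=
  (jet_congr (h.out x hx)).eq_of_nhds.trans (jet_const 1 x)
theorem ric_out (h : Fr R G) {x : E4} (hx : R < ‖x‖) : ricci G x = 0 :=
  (ricci_congr (h.out x hx)).trans (ricci_const 1 x)

theorem int_eh (h : Fr R G) : Integrable fun x => √(G x).det * scalarCurv G x :=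
  integrable_of_ball R (((contDiffOn_univ.1 (sm_sqrt_det h.riem)).continuous).mul
    (contDiffOn_univ.1 (sm_scal h.riem)).continuous) fun x hx => by
      simp [scalarCurv, h.ric_out hx]

end Fr

theorem int_div {F : Fin 4 → E4 → ℝ} (hF : ∀ c, ContDiff ℝ 1 (F c))
    (h0 : ∀ c (x : E4), R < ‖x‖ → F c x = 0) :
    Integrable (fun x => ∑ c, pderiv c (F c) x) ∧ ∫ x, ∑ c, pderiv c (F c) x = 0 := by
  have i := fun c => integrable_of_ball R (cont_pderiv (hF c) c) (pderiv_zero_out (h0 c) c)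
  refine ⟨integrable_finsetSum _ fun c _ => i c, ?_⟩
  rw [integral_finsetSum _ fun c _ => i c]
  exact sum_eq_zero fun c _ => Hd.int_pderiv_glob (hF c) (hcs_of_ball R (h0 c)) c

/-- `|G₂ - G₁|²` -/
def k2 (G1 G2 : MetricField 4) (x : E4) : ℝ := ∑ i, ∑ j, (G2 x i j - G1 x i j) ^ 2
/-- `|∂ (G₂ - G₁)|²` -/
def d2 (G1 G2 : MetricField 4) (x : E4) : ℝ :=
  ∑ c, ∑ i, ∑ j, pderiv c (fun y => G2 y i j - G1 y i j) x ^ 2

theorem k2_nonneg (x : E4) : 0 ≤ k2 G1 G2 x :=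
  sum_nonneg fun _ _ => sum_nonneg fun _ _ => sq_nonneg _
theorem d2_nonneg (x : E4) : 0 ≤ d2 G1 G2 x :=
  sum_nonneg fun _ _ => sum_nonneg fun _ _ => sum_nonneg fun _ _ => sq_nonneg _

theorem k_le (x : E4) (i j : Fin 4) : |G2 x i j - G1 x i j| ≤ √(k2 G1 G2 x) :=
  Real.abs_le_sqrt ((single_le_sum (f := fun j => (G2 x i j - G1 x i j) ^ 2)
    (fun _ _ => sq_nonneg _) (mem_univ j)).trans (single_le_sum
      (f := fun i => ∑ j, (G2 x i j - G1 x i j) ^ 2) (fun _ _ => sum_nonneg fun _ _ => sq_nonneg _)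
      (mem_univ i)))

theorem d_le (x : E4) (c i j : Fin 4) :
    |pderiv c (fun y => G2 y i j - G1 y i j) x| ≤ √(d2 G1 G2 x) :=
  Real.abs_le_sqrt (((single_le_sum (f := fun j => pderiv c (fun y => G2 y i j - G1 y i j) x ^ 2)
    (fun _ _ => sq_nonneg _) (mem_univ j)).trans (single_le_sum
      (f := fun i => ∑ j, pderiv c (fun y => G2 y i j - G1 y i j) x ^ 2)
      (fun _ _ => sum_nonneg fun _ _ => sq_nonneg _) (mem_univ i))).trans (single_le_sum
      (f := fun c => ∑ i, ∑ j, pderiv c (fun y => G2 y i j - G1 y i j) x ^ 2)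
      (fun _ _ => sum_nonneg fun _ _ => sum_nonneg fun _ _ => sq_nonneg _) (mem_univ c)))

section

variable (h1 : Fr R G1) (h2 : Fr R G2)
include h1 h2

theorem k_sm (i j : Fin 4) : ContDiff ℝ 1 fun y => G2 y i j - G1 y i j :=
  ((h2.sm i j).sub (h1.sm i j)).of_le (by simp)

theorem k_out (i j : Fin 4) (x : E4) (hx : R < ‖x‖) : G2 x i j - G1 x i j = 0 := by
  rw [h1.g_out hx, h2.g_out hx, sub_self]

theorem jet_k (x : E4) (c i j : Fin 4) :
    jet G2 x c i j - jet G1 x c i j = pderiv c (fun y => G2 y i j - G1 y i j) x :=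
  (pd_sub c ((h2.c2 x).d i j) ((h1.c2 x).d i j)).symm

theorem d2_eq (x : E4) : d2 G1 G2 x = ∑ i, ∑ j, Hd.g2 (fun y => G2 y i j - G1 y i j) x := by
  simp only [d2, Hd.g2]
  rw [sum_comm]
  exact sum_congr rfl fun i _ => sum_comm

theorem int_d2 : Integrable (d2 G1 G2) := by
  rw [funext (d2_eq h1 h2)]
  exact integrable_finsetSum _ fun i _ => integrable_finsetSum _ fun j _ =>
    integrable_g2 (k_sm h1 h2 i j) (hcs_of_ball R (k_out h1 h2 i j))

theorem hardy_mat {ε : ℝ} (hε : 0 < ε) : Integrable (fun x => k2 G1 G2 x / (‖x‖ ^ 2 + ε)) ∧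
    ∫ x, k2 G1 G2 x / (‖x‖ ^ 2 + ε) ≤ H1 G1 G2 := by
  have i : ∀ i j, Integrable fun x : E4 => (G2 x i j - G1 x i j) ^ 2 / (‖x‖ ^ 2 + ε) := fun i j =>
    integrable_of_ball R (((k_sm h1 h2 i j).continuous.pow 2).div
      ((continuous_norm.pow 2).add continuous_const) fun x => by positivity) fun x hx => by
        simp [k_out h1 h2 i j x hx]
  have j := fun i j => integrable_g2 (k_sm h1 h2 i j) (hcs_of_ball R (k_out h1 h2 i j))
  simp only [k2, sum_div]
  refine ⟨integrable_finsetSum _ fun a _ => integrable_finsetSum _ fun b _ => i a b, ?_⟩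
  change _ ≤ ∫ x, d2 G1 G2 x
  simp only [d2_eq h1 h2]
  rw [integral_finsetSum _ fun a _ => integrable_finsetSum _ fun b _ => i a b,
    integral_finsetSum _ fun a _ => integrable_finsetSum _ fun b _ => j a b]
  refine sum_le_sum fun a _ => ?_
  rw [integral_finsetSum _ fun b _ => i a b, integral_finsetSum _ fun b _ => j a b]
  exact sum_le_sum fun b _ => hardy_k (k_sm h1 h2 a b) (hcs_of_ball R (k_out h1 h2 a b)) hε

theorem master {A E W Q : E4 → ℝ} {α β γ : ℝ} (hα : 0 ≤ α) (iA : Integrable A) (iE : Integrable E)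
    (hE : ∫ x, E x = 0) (iW : Integrable W) (iQ : Integrable Q)
    (iQ' : Integrable fun x => ‖x‖ ^ 2 * Q x)
    (h : ∀ ε, 0 < ε → ε ≤ 1 → ∀ x, A x ≤ α * (k2 G1 G2 x / (‖x‖ ^ 2 + ε)) + β * d2 G1 G2 x +
      γ * ((‖x‖ ^ 2 + ε) * Q x) + W x + E x) :
    ∫ x, A x ≤ (α + β) * H1 G1 G2 + γ * (∫ x, ‖x‖ ^ 2 * Q x) + ∫ x, W x := by
  refine le_of_forall_pos_le_add fun η hη => ?_
  set M := γ * ∫ x, Q x
  set ε := min 1 (η / (|M| + 1))
  have hε : 0 < ε := lt_min one_pos (by positivity)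
  obtain ⟨i1, e1⟩ := hardy_mat h1 h2 hε
  have j1 := i1.const_mul α
  have j2 := (int_d2 h1 h2).const_mul β
  have j3 := iQ'.const_mul γ
  have j4 := iQ.const_mul (γ * ε)
  have := int_le_of iA ((((j1.add j2).add j3).add j4).add iW) iE hE fun x =>
    (h ε hε (min_le_left _ _) x).trans (le_of_eq (by simp only [Pi.add_apply]; ring))
  rw [integral_add' (((j1.add j2).add j3).add j4) iW, integral_add' ((j1.add j2).add j3) j4,
    integral_add' (j1.add j2) j3, integral_add' j1 j2] at this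
  simp only [integral_const_mul] at this
  have e2 : ε * M ≤ η := by
    have a1 : ε * M ≤ ε * (|M| + 1) :=
      mul_le_mul_of_nonneg_left ((le_abs_self M).trans (by linarith)) hε.le
    exact a1.trans ((le_div_iff₀ (by positivity)).1 (min_le_right _ _))
  have e3 := mul_le_mul_of_nonneg_left e1 hα
  have e4 : ∫ x, d2 G1 G2 x = H1 G1 G2 := rfl
  have e5 : γ * ε * ∫ x, Q x = ε * M := by simp only [M]; ring
  rw [e4, e5] at this
  linarith

end

theorem sq_div_le {a ε : ℝ} (x : E4) (ha : 0 ≤ a) (h0 : 0 < ε) (h : ε ≤ 1) :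
    a / (‖x‖ + 1) ^ 2 ≤ a / (‖x‖ ^ 2 + ε) :=
  div_le_div_of_nonneg_left ha (by positivity) (by nlinarith [norm_nonneg x])

theorem young {a b w : ℝ} (c : ℝ) (hc : 0 < c) (hw : 0 < w) :
    a * b ≤ c * (a ^ 2 / w) + (1 / (4 * c)) * (w * b ^ 2) := by
  have : c * (a ^ 2 / w) + (1 / (4 * c)) * (w * b ^ 2) - a * b = (2 * c * a - w * b) ^ 2 / (4 * c * w) := by
    field_simp; ring
  rw [← sub_nonneg, this]; positivity

theorem vG_le {s κ : ℝ} {H k : M2 (Fin 4) ℝ} (hs : |s| ≤ 2) (hH : ∀ a b, |H a b| ≤ 2)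
    (hk : ∀ a b, |k a b| ≤ κ) (i j : Fin 4) : |vG s H k i j| ≤ 192 * κ := by
  have a1 := Rad.abs_mul_le (Rad.abs_mul_le (a := 1 / 2) (c := 1 / 2) (by norm_num) (tr2_le hH hk))
    (hH i j)
  refine (Rad.abs_mul_le hs ((abs_sub _ _).trans (add_le_add a1 (up_le hH hk i j)))).trans
    (le_of_eq (by ring))

/-- the pointwise inequality behind `QU` -/
theorem qu_pt : ∃ C, 0 ≤ C ∧ ∀ (R : ℝ) (G1 G2 : MetricField 4) (c : ℝ), Fr R G1 → Fr R G2 →
    Sml 2 G1 (1 / 100) → Sml 2 G2 (1 / 100) → EqOn G1 G2 (ball 0 c) → ∀ ε, 0 < ε → ε ≤ 1 → ∀ x : E4,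
    |√(G2 x).det * scalarCurv G2 x - √(G1 x).det * scalarCurv G1 x -
      ∑ a, pderiv a (fun z => fluxF flat G2 a z - fluxF flat G1 a z +
        wL (Lg.sq G1 z) (iv G1 z) (jet G1 z) ((G2 - G1) z) a) x| ≤
      C * (k2 G1 G2 x / (‖x‖ ^ 2 + ε)) + C * d2 G1 G2 x + C * ((‖x‖ ^ 2 + ε) *
        {x : E4 | c ≤ ‖x‖}.indicator (fun x => ∑ i, ∑ j, ricci G1 x i j ^ 2) x) := by
  obtain ⟨C, hC, hl⟩ := lag_tay
  refine ⟨2 * C + 3072, by positivity, fun R G1 G2 c h1 h2 s1 s2 he ε h0 hε x => ?_⟩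
  have hb : IsRiemannianOn flat univ := riem_one isOpen_univ
  have hx := mem_univ x
  have hK : ∀ a b, DifferentiableAt ℝ (fun z => (G2 - G1) z a b) x := fun a b =>
    ((h2.c2 x).d a b).fun_sub ((h1.c2 x).d a b)
  have hKs : ∀ᶠ z in 𝓝 x, Sy2 ((G2 - G1) z) := Eventually.of_forall fun z a b => by
    simp only [Pi.sub_apply, Matrix.sub_apply, (h1.c2 z).g_sy a b, (h2.c2 z).g_sy a b]
  have e1 := eh_eq hb h1.riem hx
  have e2 := eh_eq hb h2.riem hx
  have e3 := dlag_eq hb h1.riem hx hK hKs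
  have dF : ∀ {G}, Fr R G → ∀ a, DifferentiableAt ℝ (fluxF flat G a) x := fun {G} h a =>
    dA_ap (dA_flux (h.c2 x).d_sq (h.c2 x).d_iv ((c2_one x).d_TG (h.c2 x))) a
  have dW : ∀ a, DifferentiableAt ℝ
      (fun z => wL (Lg.sq G1 z) (iv G1 z) (jet G1 z) ((G2 - G1) z) a) x := fun a =>
    dA_ap (dA_wL (h1.c2 x).d_sq (h1.c2 x).d_iv (h1.c2 x).d_jet (d_mat hK)) a
  have tg : ∀ K z, TG flat K z = jet K z := TG_const 1
  have rc : ricci flat x = 0 := ricci_const 1 x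
  simp only [lagF, tg, rc, jet_sub (h2.c2 x).d (h1.c2 x).d] at e1 e2 e3
  have e4 : ∀ a, pderiv a (fun z => fluxF flat G2 a z - fluxF flat G1 a z +
      wL (Lg.sq G1 z) (iv G1 z) (jet G1 z) ((G2 - G1) z) a) x = pderiv a (fluxF flat G2 a) x -
        pderiv a (fluxF flat G1 a) x +
        pderiv a (fun z => wL (Lg.sq G1 z) (iv G1 z) (jet G1 z) ((G2 - G1) z) a) x := fun a => by
    rw [pd_add a ((dF h2 a).fun_sub (dF h1 a)) (dW a), pd_sub a (dF h2 a) (dF h1 a)]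
  simp only [e4, sum_add_distrib, sum_sub_distrib]
  set s := ‖x‖ + 1 with hs
  have s0 : 0 < s := by positivity
  set K0 := √(k2 G1 G2 x)
  set K1 := √(d2 G1 G2 x)
  have K00 : 0 ≤ K0 := Real.sqrt_nonneg _
  have K10 : 0 ≤ K1 := Real.sqrt_nonneg _
  have q0 : K0 ^ 2 = k2 G1 G2 x := Real.sq_sqrt (k2_nonneg x)
  have q1 : K1 ^ 2 = d2 G1 G2 x := Real.sq_sqrt (d2_nonneg x)
  have bp : ∀ {G}, Sml 2 G (1 / 100) → ∀ c a b, |jet G x c a b| ≤ 1 / s := fun {G} h c a b =>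
    (Rad.jg_pd (h x) one_le_two s0 c a b).trans (by gcongr; norm_num)
  have et : 1 / s * (K0 + s * K1) = K0 / s + K1 := by field_simp
  have b1 := hl (G1 x) (G2 x) (jet G1 x) (jet G2 x) (1 / s) (K0 + s * K1)
    (h1.riem.posDef x hx) (h2.riem.posDef x hx) (s1 x).near (s2 x).near (bp s1) (bp s2)
    (fun a b => (k_le x a b).trans (le_add_of_nonneg_right (by positivity))) fun c a b => by
      rw [jet_k h1 h2, et]; exact (d_le x c a b).trans (le_add_of_nonneg_left (by positivity))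
  rw [et] at b1
  have b2 : (K0 / s + K1) ^ 2 ≤ 2 * (k2 G1 G2 x / (‖x‖ ^ 2 + ε)) + 2 * d2 G1 G2 x := by
    have := sq_div_le x (k2_nonneg (G1 := G1) (G2 := G2) x) h0 hε
    rw [← q0, ← div_pow] at this
    rw [← q0, ← q1]; nlinarith [sq_nonneg (K0 / s - K1)]
  have w0 : 0 < ‖x‖ ^ 2 + ε := by positivity
  have n1 := div_nonneg (k2_nonneg (G1 := G1) (G2 := G2) x) w0.le
  have n2 := d2_nonneg (G1 := G1) (G2 := G2) x
  have n3 : 0 ≤ (‖x‖ ^ 2 + ε) *
      {x : E4 | c ≤ ‖x‖}.indicator (fun x => ∑ i, ∑ j, ricci G1 x i j ^ 2) x :=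
    mul_nonneg w0.le (indicator_nonneg (fun _ _ => by positivity) x)
  have b3 : |tr2 (vG (Lg.sq G1 x) (iv G1 x) ((G2 - G1) x)) (ricci G1 x)| ≤
      3072 * (k2 G1 G2 x / (‖x‖ ^ 2 + ε)) + 48 * ((‖x‖ ^ 2 + ε) *
        {x : E4 | c ≤ ‖x‖}.indicator (fun x => ∑ i, ∑ j, ricci G1 x i j ^ 2) x) := by
    by_cases hc : c ≤ ‖x‖
    · rw [indicator_of_mem (show x ∈ {x : E4 | c ≤ ‖x‖} from hc)]
      have v := vG_le (k := (G2 - G1) x) (near_sq (s1 x).near)
        (near_inv_le (h1.riem.posDef x hx) (s1 x).near) (k_le x)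
      calc _ ≤ ∑ i, ∑ j, 192 * (1 * (K0 ^ 2 / (‖x‖ ^ 2 + ε)) +
            (1 / (4 * 1)) * ((‖x‖ ^ 2 + ε) * |ricci G1 x i j| ^ 2)) :=
            (abs_sum_le_sum_abs _ _).trans (sum_le_sum fun i _ => (abs_sum_le_sum_abs _ _).trans
              (sum_le_sum fun j _ => (Rad.abs_mul_le (v i j) le_rfl).trans (by
                rw [mul_assoc]
                exact mul_le_mul_of_nonneg_left (young 1 one_pos w0) (by norm_num))))
        _ = _ := by simp only [q0, sq_abs, Fin.sum_univ_four]; ring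
    · have : (G2 - G1) x = 0 := by
        rw [Pi.sub_apply, he (mem_ball_zero_iff.2 (not_le.1 hc)), sub_self]
      have z : vG (Lg.sq G1 x) (iv G1 x) ((G2 - G1) x) = 0 := by
        rw [this]; funext i j; simp [vG, tr2, Lg.up]
      rw [z, tr2_comm, tr2_zero, abs_zero]; positivity
  have e5 : ∀ X Y Z L1 L2 F1 F2 D T W : ℝ, X = L2 + F2 → Y = L1 + F1 → D = T + W →
      |L2 - L1 - D| ≤ Z → |X - Y - (F2 - F1 + W)| ≤ Z + |T| := by
    intro X Y Z L1 L2 F1 F2 D T W a1 a2 a3 a4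
    rw [a1, a2, show L2 + F2 - (L1 + F1) - (F2 - F1 + W) = (L2 - L1 - D) + T by rw [a3]; ring]
    exact (abs_add_le _ _).trans (by linarith)
  refine (e5 _ _ _ _ _ _ _ _ _ _ e2 e1 e3 b1).trans ?_
  have b4 := mul_le_mul_of_nonneg_left b2 hC
  nlinarith [mul_nonneg hC n3]

end EQ

open EQ in
theorem qu : QUStmt := by
  obtain ⟨C, hC, hp⟩ := qu_pt
  refine ⟨1 / 100, 2 * C + 1, by norm_num, by positivity, fun G1 G2 c f1 f2 s1 s2 he => ?_⟩
  obtain ⟨R, h1, h2⟩ := exists_fr f1 f2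
  have cF : ∀ {G}, Fr R G → ∀ a, ContDiff ℝ 1 (fluxF flat G a) := fun {G} h a =>
    contDiff_iff_contDiffAt.2 fun x =>
      contDiffAt_pi.1 (cA_flux (h.c_sq x) (h.c_iv x) ((c2_one x).c_TG (h.c2 x))) a
  have oF : ∀ {G}, Fr R G → ∀ a (x : E4), R < ‖x‖ → fluxF flat G a x = 0 := fun {G} h a x hx => by
    have : TG flat G x = 0 := (TG_const 1 G x).trans (h.jet_out hx)
    simp [fluxF, Lg.flux, this, chr_zero, fl]
  obtain ⟨iE, hE⟩ := int_div (R := R) (F := fun a z => fluxF flat G2 a z - fluxF flat G1 a z +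
      wL (Lg.sq G1 z) (iv G1 z) (jet G1 z) ((G2 - G1) z) a)
    (fun a => ((cF h2 a).sub (cF h1 a)).add (contDiff_iff_contDiffAt.2 fun x => contDiffAt_pi.1
      (cA_wL (h1.c_sq x) (h1.c_iv x) (h1.c_jet x) ((h2.c_g x).sub (h1.c_g x))) a))
    fun a x hx => by simp [oF h1 a x hx, oF h2 a x hx, wL, h1.jet_out hx, chr_zero, fl]
  have ms : MeasurableSet {x : E4 | c ≤ ‖x‖} :=
    (isClosed_le continuous_const continuous_norm).measurableSet
  have cr : Continuous fun x => ∑ i, ∑ j, ricci G1 x i j ^ 2 :=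
    continuous_finsetSum _ fun i _ => continuous_finsetSum _ fun j _ => (h1.c_ric i j).pow 2
  have iQ := (integrable_of_ball R cr fun x hx => by simp [h1.ric_out hx]).indicator ms
  have eQ : (fun x : E4 => ‖x‖ ^ 2 *
      {x : E4 | c ≤ ‖x‖}.indicator (fun x => ∑ i, ∑ j, ricci G1 x i j ^ 2) x) =
      {x : E4 | c ≤ ‖x‖}.indicator fun x => ‖x‖ ^ 2 * ∑ i, ∑ j, ricci G1 x i j ^ 2 := by
    funext x; by_cases hx : x ∈ {x : E4 | c ≤ ‖x‖} <;> simp [hx]
  have iQ' := (integrable_of_ball R ((continuous_norm.pow 2).mul cr) fun x hx => by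
    simp [h1.ric_out hx]).indicator ms
  rw [show ((fun x : E4 => ‖x‖) ^ 2 * fun x => ∑ i, ∑ j, ricci G1 x i j ^ 2) =
    fun x => ‖x‖ ^ 2 * ∑ i, ∑ j, ricci G1 x i j ^ 2 from rfl, ← eQ] at iQ'
  have eR : ∫ x : E4, ‖x‖ ^ 2 *
      {x : E4 | c ≤ ‖x‖}.indicator (fun x => ∑ i, ∑ j, ricci G1 x i j ^ 2) x = RL G1 c := by
    rw [eQ, integral_indicator ms]; rfl
  have iA := h2.int_eh.sub h1.int_eh
  have eA : ∫ x, (√(G2 x).det * scalarCurv G2 x - √(G1 x).det * scalarCurv G1 x) = EH G2 - EH G1 :=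
    integral_sub h2.int_eh h1.int_eh
  have u := master h1 h2 (α := C) (β := C) (γ := C) hC iA iE hE (integrable_zero _ _ _) iQ iQ'
    fun ε h0 hε x => by
      have := (abs_le.1 (hp R G1 G2 c h1 h2 s1 s2 he ε h0 hε x)).2
      simp only [Pi.sub_apply, Pi.zero_apply] at this ⊢
      linarith
  have l := master h1 h2 (α := C) (β := C) (γ := C) hC iA.neg iE.neg
    (by simp only [Pi.neg_apply, integral_neg, hE, neg_zero]) (integrable_zero _ _ _) iQ iQ'
    fun ε h0 hε x => by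
      have := (abs_le.1 (hp R G1 G2 c h1 h2 s1 s2 he ε h0 hε x)).1
      simp only [Pi.sub_apply, Pi.zero_apply, Pi.neg_apply] at this ⊢
      linarith
  simp only [Pi.sub_apply, Pi.neg_apply, Pi.zero_apply, integral_neg, integral_zero, eA, eR] at u l
  have n1 : 0 ≤ H1 G1 G2 := integral_nonneg fun x => d2_nonneg x
  have n2 : 0 ≤ RL G1 c := integral_nonneg fun x => by positivity
  have := mul_nonneg hC n2
  exact abs_le.2 ⟨by nlinarith, by nlinarith⟩

end Crest.Agent.N207.Ph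

end
end

-- ▼ part N207/Ph/Hc4
section

/-!
# Row 207, block PHI (helper11): harmonic coordinates, part 4: the cut-off, the inverse map
-/

set_option autoImplicit false
set_option linter.unusedSectionVars false

open scoped ContDiff Topology NNReal
open Set Filter Metric
open Crest.GeometryTopology.CoordMetric

noncomputable section

namespace Crest.Agent.N207.Ph.Hc

open Crest.Agent.NLib.Ell Crest.Agent.N207.G Sk
open Crest.Agent.N207.U (PB jc jc_eq_pd)

theorem exists_inv {v : E4 → E4} (hv : ContDiff ℝ ∞ v) (h : ∀ x, ‖fderiv ℝ v x‖ ≤ 1 / 2) :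
    ∃ Φ : E4 ≃ₜ E4, (∀ x, Φ x = x + v x) ∧ ContDiff ℝ ∞ Φ.symm := by
  have hd := hv.differentiable (by simp)
  have hA : ApproximatesLinearOn (fun x => x + v x)
      (ContinuousLinearEquiv.refl ℝ E4 : E4 →L[ℝ] E4) univ (1 / 2 : ℝ≥0) := fun x _ y _ => by
    have := convex_univ.norm_image_sub_le_of_norm_fderiv_le (𝕜 := ℝ) (fun z _ => hd z)
      (fun z _ => h z) (mem_univ y) (mem_univ x)
    rw [show x + v x - (y + v y) - (ContinuousLinearEquiv.refl ℝ E4 : E4 →L[ℝ] E4) (x - y) =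
      v x - v y by simp; abel]
    simpa using this
  refine ⟨hA.toHomeomorph _ (Or.inr (by simp; norm_num)), fun _ => rfl,
    Homeomorph.contDiff_symm _ (f₀' := fun a => ContinuousLinearEquiv.ofUnit
      (Units.oneSub (-fderiv ℝ v a) (by rw [norm_neg]; linarith [h a]))) (fun a => ?_)
      (contDiff_id.add hv)⟩
  refine ((hasFDerivAt_id a).add (hd a).hasFDerivAt).congr_fderiv ?_
  ext z k
  simp [ContinuousLinearEquiv.ofUnit]

theorem jb_proj {m : ℕ} {u : E4 → E4} {x : E4} {s c : ℝ} (hs : 0 ≤ s) (h : JB m u x s c)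
    (a : Fin 4) : JB m (fun y => u y a) x s c := by
  simpa using h.clm (EuclideanSpace.proj a : E4 →L[ℝ] ℝ) hs (R240.Fr.norm_proj_le a)

theorem jb_of_proj {m : ℕ} {u : E4 → E4} {x : E4} {s c : ℝ} (hs : 0 ≤ s)
    (h : ∀ a, JB m (fun y => u y a) x s c) : JB m u x s (4 * c) := by
  have h1 := JB.sum Finset.univ hs fun a _ => (h a).clm
    (ContinuousLinearMap.toSpanSingleton ℝ (EuclideanSpace.single a (1 : ℝ) : E4)) hs (l := 1)
    (by rw [ContinuousLinearMap.norm_toSpanSingleton]; simp)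
  refine (h1.congr (Eventually.of_forall fun z => ?_)).mono (by simp)
  simpa using ((EuclideanSpace.basisFun (Fin 4) ℝ).sum_repr (u z)).symm

theorem jc_add {u : E4 → E4} {z : E4} (hu : DifferentiableAt ℝ u z) (a j : Fin 4) :
    jc (fun x => x + u x) z a j - (1 : Matrix (Fin 4) (Fin 4) ℝ) a j =
      pderiv j (fun x => u x a) z := by
  rw [← jc_eq_pd hu]
  simp [jc, fderiv_fun_add differentiableAt_fun_id hu, Matrix.one_apply]

/-- the data of `inv_jet` -/
structure Di (m : ℕ) (K : ℝ) where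
  Φ : E4 ≃ₜ E4
  v : E4 → E4
  y : E4
  ε : ℝ
  eq : ∀ x, Φ x = x + v x
  sm : ContDiff ℝ ∞ Φ.symm
  small : ∀ x, JB 1 v x (‖x‖ + 1) (1 / 8 * (‖x‖ + 1))
  jet : ∀ x, JB (m + 1) v x (‖x‖ + 1) (ε * (‖x‖ + 1))
  le : ε ≤ K

theorem inv_jet (m : ℕ) (K : ℝ) : ∃ C : ℝ, 0 < C ∧ ∀ D : Di m K,
    JB (m + 1) (fun z => D.Φ.symm z - z) D.y (‖D.y‖ + 1) (C * D.ε * (‖D.y‖ + 1)) := by
  have h0 : ∀ D : Di m K, 0 ≤ D.ε := fun D => by simpa using (D.jet 0).nonneg
  have hv : ∀ D : Di m K, ContDiff ℝ ∞ D.v := fun D =>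
    contDiff_iff_contDiffAt.2 fun x => (D.jet x).sm
  have hΦ : ∀ D : Di m K, ⇑D.Φ = fun x => x + D.v x := fun D => funext D.eq
  have e1 : ∀ (D : Di m K) (z : E4), D.Φ.symm z - z = -D.v (D.Φ.symm z) := fun D z => by
    have := D.eq (D.Φ.symm z)
    rw [D.Φ.apply_symm_apply] at this
    rw [sub_eq_iff_eq_add, neg_add_eq_sub, eq_sub_iff_add_eq, ← this]
  have hs : ∀ D : Di m K, ‖D.y‖ + 1 ≤ 2 * (‖D.Φ.symm D.y‖ + 1) ∧
      ‖D.Φ.symm D.y‖ + 1 ≤ 2 * (‖D.y‖ + 1) := fun D => by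
    have h1 := abs_norm_sub_norm_le (D.Φ.symm D.y) D.y
    rw [e1, norm_neg] at h1
    replace h1 := abs_le.1 (h1.trans (D.small _).val)
    constructor <;> linarith [h1.1, h1.2, norm_nonneg D.y, norm_nonneg (D.Φ.symm D.y)]
  have h1 : ∀ a j, PB (fun D : Di m K => D.Φ.symm D.y) (fun D => ‖D.y‖ + 1) m (fun D => D.ε)
      fun D z => jc D.Φ z a j - (1 : Matrix (Fin 4) (Fin 4) ℝ) a j := fun a j => by
    have h2 : PB (fun D : Di m K => D.Φ.symm D.y) (fun D => ‖D.Φ.symm D.y‖ + 1) (m + 1)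
        (fun D => D.ε * (‖D.Φ.symm D.y‖ + 1)) fun D z => D.v z a :=
      PB.of_itd (fun D => sc_pos _) (fun D => (jb_proj (sc_pos _).le (D.jet _) a).sm)
        fun k hk => ⟨1, zero_le_one, fun D => by
          rw [one_mul]; exact (jb_proj (sc_pos _).le (D.jet _) a).bd k hk⟩
    refine (((h2.pd (fun D => sc_pos _) j).wte fun D => mul_div_cancel_right₀ _
      (sc_pos _).ne').scale (fun D => sc_pos _) (K := 2) fun D => by
        rw [abs_of_pos (sc_pos _)]; exact (hs D).1).congr' fun D z => ?_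
    rw [hΦ, jc_add ((hv D).differentiable (by simp) z)]
  have h2 := PB.jc_inv_sub (Φ := fun D : Di m K => D.Φ.symm) (Ψ := fun D => D.Φ)
    (x := fun D => D.y) (fun D => D.sm.contDiffAt)
    (fun D => by rw [hΦ]; exact (contDiff_id.add (hv D)).contDiffAt)
    (fun D => Eventually.of_forall D.Φ.apply_symm_apply) (fun D => D.le) (ε := 1 / 8)
    (by norm_num) (fun D a j => by
      rw [hΦ, jc_add ((hv D).differentiable (by simp) _)]
      have h3 := ((jb_proj (sc_pos _).le (D.small (D.Φ.symm D.y)) a).fderiv (sc_pos _)).val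
      simpa [pderiv] using (fderiv ℝ (fun x => D.v x a) (D.Φ.symm D.y)).le_of_opNorm_le h3
        (EuclideanSpace.single j 1)) h1
  have hu : ∀ D : Di m K, ContDiff ℝ ∞ fun z => D.Φ.symm z - z := fun D => D.sm.sub contDiff_id
  have hu' : ∀ (D : Di m K) a, ContDiff ℝ ∞ fun z => (D.Φ.symm z - z) a := fun D a =>
    (EuclideanSpace.proj a : E4 →L[ℝ] ℝ).contDiff.comp (hu D)
  have h3 : ∀ a, PB (fun D : Di m K => D.y) (fun D => ‖D.y‖ + 1) (m + 1)
      (fun D => D.ε * (‖D.y‖ + 1)) fun D z => (D.Φ.symm z - z) a := fun a => by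
    refine PB.of_pd (fun D => sc_pos _) ⟨fun D => (hu' D a).contDiffAt, 2, zero_le_two,
      fun D => ?_⟩ fun j => ((h2 a j).wte fun D => (mul_div_cancel_right₀ _
        (sc_pos _).ne').symm).congr' fun D z => ?_
    · have h4 := (jb_proj (sc_pos _).le (D.jet (D.Φ.symm D.y)) a).val
      have h5 := mul_le_mul_of_nonneg_left (hs D).2 (h0 D)
      simp only [e1, PiLp.neg_apply, abs_neg]
      exact h4.trans (by linarith)
    · rw [← jc_add ((hu D).differentiable (by simp) z)]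
      simp only [add_sub_cancel]
  choose C hC h4 using fun a => (h3 a).itd (fun D => sc_pos _) fun D => by
    have := h0 D
    positivity
  have hC' : 0 ≤ ∑ a, C a := Finset.sum_nonneg fun a _ => hC a
  refine ⟨4 * (∑ a, C a + 1), by positivity, fun D => (jb_of_proj (sc_pos _).le
    (c := (∑ a, C a + 1) * (D.ε * (‖D.y‖ + 1))) fun a => ⟨(hu' D a).contDiffAt, fun k hk =>
      (h4 a k hk D).trans ?_⟩).mono (le_of_eq (by ring))⟩
  have := h0 D
  have := Finset.single_le_sum (f := C) (fun a _ => hC a) (Finset.mem_univ a)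
  gcongr
  linarith

/-! ### the cut-off -/

theorem up_ev_one {ρ : ℝ} (hρ : 0 < ρ) {x : E4} (hx : 2 * ρ < ‖x‖) :
    ∀ᶠ z in 𝓝 x, up ρ (2 * ρ) z = 1 := by
  filter_upwards [(isOpen_lt continuous_const continuous_norm).mem_nhds hx] with z hz
  exact up_eq_one hρ (by linarith) (le_of_lt hz)

theorem up_ev_zero {ρ : ℝ} (hρ : 0 < ρ) {x : E4} (hx : ‖x‖ < ρ) :
    ∀ᶠ z in 𝓝 x, up ρ (2 * ρ) z = 0 := by
  filter_upwards [(isOpen_lt continuous_norm continuous_const).mem_nhds hx] with z hz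
  exact up_eq_zero hρ (by linarith) (le_of_lt hz)

theorem up_ck (k : ℕ) : ∃ C : ℝ, 0 < C ∧ ∀ ρ : ℝ, 1 ≤ ρ → ∀ y, CK k C (up ρ (2 * ρ)) y := by
  obtain ⟨C, hC, h⟩ := jb_up (k + 1) 2
  refine ⟨2 * (2 ^ (k + 1) * C), by positivity, fun ρ hρ y => ck_of_jb fun Y _ => ?_⟩
  rcases le_or_gt ‖cl y Y‖ (2 * ρ) with h1 | h1
  · exact (h ρ (2 * ρ) (by linarith) (by linarith) (by linarith) _ h1).scale (by linarith)
      (sc_pos _).le one_le_two (by linarith)
  · refine (JB.const (1 : ℝ) ?_).congr (up_ev_one (by linarith) h1)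
    rw [norm_one]
    exact one_le_mul_of_one_le_of_one_le (one_le_pow₀ one_le_two) hC

/-- the field `w`, cut between `ρ` and `2 ρ` -/
def ct (ρ : ℝ) (w : E4 → E4) (x : E4) : E4 := w x - up ρ (2 * ρ) x • w x

theorem ct_wd (k : ℕ) : ∃ C : ℝ, 0 < C ∧ ∀ (ρ : ℝ) (w : E4 → E4) (a : ℕ → ℝ), 1 ≤ ρ → WD k a w →
    WD k (fun l => C * a l) (ct ρ w) := by
  obtain ⟨C, hC, h⟩ := up_ck k
  exact ⟨1 + 2 ^ (k + 1) * C, by positivity, fun ρ w a hρ hw l y h1 h2 =>
    ((hw l y h1 h2).sub ((h ρ hρ y).smulF (hw l y h1 h2))).mono (le_of_eq (by ring))⟩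

theorem ct_sm (ρ : ℝ) {w : E4 → E4} (hw : ContDiff ℝ ∞ w) : ContDiff ℝ ∞ (ct ρ w) :=
  hw.sub ((up_smooth _ _).smul hw)

theorem ct_eqv (ρ : ℝ) {Γ : Subgroup Iso} {w : E4 → E4} (hw : Eqv Γ w) : Eqv Γ (ct ρ w) :=
  fun γ hγ x => by simp only [ct, up, hw γ hγ x, γ.norm_map, map_sub, map_smul]

theorem ct_out {ρ : ℝ} (hρ : 0 < ρ) (w : E4 → E4) {x : E4} (hx : 2 * ρ ≤ ‖x‖) : ct ρ w x = 0 := by
  simp [ct, up_eq_one hρ (by linarith) hx]

theorem jb_of_wd {k : ℕ} {c : ℝ} {v : E4 → E4} (hv : ContDiff ℝ ∞ v)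
    (h : WD k (fun l => c * 2 ^ l) v) (x : E4) :
    JB k v x (‖x‖ + 1) (16 ^ k * c * (‖x‖ + 1)) := by
  obtain ⟨l, h1, h2⟩ := exists_shell x
  have hc : 0 ≤ c := by simpa using h.nonneg 0
  refine (jb_of_ck hv.contDiffAt (h l x h1 h2)).mono ?_
  simp only [mul_assoc]
  gcongr

end Crest.Agent.N207.Ph.Hc

end
end

-- ▼ part N207/Ph/Hc5
section

/-!
# Row 207, block PHI (helper11): harmonic coordinates, part 5: `hc : HCStmt`
-/

set_option autoImplicit false
set_option linter.unusedSectionVars false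

open scoped ContDiff Topology
open Set Filter Metric MeasureTheory
open Crest.GeometryTopology.CoordMetric

noncomputable section

namespace Crest.Agent.N207.Ph

namespace Hc

open Crest.Agent.NLib.Ell Crest.Agent.N207.G Sk
open Crest.Agent.R240.Fr (lap)

variable {G : MetricField 4}

theorem gau_eq (hG : IsRiemannianOn G univ) (y : E4) (j : Fin 4) :
    Lg.gauT flat G y ![j] = ∑ k, G y j k * gm G k y := by
  rw [Ga.gauT_eq hG riem_flat (mem_univ y), ← Finset.sum_neg_distrib]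
  refine Finset.sum_congr rfl fun k _ => ?_
  simp [Ga.sS, gm, christoffel, flat, pderiv]

theorem lapB_proj (hG : IsRiemannianOn G univ) {u : E4 → E4} (hu : ContDiff ℝ 2 u) (x : E4)
    (k : Fin 4) : laplaceBeltrami G (fun z => u z k) x = (lap u x - DD G u x) k := by
  have h1 := lap_clm (EuclideanSpace.proj k : E4 →L[ℝ] ℝ) hu x
  have h2 := DD_clm (G := G) (EuclideanSpace.proj k : E4 →L[ℝ] ℝ) hu x
  simp only [PiLp.proj_apply] at h1 h2
  rw [PiLp.sub_apply, ← h1, ← h2]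
  exact lapB_eq hG ((EuclideanSpace.proj k : E4 →L[ℝ] ℝ).contDiff.comp hu).contDiffAt

theorem gm_pbm (hG : IsRiemannianOn G univ) {Φ : E4 ≃ₜ E4} (h : ContDiff ℝ ∞ Φ)
    (h' : ContDiff ℝ ∞ Φ.symm) (y : E4) (k : Fin 4) :
    gm (pbm Φ.symm G) k y = -(lap Φ (Φ.symm y) - DD G Φ (Φ.symm y)) k := by
  have p := pull_pbm h' (inj_fderiv (ψ := Φ.symm) h' h) hG
  have h1 := R247.Bo84.lap_pull p (mem_univ y) (f := fun z => Φ z k)
    ((EuclideanSpace.proj k : E4 →L[ℝ] ℝ).contDiff.comp (h.of_le two_le)).contDiffAt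
  simp only [Φ.apply_symm_apply] at h1
  rw [lapB_proj hG (h.of_le two_le), lapB_proj p.riem' (u := fun z => z) contDiff_id, lap_id,
    zero_sub, PiLp.neg_apply, DD_id] at h1
  rw [← h1, neg_neg]

theorem abs_le_norm (v : E4) (a : Fin 4) : |v a| ≤ ‖v‖ := PiLp.norm_apply_le v a

theorem pbm_le (h0 : Sml 0 G (1 / 100)) {ψ : E4 ≃ₜ E4} (h : Nid 1 ψ 1) (y : E4) (j k : Fin 4) :
    |pbm ψ G y j k| ≤ 128 := by
  have h1 : ∀ i a, |fderiv ℝ ψ y (EuclideanSpace.single i 1) a| ≤ 2 := fun i a => by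
    have h2 := (fderiv ℝ (fun z => ψ z - z) y).le_of_opNorm_le (Ad.nid_fderiv h y)
      (EuclideanSpace.single i 1)
    rw [fderiv_fun_sub (h.sm.differentiable (by simp) y) differentiableAt_fun_id] at h2
    simp only [fderiv_fun_id, sub_apply, ContinuousLinearMap.id_apply,
      PiLp.norm_single, norm_one, mul_one] at h2
    have h3 := norm_le_insert' (fderiv ℝ ψ y (EuclideanSpace.single i 1))
      (EuclideanSpace.single i (1 : ℝ) : E4)
    simp only [PiLp.norm_single, norm_one] at h3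
    exact (abs_le_norm _ a).trans (by linarith)
  rw [Ad.pbm_apply]
  exact (Rad.sum4_le fun a => Rad.sum4_le fun b => Rad.abs_mul_le (Rad.abs_mul_le
    (Rad.jg_ent_le (h0 _) le_rfl a b) (h1 j a)) (h1 k b)).trans (by norm_num)

theorem bl_le {c r : ℝ} (hr : 0 ≤ r) (h : ∀ y j, |Lg.gauT flat G y ![j]| ≤ c)
    (h0 : ∀ y : E4, r < ‖y‖ → ∀ j, Lg.gauT flat G y ![j] = 0) :
    BL G ≤ 4 * c ^ 2 * (r ^ 4 * volume.real (ball (0 : E4) 1)) := by
  have e := Measure.addHaar_real_closedBall (volume : Measure E4) 0 hr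
  rw [show Module.finrank ℝ E4 = 4 by simp] at e
  rw [BL, ← e, ← setIntegral_eq_integral_of_forall_compl_eq_zero (s := closedBall 0 r)
    fun x hx => by simp [h0 x (by rwa [mem_closedBall_zero_iff, not_le] at hx)]]
  refine (le_abs_self _).trans (norm_setIntegral_le_of_norm_le_const (μ := volume)
    (f := fun x : E4 => ∑ j, Lg.gauT flat G x ![j] ^ 2) (s := closedBall 0 r)
    measure_closedBall_lt_top fun x _ => Rad.sum4_le fun j => ?_)
  rw [abs_pow]
  exact pow_le_pow_left₀ (abs_nonneg _) (h x j) 2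

/-- the tension of the cut coordinates -/
theorem ten_le {w : E4 → E4} {R ρ B : ℝ} (hR : ∀ x : E4, R ≤ ‖x‖ → G x = 1) (hρ : 0 < ρ)
    (hRρ : R < ρ) (hw : ContDiff ℝ ∞ w)
    (heq : ∀ x, lap w x = DD G (fun x : E4 => x) x + DD G w x)
    (hB : WD 2 (fun l => B / 4 ^ l) (ct ρ w)) (x : E4) :
    ‖lap (fun x => x + ct ρ w x) x - DD G (fun x => x + ct ρ w x) x‖ ≤ 1024 * B / ρ ^ 4 := by
  have hB0 : 0 ≤ B := by simpa using hB.nonneg 0
  rcases lt_or_ge ‖x‖ ρ with h | h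
  · have e : (fun x => x + ct ρ w x) =ᶠ[𝓝 x] fun x => x + w x :=
      (up_ev_zero hρ h).mono fun z hz => by simp [ct, hz]
    rw [lap_congr e, DD_congr e, lap_add (w := fun x => x) contDiff_id (hw.of_le two_le),
      DD_add (w := fun x => x) contDiff_id (hw.of_le two_le), lap_id, zero_add, heq, sub_self,
      norm_zero]
    positivity
  · obtain ⟨l, h1, h2⟩ := exists_shell x
    rw [DD_far (far_ev hR (hRρ.trans_le h)), sub_zero,
      lap_add (w := fun x => x) contDiff_id hB.contDiff, lap_id, zero_add]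
    refine (CK.sum_le fun i => wd_pv (wd_pv hB i) i l x h1 h2).bdd.trans ?_
    have h3 : ρ ^ 4 ≤ (2 ^ (l + 1)) ^ 4 := pow_le_pow_left₀ hρ.le (by linarith) 4
    calc _ = 1024 * B / (2 ^ (l + 1)) ^ 4 := by
          simp only [Fintype.card_fin, show (4 : ℝ) ^ l = 2 ^ l * 2 ^ l by rw [← mul_pow]; norm_num]
          field_simp
          ring
      _ ≤ _ := by gcongr

theorem ten_out {w : E4 → E4} {R ρ : ℝ} (hR : ∀ x : E4, R ≤ ‖x‖ → G x = 1) (hρ : 0 < ρ)
    (hRρ : R < ρ) {x : E4} (hx : 2 * ρ < ‖x‖) :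
    lap (fun x => x + ct ρ w x) x - DD G (fun x => x + ct ρ w x) x = 0 := by
  have e : (fun x => x + ct ρ w x) =ᶠ[𝓝 x] fun x => x :=
    (up_ev_one hρ hx).mono fun z hz => by simp [ct, hz]
  rw [DD_far (far_ev hR (by linarith)), lap_congr e, lap_id, sub_zero]

end Hc

open Hc Crest.Agent.N207.G in
theorem hc : HCStmt := by
  obtain ⟨δ0, C, hδ0, hδ1, hC, h⟩ := sol lh
  choose Cc hCc hct using ct_wd
  choose Ci hCi hinv using inv_jet
  set C1 : ℝ := 16 ^ 3 * (Cc 3 * C) with hC1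
  have hC1' : 0 < C1 := by have := hCc 3; positivity
  have hi := hCi 2 (1 / 8)
  refine ⟨min δ0 (1 / (8 * (Ci 2 (1 / 8) + 1) * C1)), Ci 2 (1 / 8) * C1, by positivity,
    by positivity, fun Cs => ?_⟩
  obtain ⟨Cw, h⟩ := h Cs
  refine ⟨fun k => Ci k (16 ^ (k + 1) * (Cc (k + 1) * Cw (k + 1))) *
    (16 ^ (k + 1) * (Cc (k + 1) * Cw (k + 1))), fun Γ G δ τ hΓ hG hI hδ hS hA hτ => ?_⟩
  have hδ' := hδ.trans (min_le_left _ _)
  have hδ2 : (Ci 2 (1 / 8) + 1) * (C1 * δ) ≤ 1 / 8 := by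
    have := hδ.trans (min_le_right _ _)
    rw [le_div_iff₀ (by positivity)] at this
    linarith
  have hδ3 : 0 ≤ C1 * δ := mul_nonneg hC1'.le (Ad.ds_nonneg hS)
  have h0 := Ad.sml_mono (Ad.ds_sml hS (Nat.zero_le 3)) (hδ'.trans hδ1)
  obtain ⟨w, B, hw, hE, h3, hk, hB, heq⟩ := h Γ G δ hΓ hG hI hδ' hS hA
  obtain ⟨R, hR⟩ := hG.flat
  set Q : ℝ := 64 * (512 * (1024 * (Cc 2 * B))) ^ 2 * volume.real (ball (0 : E4) 1) with hQ
  obtain ⟨ρ, hρ1, hρ2, hρ3⟩ : ∃ ρ : ℝ, 1 ≤ ρ ∧ R < ρ ∧ Q ≤ τ ^ 2 * ρ :=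
    ⟨max (max 1 (R + 1)) (Q / τ ^ 2), (le_max_left _ _).trans (le_max_left _ _),
      (lt_add_one R).trans_le ((le_max_right _ _).trans (le_max_left _ _)),
      (div_le_iff₀' (by positivity)).1 (le_max_right _ _)⟩
  have hρ : 0 < ρ := by linarith
  have hv := ct_sm ρ hw
  have j3 : ∀ x, JB 3 (ct ρ w) x (‖x‖ + 1) (C1 * δ * (‖x‖ + 1)) := fun x =>
    (jb_of_wd (c := Cc 3 * (C * δ)) hv ((hct 3 ρ w _ hρ1 h3).mono fun l => le_of_eq (by ring))
      x).mono (le_of_eq (by rw [hC1]; ring))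
  have j1 : ∀ x, JB 1 (ct ρ w) x (‖x‖ + 1) (1 / 8 * (‖x‖ + 1)) := fun x =>
    ((j3 x).of_le (by norm_num)).mono (by gcongr; nlinarith)
  obtain ⟨Φ, hΦ, hΦ'⟩ := exists_inv hv fun x =>
    ((j1 x).fderiv (Hc.sc_pos x)).val.trans (by norm_num)
  have eΦ : ⇑Φ = fun x => x + ct ρ w x := funext hΦ
  have hs : ContDiff ℝ ∞ Φ := by rw [eΦ]; exact contDiff_id.add hv
  have hout : ∀ x : E4, 2 * ρ ≤ ‖x‖ → Φ.symm x = x := fun x hx => by
    rw [Homeomorph.symm_apply_eq, hΦ, ct_out hρ w hx, add_zero]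
  have hEv : Eqv Γ Φ.symm := fun γ hγ x => by
    rw [Homeomorph.symm_apply_eq, hΦ, ct_eqv ρ hE γ hγ, ← map_add, ← hΦ, Φ.apply_symm_apply]
  have hN : Nid 3 Φ.symm (Ci 2 (1 / 8) * C1 * δ) := ⟨hΦ', hs, ⟨_, hout⟩, fun y k hk => by
    rw [mul_assoc _ C1]
    exact (hinv 2 (1 / 8) ⟨Φ, _, y, _, hΦ, hΦ', j1, j3, by nlinarith⟩).bd k hk, eqv_zero hΓ hEv⟩
  refine ⟨Φ.symm, hN, hEv, ?_, fun y k => (hinv k _ ⟨Φ, _, y, _, hΦ, hΦ', j1, fun x =>
    jb_of_wd (c := Cc (k + 1) * Cw (k + 1)) hv ((hct _ ρ w _ hρ1 (hk _)).mono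
      fun l => le_of_eq (by ring)) x, le_rfl⟩).bd k (Nat.le_succ k)⟩
  have p := pull_pbm hΦ' (inj_fderiv (ψ := Φ.symm) hΦ' hs) hG.riem
  refine (bl_le (c := 512 * (1024 * (Cc 2 * B) / ρ ^ 4)) (r := 2 * ρ) (by positivity)
    (fun y j => ?_) fun y hy j => ?_).trans ?_
  · rw [gau_eq p.riem']
    refine (Rad.sum4_le fun k => Rad.abs_mul_le (pbm_le h0 (Ad.nid_mono hN (by norm_num)
      (by nlinarith)) y j k) (d := 1024 * (Cc 2 * B) / ρ ^ 4) ?_).trans (le_of_eq (by ring))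
    rw [gm_pbm hG.riem hs hΦ', abs_neg]
    refine (abs_le_norm _ k).trans ?_
    generalize Φ.symm y = z
    rw [eΦ]
    exact ten_le hR hρ hρ2 hw heq
      ((hct 2 ρ w _ hρ1 hB).mono fun l => le_of_eq (mul_div_assoc _ _ _).symm) z
  · rw [gau_eq p.riem']
    refine Finset.sum_eq_zero fun k _ => ?_
    rw [gm_pbm hG.riem hs hΦ', hout y hy.le, eΦ, ten_out hR hρ hρ2 hy]
    simp
  · calc _ = Q / ρ ^ 4 := by rw [hQ]; field_simp; ring
      _ ≤ τ ^ 2 * ρ / ρ := by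
          have : 0 ≤ Q := by positivity
          gcongr
          exact le_self_pow₀ hρ1 (by norm_num)
      _ = _ := mul_div_cancel_right₀ _ hρ.ne'

end Crest.Agent.N207.Ph

end
end

-- ▼ part N207/Ph/Int
section

/-!
# Row 207, block PHI (helper66): the interpolation statement `INT`
-/

set_option autoImplicit false
set_option linter.unusedSectionVars false

open scoped ContDiff Topology
open Set MeasureTheory Filter Metric
open Crest.GeometryTopology.CoordMetric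

noncomputable section

namespace Crest.Agent.N207.Ph

open Hd Sk

namespace Itp

/-- Landau's inequality on a ball -/
theorem landau {F : Type*} [NormedAddCommGroup F] [NormedSpace ℝ F] {z : E4 → F} {x : E4}
    {r M0 M2 : ℝ} (hr : 0 < r) (hz : Differentiable ℝ z) (h0 : ∀ y ∈ closedBall x r, ‖z y‖ ≤ M0)
    (hM2 : 0 ≤ M2) (hL : ∀ y ∈ closedBall x r, ‖fderiv ℝ z y - fderiv ℝ z x‖ ≤ M2 * r) :
    ‖fderiv ℝ z x‖ ≤ 2 * M0 / r + M2 * r := by
  have hx : x ∈ closedBall x r := mem_closedBall_self hr.le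
  have hM0 : 0 ≤ M0 := (norm_nonneg _).trans (h0 x hx)
  refine ContinuousLinearMap.opNorm_le_of_unit_norm (by positivity) fun e he => ?_
  have hn : ‖r • e‖ = r := by rw [norm_smul, he, Real.norm_of_nonneg hr.le, mul_one]
  have hy : x + r • e ∈ closedBall x r := by simp [hn]
  have h3 := (convex_closedBall x r).norm_image_sub_le_of_norm_fderiv_le'
    (fun w _ => hz w) hL hx hy
  rw [add_sub_cancel_left, hn] at h3
  have h4 := (norm_sub_le (z (x + r • e)) (z x)).trans (add_le_add (h0 _ hy) (h0 _ hx))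
  have h5 := norm_sub_norm_le (fderiv ℝ z x (r • e)) (z (x + r • e) - z x)
  rw [norm_sub_rev (fderiv ℝ z x (r • e))] at h5
  have h6 : ‖fderiv ℝ z x (r • e)‖ = r * ‖fderiv ℝ z x e‖ := by
    rw [map_smul, norm_smul, Real.norm_of_nonneg hr.le]
  have : ‖fderiv ℝ z x e‖ * r ≤ (2 * M0 / r + M2 * r) * r := by
    rw [add_mul, div_mul_cancel₀ _ hr.ne']; linarith
  exact le_of_mul_le_mul_right this hr

structure Dat (Cs : ℕ → ℝ) (f : E4 → ℝ) (σ : ℝ) : Prop where
  pos : 0 < σ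
  le : σ ≤ 1
  sm : ContDiff ℝ ∞ f
  cs : HasCompactSupport f
  jet : ∀ (y : E4) (k : ℕ), J1 k f y (‖y‖ + 1) (Cs k)
  en : (∫ x : E4, ∑ c, pderiv c f x ^ 2) ≤ σ ^ 2

/-- the `j`-jets decay with the exponent `g` -/
def P (Cs : ℕ → ℝ) (j : ℕ) (g : ℝ) : Prop :=
  ∃ C : ℝ, 0 ≤ C ∧ ∀ (f : E4 → ℝ) (σ : ℝ), Dat Cs f σ → ∀ y : E4,
    ‖iteratedFDeriv ℝ j f y‖ * (‖y‖ + 1) ^ j ≤ C * (σ / (‖y‖ + 1)) ^ g

variable {Cs : ℕ → ℝ} {f : E4 → ℝ} {σ g : ℝ} {j : ℕ}

theorem Dat.t_pos (h : Dat Cs f σ) (y : E4) : 0 < σ / (‖y‖ + 1) := by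
  have := h.pos; positivity

theorem Dat.t_le (h : Dat Cs f σ) (y : E4) : σ / (‖y‖ + 1) ≤ 1 :=
  (div_le_one (by positivity)).2 (by linarith [h.le, norm_nonneg y])

theorem P_zero (j : ℕ) : P Cs j 0 :=
  ⟨|Cs j|, abs_nonneg _, fun _ _ h y => by
    rw [Real.rpow_zero, mul_one]; exact (h.jet y j).trans (le_abs_self _)⟩

theorem P.mono {g' : ℝ} (h : P Cs j g) (hg : g' ≤ g) : P Cs j g' := by
  obtain ⟨C, hC, h⟩ := h
  exact ⟨C, hC, fun f σ d y => (h f σ d y).trans (mul_le_mul_of_nonneg_left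
    (Real.rpow_le_rpow_of_exponent_ge (d.t_pos y) (d.t_le y) hg) hC)⟩

theorem P.loc (h : P Cs j g) (hg : 0 ≤ g) : ∃ C : ℝ, 0 ≤ C ∧ ∀ (f : E4 → ℝ) (σ : ℝ), Dat Cs f σ →
    ∀ y x : E4, dist x y ≤ (‖y‖ + 1) / 2 →
      ‖iteratedFDeriv ℝ j f x‖ ≤ C * (σ / (‖y‖ + 1)) ^ g / (‖y‖ + 1) ^ j := by
  obtain ⟨C, hC, h⟩ := h
  refine ⟨C * 2 ^ g * 2 ^ j, by positivity, fun f σ d y x hx => ?_⟩
  have h1 := h f σ d x
  have hs : (‖y‖ + 1) / 2 ≤ ‖x‖ + 1 := by
    have := norm_sub_norm_le y x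
    rw [← dist_eq_norm, dist_comm] at this
    linarith
  have hσ := d.pos
  have h2 : (σ / (‖x‖ + 1)) ^ g ≤ 2 ^ g * (σ / (‖y‖ + 1)) ^ g := by
    rw [← Real.mul_rpow (by norm_num) (d.t_pos y).le]
    refine Real.rpow_le_rpow (d.t_pos x).le ?_ hg
    calc σ / (‖x‖ + 1) ≤ σ / ((‖y‖ + 1) / 2) := div_le_div_of_nonneg_left hσ.le (by positivity) hs
      _ = 2 * (σ / (‖y‖ + 1)) := by field_simp
  have h3 : ((‖y‖ + 1) / 2) ^ j ≤ (‖x‖ + 1) ^ j := pow_le_pow_left₀ (by positivity) hs j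
  rw [le_div_iff₀ (by positivity)]
  have h4 : (‖y‖ + 1) ^ j = ((‖y‖ + 1) / 2) ^ j * 2 ^ j := by rw [← mul_pow]; congr 1; ring
  calc ‖iteratedFDeriv ℝ j f x‖ * (‖y‖ + 1) ^ j
      = ‖iteratedFDeriv ℝ j f x‖ * ((‖y‖ + 1) / 2) ^ j * 2 ^ j := by rw [h4, mul_assoc]
    _ ≤ ‖iteratedFDeriv ℝ j f x‖ * (‖x‖ + 1) ^ j * 2 ^ j := by gcongr
    _ ≤ C * (2 ^ g * (σ / (‖y‖ + 1)) ^ g) * 2 ^ j :=
        mul_le_mul_of_nonneg_right (h1.trans (mul_le_mul_of_nonneg_left h2 hC)) (by positivity)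
    _ = _ := by ring

theorem norm_fderiv_sub (f : E4 → ℝ) (j : ℕ) (x y : E4) :
    ‖fderiv ℝ (iteratedFDeriv ℝ j f) y - fderiv ℝ (iteratedFDeriv ℝ j f) x‖ =
      ‖iteratedFDeriv ℝ (j + 1) f y - iteratedFDeriv ℝ (j + 1) f x‖ := by
  rw [fderiv_iteratedFDeriv, Function.comp_apply, Function.comp_apply,
    ← LinearIsometryEquiv.map_sub, LinearIsometryEquiv.norm_map]

theorem diff_iter (hf : ContDiff ℝ ∞ f) (j : ℕ) : Differentiable ℝ (iteratedFDeriv ℝ j f) :=
  hf.differentiable_iteratedFDeriv (by exact_mod_cast ENat.natCast_lt_top j)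

theorem P.mid {a b : ℝ} (hb : 0 ≤ b) (hab : b ≤ a) (h0 : P Cs j a) (h2 : P Cs (j + 2) b) :
    P Cs (j + 1) ((a + b) / 2) := by
  obtain ⟨C0, hC0, h0⟩ := h0.loc (hb.trans hab)
  obtain ⟨C2, hC2, h2⟩ := h2.loc hb
  refine ⟨4 * C0 + C2 / 2, by positivity, fun f σ d y => ?_⟩
  set s := ‖y‖ + 1 with hs
  have s0 : 0 < s := by positivity
  set t := σ / s with ht
  have t0 : 0 < t := d.t_pos y
  set w := t ^ ((a - b) / 2) with hw
  set v := t ^ ((a + b) / 2) with hv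
  have w0 : 0 < w := Real.rpow_pos_of_pos t0 _
  have w1 : w ≤ 1 := Real.rpow_le_one t0.le (d.t_le y) (by linarith)
  have e1 : t ^ a = v * w := by rw [hv, hw, ← Real.rpow_add t0]; congr 1; ring
  have e2 : t ^ b * w = v := by rw [hv, hw, ← Real.rpow_add t0]; congr 1; ring
  have hr : w * s / 2 ≤ s / 2 := by nlinarith
  have key := landau (z := iteratedFDeriv ℝ j f) (x := y) (r := w * s / 2)
    (M0 := C0 * t ^ a / s ^ j) (M2 := C2 * t ^ b / s ^ (j + 2)) (by positivity)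
    (diff_iter d.sm j) (fun x hx => h0 f σ d y x ((mem_closedBall.1 hx).trans hr)) (by positivity)
    (fun x hx => by
      rw [norm_fderiv_sub]
      refine ((convex_closedBall y (w * s / 2)).norm_image_sub_le_of_norm_fderiv_le
        (fun z _ => diff_iter d.sm (j + 1) z) (fun z hz => ?_) (mem_closedBall_self (by positivity))
        hx).trans (mul_le_mul_of_nonneg_left (mem_closedBall_iff_norm.1 hx) (by positivity))
      rw [norm_fderiv_iteratedFDeriv]
      exact h2 f σ d y z ((mem_closedBall.1 hz).trans hr))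
  rw [norm_fderiv_iteratedFDeriv] at key
  refine (mul_le_mul_of_nonneg_right key (by positivity)).trans (le_of_eq ?_)
  rw [e1, ← e2]
  field_simp
  ring

theorem P.step (n : ℕ) : ∀ (j : ℕ) (g : ℝ), 0 ≤ g → P Cs j g →
    P Cs (j + 1) ((n : ℝ) / (n + 2) * g) := by
  induction n with
  | zero => intro j g _ _; simpa using P_zero (j + 1)
  | succ n ih =>
    intro j g hg h
    have θ0 : (0 : ℝ) ≤ n / (n + 2) := by positivity
    have θ1 : (n : ℝ) / (n + 2) ≤ 1 := (div_le_one (by positivity)).2 (by linarith)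
    have h1 := ih j g hg h
    have h2 := ih (j + 1) _ (by positivity) h1
    have h3 := P.mid (by positivity) (by nlinarith [mul_le_mul θ1 θ1 θ0 zero_le_one]) h h2
    refine h3.mono ?_
    have : ((n + 1 : ℕ) : ℝ) / ((n + 1 : ℕ) + 2) ≤ (1 + n / (n + 2) * (n / (n + 2))) / 2 := by
      push_cast
      have n0 : (0 : ℝ) ≤ n := n.cast_nonneg
      rw [← sub_nonneg]
      have : (1 + (n : ℝ) / (n + 2) * (n / (n + 2))) / 2 - (n + 1) / (n + 1 + 2) =
        2 / ((n + 2) ^ 2 * (n + 3)) := by field_simp; ring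
      rw [this]; positivity
    nlinarith

theorem P.iter (n : ℕ) (hg : 0 ≤ g) (h : P Cs 0 g) (j : ℕ) :
    P Cs j (((n : ℝ) / (n + 2)) ^ j * g) := by
  induction j with
  | zero => simpa using h
  | succ j ih =>
    have := P.step n j _ (by positivity) ih
    rwa [← mul_assoc, ← pow_succ'] at this

/-- the value of the function from the energy and the gradient -/
theorem P.base {b : ℝ} (hb : 0 ≤ b) (hb1 : b ≤ 1) (h : P Cs 1 b) : P Cs 0 ((1 + 2 * b) / 3) := by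
  obtain ⟨C, hC, h⟩ := h.loc hb
  set c0 := (volume : Measure E4).real (closedBall 0 1) with hc0
  have c0p : 0 < c0 := ENNReal.toReal_pos (measure_closedBall_pos _ _ one_pos).ne'
    measure_closedBall_lt_top.ne
  refine ⟨√(72 / c0 + C ^ 2 / 2), Real.sqrt_nonneg _, fun f σ d y => ?_⟩
  set s := ‖y‖ + 1 with hs
  have s0 : 0 < s := by positivity
  set t := σ / s with ht
  have t0 : 0 < t := d.t_pos y
  set w := t ^ ((1 - b) / 3) with hw
  set v := t ^ ((1 + 2 * b) / 3) with hv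
  have w0 : 0 < w := Real.rpow_pos_of_pos t0 _
  have v0 : 0 < v := Real.rpow_pos_of_pos t0 _
  have w1 : w ≤ 1 := Real.rpow_le_one t0.le (d.t_le y) (by linarith)
  have e1 : t = v * w * w := by
    rw [hv, hw, ← Real.rpow_add t0, ← Real.rpow_add t0]
    conv_lhs => rw [← Real.rpow_one t]
    congr 1; ring
  have e2 : t ^ b * w = v := by rw [hv, hw, ← Real.rpow_add t0]; congr 1; ring
  have hr : w * s / 2 ≤ s / 2 := by nlinarith
  have r0 : 0 < w * s / 2 := by positivity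
  have f1 : ContDiff ℝ 1 f := d.sm.of_le (by exact_mod_cast le_top)
  -- oscillation on the ball
  have hosc : ∀ x ∈ closedBall y (w * s / 2), |f x - f y| ≤ C * v / 2 := fun x hx => by
    have := (convex_closedBall y (w * s / 2)).norm_image_sub_le_of_norm_fderiv_le (f := f)
      (C := C * t ^ b / s) (fun z _ => f1.differentiable one_ne_zero z)
      (fun z hz => by
        have := h f σ d y z ((mem_closedBall.1 hz).trans hr)
        rwa [norm_iteratedFDeriv_one, pow_one] at this) (mem_closedBall_self r0.le) hx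
    refine this.trans ((mul_le_mul_of_nonneg_left (mem_closedBall_iff_norm.1 hx)
      (by positivity)).trans (le_of_eq ?_))
    rw [← e2]; field_simp
  have i2 : Integrable fun x : E4 => f x ^ 2 / (‖x‖ ^ 2 + 1) :=
    integrable_of_supp d.cs ((f1.continuous.pow 2).div ((continuous_norm.pow 2).add
      continuous_const) fun x => by positivity) fun x hx => by
        simp [image_eq_zero_of_notMem_tsupport hx]
  have hH : ∫ x in closedBall y (w * s / 2), f x ^ 2 / (‖x‖ ^ 2 + 1) ≤ σ ^ 2 :=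
    (setIntegral_le_integral i2 (Eventually.of_forall fun x => by positivity)).trans
      ((hardy_k f1 d.cs one_pos).trans d.en)
  have hpt : ∀ x ∈ closedBall y (w * s / 2), (f y ^ 2 - C ^ 2 * v ^ 2 / 2) / (9 / 2 * s ^ 2) ≤
      f x ^ 2 / (‖x‖ ^ 2 + 1) := fun x hx => by
    have h1 := hosc x hx
    have h2 : (f x - f y) ^ 2 ≤ (C * v / 2) ^ 2 := by
      rw [← sq_abs]; exact pow_le_pow_left₀ (abs_nonneg _) h1 2
    have h3 : ‖x‖ + 1 ≤ 3 / 2 * s := by
      have := norm_sub_norm_le x y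
      have := (mem_closedBall_iff_norm.1 hx).trans hr
      linarith
    have h4 : ‖x‖ ^ 2 + 1 ≤ 9 / 4 * s ^ 2 := by nlinarith [norm_nonneg x]
    calc (f y ^ 2 - C ^ 2 * v ^ 2 / 2) / (9 / 2 * s ^ 2) ≤ (2 * f x ^ 2) / (9 / 2 * s ^ 2) := by
          gcongr; nlinarith [sq_nonneg (2 * f x - f y)]
      _ = f x ^ 2 / (9 / 4 * s ^ 2) := by field_simp; ring
      _ ≤ _ := by gcongr
  have hI := setIntegral_mono_on (μ := volume) (integrableOn_const measure_closedBall_lt_top.ne)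
    i2.integrableOn measurableSet_closedBall hpt
  rw [setIntegral_const, Measure.addHaar_real_closedBall' _ _ r0.le, finrank_euclideanSpace_fin,
    ← hc0, smul_eq_mul] at hI
  have hσ : σ = v * w * w * s := by rw [← e1, ht]; field_simp
  have h5 := hI.trans hH
  rw [hσ, ← mul_div_assoc, div_le_iff₀ (by positivity)] at h5
  have h6 : f y ^ 2 ≤ (72 / c0 + C ^ 2 / 2) * v ^ 2 := by
    have h7 : (w * s / 2) ^ 4 * c0 * (f y ^ 2 - C ^ 2 * v ^ 2 / 2) ≤
        (w * s / 2) ^ 4 * c0 * (72 / c0 * v ^ 2) := h5.trans (le_of_eq (by field_simp; ring))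
    have := le_of_mul_le_mul_left h7 (by positivity)
    linarith
  rw [norm_iteratedFDeriv_zero, pow_zero, mul_one, Real.norm_eq_abs]
  refine abs_le_of_sq_le_sq' ?_ (by positivity) |> fun h => abs_le.2 h
  rw [mul_pow, Real.sq_sqrt (by positivity)]
  exact h6

theorem P_half (j : ℕ) : P Cs j (1 / 2) := by
  have h1 : P Cs 0 ((1 + 2 * 0) / 3) := P.base le_rfl zero_le_one (P_zero 1)
  have h2 := P.step 18 0 _ (by norm_num) h1
  have h3 := P.base (by norm_num) (by norm_num) h2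
  refine (P.iter (32 * j) (by norm_num) h3 j).mono ?_
  have j0 : (0 : ℝ) ≤ j := j.cast_nonneg
  have h4 := one_add_mul_sub_le_pow (a := ((32 * j : ℕ) : ℝ) / ((32 * j : ℕ) + 2))
    (le_trans (by norm_num) (show (0 : ℝ) ≤ _ by positivity)) j
  have h5 : (15 / 16 : ℝ) ≤ 1 + j * (((32 * j : ℕ) : ℝ) / ((32 * j : ℕ) + 2) - 1) := by
    push_cast
    rw [← sub_nonneg]
    have : 1 + (j : ℝ) * (32 * j / (32 * j + 2) - 1) - 15 / 16 = 1 / (8 * (32 * j + 2)) := by
      field_simp; ring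
    rw [this]; positivity
  have h6 := h5.trans h4
  norm_num at h6 ⊢
  linarith

end Itp

theorem int : INTStmt := by
  intro Cs
  choose C hC h using fun j => Itp.P_half (Cs := Cs) j
  refine ⟨C, hC, fun f σ h1 h2 h3 h4 h5 h6 y k => ?_⟩
  have := h k f σ ⟨h1, h2, h3, h4, h5, h6⟩ y
  rwa [← Real.sqrt_eq_rpow] at this

end Crest.Agent.N207.Ph

end
end

-- ▼ part N207/Ph/En3
section

/-!
# Row 207, block PHI (helper41): the theorem `en`
-/

set_option autoImplicit false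
set_option linter.unusedSectionVars false

open scoped ContDiff Topology
open Set Filter Finset MeasureTheory Metric
open Crest.GeometryTopology.CoordMetric Crest.GeometryTopology.ChartCurvature
  Crest.GeometryTopology.MetricFamily

noncomputable section

namespace Crest.Agent.N207.Ph

open Sk Lg

namespace EQ

theorem tr2_lapJ (k H : M2 (Fin 4) ℝ) (q : M4 (Fin 4) ℝ) :
    tr2 k (lapJ H q) = ∑ a, ∑ b, H a b * tr2 k (q a b) := by
  simp only [tr2, lapJ, mul_sum]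
  perm4 i j a b => (a, b, i, j); ring

theorem en_jet {H H1 k r Q db : M2 (Fin 4) ℝ} {τ dH : M3 (Fin 4) ℝ} {q q1 : M4 (Fin 4) ℝ}
    {b : Fin 4 → ℝ} (hk : Sy2 k) (hr : ∀ i j, r i j = -(1 / 2) * (lapJ H q i j + lapJ (H - H1) q1 i j) +
      Q i j + (1 / 2) * (db i j + db j i)) :
    (1 / 2) * ∑ c, tr2 (τ c) (τ c) + ∑ a, (-(1 / 2) * ∑ c, (dH a a c * tr2 k (τ c) +
      H a c * (tr2 (τ a) (τ c) + tr2 k (q a c))) + ∑ j, (τ a a j * b j + k a j * db a j)) =
    tr2 k r - (1 / 2) * ∑ a, ∑ c, dH a a c * tr2 k (τ c) -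
      (1 / 2) * ∑ a, ∑ c, (H a c - (1 : Matrix (Fin 4) (Fin 4) ℝ) a c) * tr2 (τ a) (τ c) +
      ∑ a, ∑ j, τ a a j * b j + (1 / 2) * ∑ a, ∑ c, (H a c - H1 a c) * tr2 k (q1 a c) - tr2 k Q := by
  have e : r = (-(1 / 2) : ℝ) • (lapJ H q + lapJ (H - H1) q1) + Q +
      (1 / 2 : ℝ) • (db + fun i j => db j i) := by
    funext i j; simp only [hr, Pi.add_apply, Pi.smul_apply, smul_eq_mul]
  have e2 : tr2 k (fun i j => db j i) = tr2 k db := by
    simp only [tr2]; rw [sum_comm]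
    exact sum_congr rfl fun a _ => sum_congr rfl fun b _ => by rw [hk b a]
  have e3 : ∑ a, ∑ j, k a j * db a j = tr2 k db := rfl
  have e4 : ∑ a, ∑ c, (H a c - (1 : Matrix (Fin 4) (Fin 4) ℝ) a c) * tr2 (τ a) (τ c) =
      ∑ a, ∑ c, H a c * tr2 (τ a) (τ c) - ∑ c, tr2 (τ c) (τ c) := by
    simp [sub_mul, sum_sub_distrib, Matrix.one_apply]
  rw [e, e4]
  simp only [tr2_add, tr2_smul, tr2_lapJ, e2, mul_add, sum_add_distrib, ← mul_sum, e3, Pi.sub_apply]
  ring

/-- the flux of the energy identity -/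
def enF (G1 G2 : MetricField 4) (a : Fin 4) (z : E4) : ℝ :=
  -(1 / 2) * ∑ c, iv G2 z a c * tr2 ((G2 - G1) z) (jet (G2 - G1) z c) +
    ∑ j, (G2 - G1) z a j * (gauT flat G2 z ![j] - gauT flat G1 z ![j])

variable {R : ℝ} {G G1 G2 : MetricField 4}

theorem Fr.c_B (h : Fr R G) (j : Fin 4) : ContDiff ℝ 1 fun z => gauT flat G z ![j] := by
  rw [show (fun z => gauT flat G z ![j]) = fun z => gv (iv G z) (jet G z) j from
    funext fun z => gauT_const 1 G z j]
  exact contDiff_iff_contDiffAt.2 fun x => contDiffAt_pi.1 (cA_gv (h.c_iv x) (h.c_jet x)) j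

theorem Fr.B_out (h : Fr R G) (j : Fin 4) {x : E4} (hx : R < ‖x‖) : gauT flat G x ![j] = 0 := by
  rw [show gauT flat G x ![j] = _ from gauT_const 1 G x j, h.jet_out hx, gv_zero]; rfl

theorem Fr.int_B (h : Fr R G) : Integrable fun x => ∑ j, gauT flat G x ![j] ^ 2 :=
  integrable_of_ball R (continuous_finsetSum _ fun j _ => (h.c_B j).continuous.pow 2) fun x hx => by
    simp [h.B_out _ hx]

section

variable (h1 : Fr R G1) (h2 : Fr R G2)
include h1 h2

theorem jet_K : jet (G2 - G1) = fun z => jet G2 z - jet G1 z :=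
  funext fun z => jet_sub (h2.c2 z).d (h1.c2 z).d

theorem c_K (x : E4) : ContDiffAt (F := M2 (Fin 4) ℝ) ℝ 1 (G2 - G1) x := (h2.c_g x).sub (h1.c_g x)

theorem c_jK (x : E4) : ContDiffAt ℝ 1 (jet (G2 - G1)) x := by
  rw [jet_K h1 h2]; exact (h2.c_jet x).sub (h1.c_jet x)

theorem c_enF (a : Fin 4) : ContDiff ℝ 1 (enF G1 G2 a) := contDiff_iff_contDiffAt.2 fun x => by
  refine (contDiffAt_const.mul (.sum fun c _ =>
    (contDiffAt_pi.1 (contDiffAt_pi.1 (h2.c_iv x) a) c).mul (cA_tr2 (c_K h1 h2 x)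
      (contDiffAt_pi.1 (c_jK h1 h2 x) c)))).add (.sum fun j _ =>
    (contDiffAt_pi.1 (contDiffAt_pi.1 (c_K h1 h2 x) a) j).mul
      ((h2.c_B j).contDiffAt.sub (h1.c_B j).contDiffAt))

theorem pd_enF (a : Fin 4) (x : E4) : pderiv a (enF G1 G2 a) x =
    -(1 / 2) * ∑ c, (pderiv a (fun z => (G2 z)⁻¹ a c) x * tr2 ((G2 - G1) x) (jet (G2 - G1) x c) +
      iv G2 x a c * (tr2 (jet (G2 - G1) x a) (jet (G2 - G1) x c) +
        tr2 ((G2 - G1) x) (jet2 (G2 - G1) x a c))) +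
    ∑ j, (jet (G2 - G1) x a a j * (gauT flat G2 x ![j] - gauT flat G1 x ![j]) +
      (G2 - G1) x a j * (pderiv a (fun z => gauT flat G2 z ![j]) x -
        pderiv a (fun z => gauT flat G1 z ![j]) x)) := by
  have dK := (c_K h1 h2 x).differentiableAt one_ne_zero
  have dJ := (c_jK h1 h2 x).differentiableAt one_ne_zero
  have hk : HD2 univ 0 (fun r => (G2 - G1) (ln x a r)) (jet (G2 - G1) x a) :=
    ln_mat (fun i j => dA_ap2 dK i j) a
  have hτ : ∀ c, HD2 univ 0 (fun r => jet (G2 - G1) (ln x a r) c) (jet2 (G2 - G1) x a c) :=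
    fun c i j => pd_line (dA_ap3 dJ c i j) a
  have hH := fun c => pd_line (dA_ap2 (h2.c2 x).d_iv a c) a
  have hB := fun j => (pd_line ((h2.c_B j).differentiable one_ne_zero x) a).fun_sub
    (pd_line ((h1.c_B j).differentiable one_ne_zero x) a)
  have h := ((HasDerivWithinAt.fun_sum (u := univ) fun c _ =>
    (hH c).fun_mul (hd_tr2 hk (hτ c))).const_mul (-(1 / 2))).fun_add
      (HasDerivWithinAt.fun_sum (u := univ) fun j _ => (hk a j).fun_mul (hB j))
  simp only [ln_zero] at h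
  exact pd_eq ((c_enF h1 h2 a).differentiable one_ne_zero x) h

theorem jet2_K (x : E4) : jet2 (G2 - G1) x = jet2 G2 x - jet2 G1 x := by
  funext c d a b
  simp only [jet2, jet_K h1 h2, Pi.sub_apply]
  exact pd_sub c (dA_ap3 (h2.c2 x).d_jet d a b) (dA_ap3 (h1.c2 x).d_jet d a b)

end

theorem en_num {C δ s K0 K1 u D : ℝ} (hC : 0 ≤ C) (hδ : 0 < δ) (h1 : δ ≤ 1)
    (hδC : δ * (32 * C + 20000) ≤ 1 / 16) (hs : 0 < s) (h0 : 0 ≤ K0) (h2 : 0 ≤ K1)
    (hu : (K0 / s) ^ 2 ≤ u) (hD : K1 ^ 2 = D) :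
    (1 / 2) * (4 * (4 * (64 * (δ / s) * (16 * (K0 * K1))))) +
      (1 / 2) * (4 * (4 * (8 * δ * (16 * (K1 * K1))))) +
      (1 / 2) * (4 * (4 * (64 * K0 * (16 * (K0 * (δ / s ^ 2)))))) +
      16 * (K0 * (C * ((δ / s) ^ 2 * (K0 + s / δ * K1)))) ≤ (1 / 16) * u + (1 / 16) * D := by
  set v := K0 / s with hv
  have v0 : 0 ≤ v := by positivity
  have e : (1 / 2) * (4 * (4 * (64 * (δ / s) * (16 * (K0 * K1))))) +
      (1 / 2) * (4 * (4 * (8 * δ * (16 * (K1 * K1))))) +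
      (1 / 2) * (4 * (4 * (64 * K0 * (16 * (K0 * (δ / s ^ 2)))))) +
      16 * (K0 * (C * ((δ / s) ^ 2 * (K0 + s / δ * K1)))) =
      δ * (8192 * (v * K1) + 1024 * K1 ^ 2 + 8192 * v ^ 2 + 16 * C * (δ * v ^ 2 + v * K1)) := by
    rw [hv]; field_simp; ring
  have a1 : v * K1 ≤ v ^ 2 + K1 ^ 2 := by nlinarith [sq_nonneg (v - K1), mul_nonneg v0 h2]
  have a2 : δ * v ^ 2 ≤ v ^ 2 + K1 ^ 2 := by nlinarith [sq_nonneg v, sq_nonneg K1]
  have a3 : 8192 * (v * K1) + 1024 * K1 ^ 2 + 8192 * v ^ 2 + 16 * C * (δ * v ^ 2 + v * K1) ≤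
      (32 * C + 20000) * (v ^ 2 + K1 ^ 2) := by
    nlinarith [mul_le_mul_of_nonneg_left (add_le_add a2 a1) hC, sq_nonneg v, sq_nonneg K1]
  rw [e, ← hD]
  have a4 := mul_le_mul_of_nonneg_left a3 hδ.le
  have a5 := mul_le_mul_of_nonneg_right hδC (show 0 ≤ v ^ 2 + K1 ^ 2 by positivity)
  nlinarith

/-- the pointwise inequality behind `EN` -/
theorem en_pt : ∃ δ, 0 < δ ∧ ∀ (R : ℝ) (G1 G2 : MetricField 4), Fr R G1 → Fr R G2 →
    Sml 2 G1 δ → Sml 2 G2 δ → ∀ ε, 0 < ε → ε ≤ 1 → ∀ x : E4,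
    (1 / 2) * d2 G1 G2 x + ∑ a, pderiv a (enF G1 G2 a) x ≤
      (1 / 8) * (k2 G1 G2 x / (‖x‖ ^ 2 + ε)) + (1 / 8) * d2 G1 G2 x + 4 * ((‖x‖ ^ 2 + ε) *
        ∑ i, ∑ j, (ricci G2 x i j - ricci G1 x i j) ^ 2) +
      512 * (∑ j, gauT flat G1 x ![j] ^ 2 + ∑ j, gauT flat G2 x ![j] ^ 2) := by
  obtain ⟨C, hC, hq⟩ := qq_lip
  refine ⟨1 / (16 * (32 * C + 20000)), by positivity, fun R G1 G2 h1 h2 s1 s2 ε h0 hε x => ?_⟩
  set δ := 1 / (16 * (32 * C + 20000)) with hδ
  have δ0 : 0 < δ := by positivity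
  have δC : δ * (32 * C + 20000) ≤ 1 / 16 := by rw [hδ]; exact le_of_eq (by field_simp)
  have δ1 : δ ≤ 1 / 100 := by nlinarith [mul_nonneg δ0.le hC]
  have hx := mem_univ x
  set s := ‖x‖ + 1 with hs
  have s0 : 0 < s := by positivity
  have w0 : 0 < ‖x‖ ^ 2 + ε := by positivity
  set K0 := √(k2 G1 G2 x)
  set K1 := √(d2 G1 G2 x)
  have K00 : 0 ≤ K0 := Real.sqrt_nonneg _
  have K10 : 0 ≤ K1 := Real.sqrt_nonneg _
  have q0 : K0 ^ 2 = k2 G1 G2 x := Real.sq_sqrt (k2_nonneg x)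
  have q1 : K1 ^ 2 = d2 G1 G2 x := Real.sq_sqrt (d2_nonneg x)
  have ks : Sy2 ((G2 - G1) x) := fun a b => by
    simp only [Pi.sub_apply, Matrix.sub_apply, (h1.c2 x).g_sy a b, (h2.c2 x).g_sy a b]
  have id := en_jet (H := iv G2 x) (H1 := iv G1 x) (τ := jet (G2 - G1) x)
    (r := fun i j => ricci G2 x i j - ricci G1 x i j)
    (Q := fun i j => qq (iv G2 x) (jet G2 x) i j - qq (iv G1 x) (jet G1 x) i j)
    (db := fun i j => pderiv i (fun z => gauT flat G2 z ![j]) x -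
      pderiv i (fun z => gauT flat G1 z ![j]) x)
    (dH := fun c a b => pderiv c (fun z => (G2 z)⁻¹ a b) x) (q := jet2 (G2 - G1) x)
    (q1 := jet2 G1 x) (b := fun j => gauT flat G2 x ![j] - gauT flat G1 x ![j]) ks fun i j => by
      rw [ricci_one (h2.c2 x), ricci_one (h1.c2 x), jet2_K h1 h2, lapJ_sub, sub_lapJ]
      have gf : ∀ G z j, gauT flat G z ![j] = gv (iv G z) (jet G z) j := gauT_const 1
      simp only [qq, gauT_const, gf, Pi.sub_apply]
      ring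
  have ed : ∑ c, tr2 (jet (G2 - G1) x c) (jet (G2 - G1) x c) = d2 G1 G2 x := by
    simp only [tr2, d2, pow_two]; rfl
  simp only [pd_enF h1 h2]
  rw [← ed, id, ed]
  have bk : ∀ a b, |(G2 - G1) x a b| ≤ K0 := k_le x
  have bτ : ∀ c a b, |jet (G2 - G1) x c a b| ≤ K1 := d_le x
  have n1 := (s1 x).near.mono δ1
  have n2 := (s2 x).near.mono δ1
  have p1 := h1.riem.posDef x hx
  have p2 := h2.riem.posDef x hx
  have t1 := Rad.sum4_le fun a => Rad.sum4_le fun c => Rad.abs_mul_le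
    (Rad.jg_pd_inv h2.riem hx (s2 x) δ1 one_le_two s0 a a c) (tr2_le bk (bτ c))
  have t2 := Rad.sum4_le fun a => Rad.sum4_le fun c => Rad.abs_mul_le
    (Rad.jg_inv h2.riem hx (s2 x) δ1 a c) (tr2_le (bτ a) (bτ c))
  have t3 := Rad.sum4_le fun a => Rad.sum4_le fun c => Rad.abs_mul_le
    (inv_sub_le p1 p2 n1 n2 (k_le x) a c) (tr2_le (k := jet2 G1 x a c) bk
      (Rad.jg_pd2 h1.riem hx (s1 x) le_rfl s0 a c))
  have et : δ / s * (K0 + s / δ * K1) = δ / s * K0 + K1 := by field_simp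
  have bτ' : ∀ c a b, |jet (G2 - G1) x c a b| ≤ δ / s * (K0 + s / δ * K1) := fun c a b => by
    rw [et]; exact (bτ c a b).trans (le_add_of_nonneg_left (by positivity))
  have bk' : ∀ a b, |(G2 - G1) x a b| ≤ K0 + s / δ * K1 := fun a b =>
    (bk a b).trans (le_add_of_nonneg_right (by positivity))
  have t4 := tr2_le bk (hq ⟨0, 0, iv G1 x, iv G2 x, (G2 - G1) x, jet G1 x, jet G2 x,
    jet (G2 - G1) x, δ / s, K0 + s / δ * K1, by norm_num, by norm_num, by
      rw [sub_self, abs_zero]; positivity, near_inv_le p1 n1, near_inv_le p2 n2,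
    inv_sub_le p1 p2 n1 n2 bk', Rad.jg_pd (s1 x) one_le_two s0, Rad.jg_pd (s2 x) one_le_two s0,
    fun c a b => by simpa only [jet_K h1 h2, Pi.sub_apply] using bτ' c a b, bk', bτ'⟩)
  have t5 : tr2 ((G2 - G1) x) (fun i j => ricci G2 x i j - ricci G1 x i j) ≤
      (1 / 16) * (k2 G1 G2 x / (‖x‖ ^ 2 + ε)) +
        4 * ((‖x‖ ^ 2 + ε) * ∑ i, ∑ j, (ricci G2 x i j - ricci G1 x i j) ^ 2) := by
    refine (sum_le_sum fun i _ => sum_le_sum fun j _ =>
      young (1 / 16) (by norm_num) w0).trans (le_of_eq ?_)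
    simp only [k2, sum_add_distrib, ← mul_sum, ← sum_div, Pi.sub_apply, Matrix.sub_apply]
    norm_num
  have t6 : ∑ a, ∑ j, jet (G2 - G1) x a a j * (gauT flat G2 x ![j] - gauT flat G1 x ![j]) ≤
      (1 / 16) * d2 G1 G2 x +
        512 * (∑ j, gauT flat G1 x ![j] ^ 2 + ∑ j, gauT flat G2 x ![j] ^ 2) := by
    calc _ ≤ ∑ _a : Fin 4, ∑ j, ((1 / 256) * K1 ^ 2 +
          128 * (gauT flat G1 x ![j] ^ 2 + gauT flat G2 x ![j] ^ 2)) :=
          sum_le_sum fun a _ => sum_le_sum fun j _ => by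
            have := sq_le_sq' (abs_le.1 (bτ a a j)).1 (abs_le.1 (bτ a a j)).2
            nlinarith [sq_nonneg (jet (G2 - G1) x a a j / 16 -
              8 * (gauT flat G2 x ![j] - gauT flat G1 x ![j])),
              sq_nonneg (gauT flat G2 x ![j] + gauT flat G1 x ![j])]
      _ = _ := by simp only [q1, Fin.sum_univ_four]; ring
  have t7 := en_num hC δ0 (δ1.trans (by norm_num)) δC s0 K00 K10
    (u := k2 G1 G2 x / (‖x‖ ^ 2 + ε)) (by
      rw [div_pow, q0]; exact sq_div_le x (k2_nonneg x) h0 hε) q1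
  have a1 := (abs_le.1 t1).1
  have a2 := (abs_le.1 t2).1
  have a3 := (abs_le.1 t3).2
  have a4 := (abs_le.1 t4).1
  simp only [iv] at a4 ⊢
  linarith

end EQ

open EQ in
theorem en : ENStmt := by
  obtain ⟨δ, hδ, hp⟩ := en_pt
  refine ⟨δ, 2048, hδ, by norm_num, fun G1 G2 f1 f2 s1 s2 => ?_⟩
  obtain ⟨R, h1, h2⟩ := exists_fr f1 f2
  obtain ⟨iE, hE⟩ := int_div (R := R) (c_enF h1 h2) fun a x hx => by
    have : (G2 - G1) x = 0 := by rw [Pi.sub_apply, h1.g_out hx, h2.g_out hx, sub_self]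
    simp [enF, this, tr2]
  have cr : Continuous fun x => ∑ i, ∑ j, (ricci G2 x i j - ricci G1 x i j) ^ 2 :=
    continuous_finsetSum _ fun i _ => continuous_finsetSum _ fun j _ =>
      ((h2.c_ric i j).sub (h1.c_ric i j)).pow 2
  have iQ := integrable_of_ball R cr fun x hx => by simp [h1.ric_out hx, h2.ric_out hx]
  have iQ' : Integrable fun x : E4 => ‖x‖ ^ 2 * ∑ i, ∑ j, (ricci G2 x i j - ricci G1 x i j) ^ 2 :=
    integrable_of_ball R ((continuous_norm.pow 2).mul cr) fun x hx => by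
      simp [h1.ric_out hx, h2.ric_out hx]
  have u := master h1 h2 (α := 1 / 8) (β := 1 / 8) (γ := 4) (by norm_num)
    ((int_d2 h1 h2).const_mul (1 / 2)) iE.neg
    (by simp only [Pi.neg_apply, integral_neg, hE, neg_zero])
    ((h1.int_B.add h2.int_B).const_mul 512) iQ iQ' fun ε h0 hε x => by
      have := hp R G1 G2 h1 h2 s1 s2 ε h0 hε x
      simp only [Pi.neg_apply, Pi.add_apply]
      linarith
  rw [integral_const_mul, integral_const_mul, integral_add' h1.int_B h2.int_B] at u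
  change 1 / 2 * H1 G1 G2 ≤ _ + 4 * RD G1 G2 + 512 * (BL G1 + BL G2) at u
  have n2 : 0 ≤ RD G1 G2 := integral_nonneg fun x => by positivity
  linarith

end Crest.Agent.N207.Ph

end
end

-- ▼ part N207/Ph/Ve1
section

/-!
# Row 207, block PHI (helper66): the weak form of the contracted Bianchi identity
-/

set_option autoImplicit false
set_option linter.unusedSectionVars false

open scoped ContDiff Topology
open Set MeasureTheory Filter Metric
open Crest.GeometryTopology.CoordMetric Crest.GeometryTopology.ChartCurvature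
  Crest.GeometryTopology.MetricFamily

noncomputable section

namespace Crest.Agent.N207.Ph.Ve

open Hd Sk

/-- matrices as functions -/
abbrev M2 : Type := Fin 4 → Fin 4 → ℝ
/-- matrices -/
abbrev Mx : Type := Matrix (Fin 4) (Fin 4) ℝ
/-- Christoffel arrays -/
abbrev M3 : Type := Fin 4 → Fin 4 → Fin 4 → ℝ

/-- the adjoint of the Bianchi operator -/
def Lop (H : Mx) (Γ : M3) (p : M2) (w : Fin 4 → ℝ) (i j : Fin 4) : ℝ :=
  ∑ a, H a i * p a j - (∑ a, ∑ d, Γ a a d * H d i) * w j + ∑ a, ∑ m, H a i * Γ j a m * w m -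
    (1 / 2) * (∑ m, p m m) * H i j

theorem bian_alg (H : Mx) (R p : M2) (Γ dR : M3) (w : Fin 4 → ℝ) :
    ∑ a, (∑ b, ∑ m, (((-(∑ c, Γ a a c * H c b) - ∑ c, Γ b a c * H a c) * R b m +
      H a b * dR a b m) * w m + H a b * R b m * p a m) -
      1 / 2 * ((2 * ∑ c, ∑ b, H c b * (dR c b a - (∑ d, Γ d c b * R d a + ∑ d, Γ d c a * R b d))) *
        w a + (∑ i, ∑ j, H i j * R i j) * p a a)) = ∑ i, ∑ j, R i j * Lop H Γ p w i j := by
  simp only [Lop, Fin.sum_univ_four]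
  ring

variable {G : MetricField 4} {W : Fin 4 → E4 → ℝ}

/-- the density of the weak Bianchi identity -/
def BW (G : MetricField 4) (W : Fin 4 → E4 → ℝ) (x : E4) : ℝ :=
  ∑ i, ∑ j, ricci G x i j *
    Lop (G x)⁻¹ (christoffel G x) (fun a b => pderiv a (W b) x) (fun m => W m x) i j

/-- the flux of the weak Bianchi identity -/
def BX (G : MetricField 4) (W : Fin 4 → E4 → ℝ) (a : Fin 4) (y : E4) : ℝ :=
  ∑ b, ∑ m, (G y)⁻¹ a b * ricci G y b m * W m y - 1 / 2 * (scalarCurv G y * W a y)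

theorem pd_scal (hG : IsRiemannianOn G univ) (x : E4) (a : Fin 4) : pderiv a (scalarCurv G) x =
    2 * ∑ c, ∑ b, (G x)⁻¹ c b * (pderiv c (fun y => ricci G y b a) x -
      (∑ d, christoffel G x d c b * ricci G x d a + ∑ d, christoffel G x d c a * ricci G x b d)) := by
  rw [← A.two_div_ric hG (mem_univ x) a]
  unfold divT trT
  refine congrArg (2 * ·) (Finset.sum_congr rfl fun c _ => Finset.sum_congr rfl fun b _ => ?_)
  refine congrArg ((G x)⁻¹ c b * ·) ?_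
  show pderiv c (fun y => ricci G y b a) x - ∑ s : Fin 2, ∑ m,
    christoffel G x m c (A.v2 b a s) * ricT G x (Function.update (A.v2 b a) s m) = _
  rw [Fin.sum_univ_two]
  rfl

theorem BW_eq (hG : IsRiemannianOn G univ) (hW : ∀ m, ContDiff ℝ ∞ (W m)) (x : E4) :
    BW G W x = ∑ a, pderiv a (BX G W a) x := by
  have hx := mem_univ x
  have d1 : ∀ a b, DifferentiableAt ℝ (fun y => (G y)⁻¹ a b) x := fun a b =>
    dAt (sm_inv hG a b) isOpen_univ hx
  have d2 : ∀ a b, DifferentiableAt ℝ (fun y => ricci G y a b) x := fun a b =>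
    dAt (sm_ricci hG a b) isOpen_univ hx
  have d3 : ∀ m, DifferentiableAt ℝ (W m) x := fun m => (hW m).differentiable (by simp) x
  have d4 : DifferentiableAt ℝ (scalarCurv G) x := dAt (sm_scal hG) isOpen_univ hx
  rw [BW, ← bian_alg (G x)⁻¹ (ricci G x) _ (christoffel G x)
    (fun c a b => pderiv c (fun y => ricci G y a b) x)]
  refine Finset.sum_congr rfl fun a _ => ?_
  unfold BX
  have d5 : ∀ b m, DifferentiableAt ℝ (fun y => (G y)⁻¹ a b * ricci G y b m * W m y) x :=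
    fun b m => ((d1 a b).mul (d2 b m)).mul (d3 m)
  have d6 : ∀ b, DifferentiableAt ℝ (fun y => ∑ m, (G y)⁻¹ a b * ricci G y b m * W m y) x :=
    fun b => DifferentiableAt.fun_sum fun m _ => d5 b m
  have d7 : DifferentiableAt ℝ (fun y => 1 / 2 * (scalarCurv G y * W a y)) x :=
    (d4.mul (d3 a)).const_mul _
  rw [pd_sub a (DifferentiableAt.fun_sum fun b _ => d6 b) d7, pd_cmul,
    pd_mul a d4 (d3 a), pd_scal hG, pd_sum a _ fun b _ => d6 b]
  congr 1
  refine Finset.sum_congr rfl fun b _ => ?_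
  rw [pd_sum a _ fun m _ => d5 b m]
  refine Finset.sum_congr rfl fun m _ => ?_
  have d8 : DifferentiableAt ℝ (fun y => (G y)⁻¹ a b * ricci G y b m) x := (d1 a b).mul (d2 b m)
  rw [pd_mul a d8 (d3 m), pd_mul a (d1 a b) (d2 b m), pd_ginv hG hx]

theorem sm_univ {f : E4 → ℝ} (h : ContDiffOn ℝ ∞ f univ) : ContDiff ℝ ∞ f := contDiffOn_univ.1 h

theorem one_le : (1 : WithTop ℕ∞) ≤ ∞ := by exact_mod_cast le_top

/-- a divergence has integral zero -/
theorem int_div {X : Fin 4 → E4 → ℝ} (R : ℝ) (hX : ∀ a, ContDiff ℝ ∞ (X a))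
    (h0 : ∀ a (x : E4), R < ‖x‖ → X a x = 0) :
    Integrable (fun x => ∑ a, pderiv a (X a) x) ∧ ∫ x, ∑ a, pderiv a (X a) x = 0 := by
  have i1 : ∀ a, Integrable (pderiv a (X a)) := fun a => integrable_of_ball R
    (cont_pderiv ((hX a).of_le one_le) a) (pderiv_zero_out (h0 a) a)
  refine ⟨integrable_finsetSum _ fun a _ => i1 a, ?_⟩
  rw [integral_finsetSum _ fun a _ => i1 a]
  exact Finset.sum_eq_zero fun a _ => int_pderiv_glob ((hX a).of_le one_le) (hcs_of_ball R (h0 a)) a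

theorem bianchi_weak (hG : IsRiemannianOn G univ) (hW : ∀ m, ContDiff ℝ ∞ (W m)) (R : ℝ)
    (h0 : ∀ m (x : E4), R < ‖x‖ → W m x = 0) : Integrable (BW G W) ∧ ∫ x, BW G W x = 0 := by
  have e : BW G W = fun x => ∑ a, pderiv a (BX G W a) x := funext (BW_eq hG hW)
  rw [e]
  refine int_div R (fun a => ?_) fun a x hx => by simp [BX, h0 _ x hx]
  exact (ContDiff.sum fun b _ => ContDiff.sum fun m _ => ((sm_univ (sm_inv hG a b)).mul
    (sm_univ (sm_ricci hG b m))).mul (hW m)).sub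
      (contDiff_const.mul ((sm_univ (sm_scal hG)).mul (hW a)))

end Crest.Agent.N207.Ph.Ve

end
end

-- ▼ part N207/Ph/Ve2
section

/-!
# Row 207, block PHI (helper66): `VE`, the pointwise algebra
-/

set_option autoImplicit false
set_option linter.unusedSectionVars false

noncomputable section

namespace Crest.Agent.N207.Ph.Ve

open Rad

theorem abs4 {a b c d A B C D : ℝ} (h1 : |a| ≤ A) (h2 : |b| ≤ B) (h3 : |c| ≤ C) (h4 : |d| ≤ D) :
    |a - b + c - d| ≤ A + B + C + D := by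
  rw [abs_le] at *
  constructor <;> linarith [h1.1, h1.2, h2.1, h2.2, h3.1, h3.2, h4.1, h4.2]

theorem sum16_le {f : Fin 4 → Fin 4 → ℝ} {c : ℝ} (h : ∀ i j, |f i j| ≤ c) :
    |∑ i, ∑ j, f i j| ≤ 16 * c :=
  (sum4_le fun i => sum4_le (h i)).trans (le_of_eq (by ring))

theorem Lop_sub {H H' : Mx} {Γ Γ' : M3} {p : M2} {w : Fin 4 → ℝ} {h g γ P w0 : ℝ}
    (h1 : ∀ a b, |H' a b| ≤ 2) (h2 : ∀ a b, |H' a b - H a b| ≤ h) (h3 : ∀ a b c, |Γ a b c| ≤ g)
    (h4 : ∀ a b c, |Γ' a b c - Γ a b c| ≤ γ) (h5 : ∀ a b, |p a b| ≤ P) (h6 : ∀ a, |w a| ≤ w0)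
    (i j : Fin 4) :
    |Lop H' Γ' p w i j - Lop H Γ p w i j| ≤ 6 * h * P + 32 * (2 * γ + g * h) * w0 := by
  have k : ∀ a b c d e, |(Γ' a b c - Γ a b c) * H' d e + Γ a b c * (H' d e - H d e)| ≤
      γ * 2 + g * h := fun a b c d e =>
    (abs_add_le _ _).trans (add_le_add (abs_mul_le (h4 a b c) (h1 d e)) (abs_mul_le (h3 a b c) (h2 d e)))
  have e : Lop H' Γ' p w i j - Lop H Γ p w i j = ∑ a, (H' a i - H a i) * p a j -
      (∑ a, ∑ d, ((Γ' a a d - Γ a a d) * H' d i + Γ a a d * (H' d i - H d i))) * w j +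
      ∑ a, ∑ m, ((Γ' j a m - Γ j a m) * H' a i + Γ j a m * (H' a i - H a i)) * w m -
      1 / 2 * ((∑ m, p m m) * (H' i j - H i j)) := by
    simp only [Lop, Fin.sum_univ_four]; ring
  rw [e]
  refine (abs4 (sum4_le fun a => abs_mul_le (h2 a i) (h5 a j))
    (abs_mul_le (sum16_le fun a d => k a a d d i) (h6 j))
    (sum16_le fun a m => abs_mul_le (k j a m a i) (h6 m))
    (abs_mul_le (le_of_eq (abs_of_pos one_half_pos))
      (abs_mul_le (sum4_le fun m => h5 m m) (h2 i j)))).trans (le_of_eq (by ring))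

theorem Lop_zero (p : M2) (w : Fin 4 → ℝ) (i j : Fin 4) : Lop 0 0 p w i j = 0 := by simp [Lop]

theorem Lop_le {H : Mx} {Γ : M3} {p : M2} {w : Fin 4 → ℝ} {γ P w0 : ℝ}
    (h1 : ∀ a b, |H a b| ≤ 2) (h4 : ∀ a b c, |Γ a b c| ≤ γ) (h5 : ∀ a b, |p a b| ≤ P)
    (h6 : ∀ a, |w a| ≤ w0) (i j : Fin 4) : |Lop H Γ p w i j| ≤ 12 * P + 64 * γ * w0 := by
  have := Lop_sub (H := 0) (Γ := 0) (g := 0) (h := 2) h1 (by simpa using h1) (by simp)
    (by simpa using h4) h5 h6 i j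
  rw [Lop_zero, sub_zero] at this
  exact this.trans (le_of_eq (by ring))

/-- the splitting of the two Bianchi densities -/
theorem split_alg (H H' : Mx) (Γ Γ' : M3) (R Z q p : M2) (w c : Fin 4 → ℝ) (χ : ℝ) :
    ∑ i, ∑ j, (1 / 2 * (q i j + q j i) + χ * R i j + Z i j) * Lop H' Γ' p w i j -
      ∑ i, ∑ j, R i j * Lop H Γ (fun a b => c a * w b + χ * p a b) (fun m => χ * w m) i j =
    (1 / 2 * ∑ i, ∑ j, q i j * p i j +
        1 / 2 * (∑ i, ∑ j, q j i * p i j - (∑ i, q i i) * ∑ i, p i i)) +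
      ∑ i, ∑ j, 1 / 2 * (q i j + q j i) * (Lop H' Γ' p w i j - Lop 1 0 p w i j) +
      ∑ i, ∑ j, χ * R i j * (Lop H' Γ' p w i j - Lop H Γ p w i j) -
      ∑ i, ∑ j, R i j * Lop H Γ (fun a b => c a * w b) 0 i j +
      ∑ i, ∑ j, Z i j * Lop H' Γ' p w i j := by
  have e1 : ∀ i j, Lop H Γ (fun a b => c a * w b + χ * p a b) (fun m => χ * w m) i j =
      Lop H Γ (fun a b => c a * w b) 0 i j + χ * Lop H Γ p w i j := fun i j => by
    simp only [Lop, Fin.sum_univ_four, Pi.zero_apply]; ring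
  have e2 : ∀ i j, Lop 1 0 p w i j = p i j - 1 / 2 * (∑ m, p m m) * if i = j then 1 else 0 :=
    fun i j => by simp [Lop, Matrix.one_apply]
  simp only [e1, e2]
  generalize Lop H' Γ' p w = L'
  generalize Lop H Γ p w = L
  generalize Lop H Γ (fun a b => c a * w b) 0 = L1
  simp [Fin.sum_univ_four]
  ring

theorem le_sqrt_en {q : M2} {v : Fin 4 → ℝ} {n a : ℝ} (ha : 0 ≤ a)
    (h : a ^ 2 = n ^ 2 * ∑ i, ∑ j, q i j ^ 2 + ∑ j, v j ^ 2) :
    (∀ i j, n * |q i j| ≤ a) ∧ ∀ j, |v j| ≤ a := by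
  have h1 : 0 ≤ ∑ j, v j ^ 2 := Finset.sum_nonneg fun _ _ => sq_nonneg _
  have h2 : 0 ≤ ∑ i, ∑ j, q i j ^ 2 :=
    Finset.sum_nonneg fun _ _ => Finset.sum_nonneg fun _ _ => sq_nonneg _
  refine ⟨fun i j => ?_, fun j => ?_⟩
  · have h3 : q i j ^ 2 ≤ ∑ i, ∑ j, q i j ^ 2 :=
      (Finset.single_le_sum (f := fun j => q i j ^ 2) (fun _ _ => sq_nonneg _)
        (Finset.mem_univ j)).trans (Finset.single_le_sum (f := fun i => ∑ j, q i j ^ 2)
          (fun _ _ => Finset.sum_nonneg fun _ _ => sq_nonneg _) (Finset.mem_univ i))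
    refine abs_le_of_sq_le_sq' ?_ ha |>.2
    rw [mul_pow, sq_abs, h]
    nlinarith [mul_le_mul_of_nonneg_left h3 (sq_nonneg n)]
  · have h3 : v j ^ 2 ≤ ∑ j, v j ^ 2 :=
      Finset.single_le_sum (f := fun j => v j ^ 2) (fun _ _ => sq_nonneg _) (Finset.mem_univ j)
    refine abs_le_of_sq_le_sq' ?_ ha |> abs_le.2
    rw [h]
    nlinarith [mul_nonneg (sq_nonneg n) h2]

/-- the four error terms -/
theorem err_alg {H H' : Mx} {Γ Γ' : M3} {R Z q : M2} {v x c : Fin 4 → ℝ} {n a χ η κ c0 ι : ℝ}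
    (hn : 0 ≤ n) (ha : 0 ≤ a) (hκ : 0 ≤ κ) (hc0 : 0 ≤ c0) (hη : η ≤ 1 / 10 ^ 6) (hι : 0 ≤ ι)
    (hι2 : ι ^ 2 = ι)
    (he : a ^ 2 = n ^ 2 * ∑ i, ∑ j, q i j ^ 2 + ∑ j, v j ^ 2) (hx : ∀ i, |x i| ≤ n)
    (H1 : ∀ a b, |H a b| ≤ 2) (H2 : ∀ a b, |H' a b| ≤ 2) (H3 : ∀ a b, |H' a b - (1 : Mx) a b| ≤ 8 * η)
    (G1 : ∀ a b c, |Γ a b c| ≤ 12 * (η / (n + 1))) (G2 : ∀ a b c, |Γ' a b c| ≤ 12 * (η / (n + 1)))
    (R1 : ∀ i j, |R i j| ≤ 1) (hχ : |χ| ≤ 1)
    (B1 : χ = 0 ∨ (n ≤ 2 ∧ ι = 1 ∧ (∀ a b, |H' a b - H a b| ≤ 64 * κ) ∧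
      ∀ a b c, |Γ' a b c - Γ a b c| ≤ 140 * κ))
    (B2 : c = 0 ∨ (n ≤ 2 ∧ ι = 1 ∧ (∀ a, |c a| ≤ c0) ∧ ∀ i j, |R i j| ≤ κ))
    {p : M2} (hp : ∀ a b, p a b = 2 * x a * v b + n ^ 2 * q a b) {w : Fin 4 → ℝ}
    (hw : ∀ m, w m = n ^ 2 * v m) :
    -(∑ i, ∑ j, 1 / 2 * (q i j + q j i) * (Lop H' Γ' p w i j - Lop 1 0 p w i j) +
      ∑ i, ∑ j, χ * R i j * (Lop H' Γ' p w i j - Lop H Γ p w i j) -
      ∑ i, ∑ j, R i j * Lop H Γ (fun a b => c a * w b) 0 i j +
      ∑ i, ∑ j, Z i j * Lop H' Γ' p w i j) ≤ 1 / 16 * a ^ 2 +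
      (10 ^ 7 * (n ^ 2 * ∑ i, ∑ j, Z i j ^ 2) + 16 * (10 ^ 12 + (768 * c0) ^ 2) * κ ^ 2 * ι) := by
  obtain ⟨hq, hv⟩ := le_sqrt_en ha he
  have η0 : 0 ≤ η := by linarith [(abs_nonneg _).trans (H3 0 0)]
  have hP : ∀ i j, |p i j| ≤ 3 * (n * a) := fun i j => by
    rw [hp]
    refine (abs_add_le _ _).trans ?_
    have h1 := abs_mul_le (abs_mul_le (le_of_eq (abs_two (α := ℝ))) (hx i)) (hv j)
    have h2 : |n ^ 2 * q i j| ≤ n * a := by
      rw [abs_mul, abs_of_nonneg (sq_nonneg n), sq, mul_assoc]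
      exact mul_le_mul_of_nonneg_left (hq i j) hn
    linarith
  have hW : ∀ m, |w m| ≤ n ^ 2 * a := fun m => by
    rw [hw]; exact abs_mul_le (le_of_eq (abs_of_nonneg (sq_nonneg n))) (hv m)
  have na : 0 ≤ n * a := mul_nonneg hn ha
  have hs : η / (n + 1) * (n ^ 2 * a) ≤ η * (n * a) := by
    rw [div_mul_eq_mul_div, div_le_iff₀ (by positivity)]
    nlinarith [mul_nonneg η0 na]
  have hs1 : η / (n + 1) ≤ η := div_le_self η0 (by linarith)
  -- T1
  have t1 : |∑ i, ∑ j, 1 / 2 * (q i j + q j i) * (Lop H' Γ' p w i j - Lop 1 0 p w i j)| ≤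
      16 * (912 * η * a ^ 2) := sum16_le fun i j => by
    have h1 := Lop_sub (H := 1) (Γ := 0) (g := 0) H2 H3 (by simp) (by simpa using G2) hP hW i j
    have h2 : |Lop H' Γ' p w i j - Lop 1 0 p w i j| ≤ n * (912 * η * a) := by nlinarith
    have h3 : n * |1 / 2 * (q i j + q j i)| ≤ a := by
      have := mul_le_mul_of_nonneg_left (abs_add_le (q i j) (q j i)) hn
      rw [abs_mul, abs_of_pos one_half_pos]
      nlinarith [hq i j, hq j i]
    rw [abs_mul]
    calc _ ≤ |1 / 2 * (q i j + q j i)| * (n * (912 * η * a)) := by gcongr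
      _ = n * |1 / 2 * (q i j + q j i)| * (912 * η * a) := by ring
      _ ≤ a * (912 * η * a) := by gcongr
      _ = _ := by ring
  -- T2
  have t2 : |∑ i, ∑ j, χ * R i j * (Lop H' Γ' p w i j - Lop H Γ p w i j)| ≤
      10 ^ 6 * κ * ι * a := by
    rcases B1 with h | ⟨h1, h2, h3, h4⟩
    · simp only [h, zero_mul, Finset.sum_const_zero, abs_zero]; positivity
    · have g1 : ∀ a b c, |Γ a b c| ≤ 1 := fun a b c => (G1 a b c).trans (by linarith)
      have p1 : ∀ i j, |p i j| ≤ 6 * a := fun i j => (hP i j).trans (by nlinarith)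
      have w1 : ∀ m, |w m| ≤ 4 * a := fun m =>
        (hW m).trans (mul_le_mul_of_nonneg_right (by nlinarith) ha)
      refine (sum16_le fun i j => abs_mul_le (abs_mul_le hχ (R1 i j))
        (Lop_sub H2 h3 g1 h4 p1 w1 i j)).trans ?_
      rw [h2]; nlinarith [mul_nonneg hκ ha]
  -- T3
  have t3 : |∑ i, ∑ j, R i j * Lop H Γ (fun a b => c a * w b) 0 i j| ≤ 768 * c0 * κ * ι * a := by
    rcases B2 with h | ⟨h1, h2, h3, h4⟩
    · simp only [h, Lop, Pi.zero_apply, zero_mul, mul_zero, Finset.sum_const_zero, sub_zero,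
        add_zero, abs_zero]
      positivity
    · have w1 : ∀ m, |w m| ≤ 4 * a := fun m =>
        (hW m).trans (mul_le_mul_of_nonneg_right (by nlinarith) ha)
      refine (sum16_le fun i j => abs_mul_le (h4 i j) (Lop_le (w0 := 0) H1 G1
        (fun a b => abs_mul_le (h3 a) (w1 b)) (by simp) i j)).trans (le_of_eq ?_)
      rw [h2]; ring
  -- T4
  have t4 : -∑ i, ∑ j, Z i j * Lop H' Γ' p w i j ≤
      ∑ i, ∑ j, (1 / 1024 * a ^ 2 + 10 ^ 7 * (n ^ 2 * Z i j ^ 2)) := by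
    simp only [← Finset.sum_neg_distrib]
    refine Finset.sum_le_sum fun i _ => Finset.sum_le_sum fun j _ => ?_
    have h1 := Lop_le H2 G2 hP hW i j
    have h2 : |Lop H' Γ' p w i j| ≤ 40 * (n * a) := by nlinarith
    have h3 := (neg_le_abs _).trans (abs_mul_le (le_refl |Z i j|) h2)
    nlinarith [sq_nonneg (a / 32 - 640 * (n * |Z i j|)), sq_abs (Z i j), sq_nonneg (n * Z i j),
      mul_pow n |Z i j| 2]
  simp only [Finset.sum_add_distrib, Finset.sum_const, Finset.card_univ, Fintype.card_fin,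
    nsmul_eq_mul, ← Finset.mul_sum] at t4
  have u2 : 10 ^ 6 * κ * ι * a ≤ 1 / 64 * a ^ 2 + 16 * 10 ^ 12 * κ ^ 2 * ι ^ 2 := by
    nlinarith [sq_nonneg (a / 8 - 4 * 10 ^ 6 * κ * ι)]
  have u3 : 768 * c0 * κ * ι * a ≤ 1 / 64 * a ^ 2 + 16 * (768 * c0) ^ 2 * κ ^ 2 * ι ^ 2 := by
    nlinarith [sq_nonneg (a / 8 - 4 * (768 * c0) * κ * ι)]
  rw [hι2] at u2 u3
  have u1 : 16 * (912 * η * a ^ 2) ≤ 1 / 64 * a ^ 2 := by nlinarith [sq_nonneg a]
  have v1 := (abs_le.1 t1).1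
  have v2 := (abs_le.1 t2).1
  have v3 := (abs_le.1 t3).2
  push_cast at t4
  linarith

end Crest.Agent.N207.Ph.Ve

end
end

-- ▼ part N207/Ph/Ve3
section

/-!
# Row 207, block PHI (helper66): `VE`, the pointwise inequality
-/

set_option autoImplicit false
set_option linter.unusedSectionVars false

open scoped ContDiff Topology
open Set MeasureTheory Filter Metric
open Crest.GeometryTopology.CoordMetric Crest.GeometryTopology.ChartCurvature
  Crest.GeometryTopology.MetricFamily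

noncomputable section

namespace Crest.Agent.N207.Ph.Ve

open Hd Sk Rad

/-! ### the cutoff -/

theorem sm_up (a b : ℝ) : ContDiff ℝ ∞ (up a b) :=
  Real.smoothTransition.contDiff.comp ((sm_nsq.sub contDiff_const).div_const _)

/-- the cutoff -/
def chi (y : E4) : ℝ := 1 - up 1 2 y

theorem sm_chi : ContDiff ℝ ∞ chi := contDiff_const.sub (sm_up 1 2)

theorem abs_chi (y : E4) : |chi y| ≤ 1 := by
  have h1 := Real.smoothTransition.nonneg ((‖y‖ ^ 2 - 1 ^ 2) / (2 ^ 2 - 1 ^ 2))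
  have h2 := Real.smoothTransition.le_one ((‖y‖ ^ 2 - 1 ^ 2) / (2 ^ 2 - 1 ^ 2))
  exact abs_le.2 ⟨by unfold chi up; linarith, by unfold chi up; linarith⟩

theorem chi_zero {y : E4} (h : 2 ≤ ‖y‖) : chi y = 0 := by
  rw [chi, up, Real.smoothTransition.one_of_one_le, sub_self]
  rw [le_div_iff₀ (by norm_num)]; nlinarith

theorem chi_one {y : E4} (h : ‖y‖ ≤ 1) : chi y = 1 := by
  rw [chi, up, Real.smoothTransition.zero_of_nonpos, sub_zero]
  exact div_nonpos_of_nonpos_of_nonneg (by nlinarith [norm_nonneg y]) (by norm_num)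

theorem pd_chi_in {y : E4} (h : ‖y‖ < 1) (a : Fin 4) : pderiv a chi y = 0 := by
  have : chi =ᶠ[𝓝 y] fun _ => 1 := by
    filter_upwards [(isOpen_lt continuous_norm continuous_const).mem_nhds h] with z hz
      using chi_one (le_of_lt hz)
  rw [pd_congr a this, pd_const]

theorem pd_chi_out {y : E4} (h : 2 < ‖y‖) (a : Fin 4) : pderiv a chi y = 0 :=
  pderiv_zero_out (fun _ hx => chi_zero hx.le) a y h

theorem exists_c0 : ∃ c0 : ℝ, 0 ≤ c0 ∧ ∀ y : E4, ‖y‖ ≤ 2 → ∀ a, |pderiv a chi y| ≤ c0 := by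
  obtain ⟨C, hC⟩ := (isCompact_closedBall (0 : E4) 2).exists_bound_of_continuousOn
    (sm_chi.continuous_fderiv (by simp)).continuousOn
  refine ⟨C, (norm_nonneg _).trans (hC 0 (by simp)), fun y hy a => ?_⟩
  refine le_trans ?_ (hC y (by simpa using hy))
  simpa [pderiv] using (fderiv ℝ chi y).le_opNorm (EuclideanSpace.single a 1)

/-! ### differences of two metrics -/

variable {G G' : MetricField 4} {x : E4} {s η κ : ℝ}

theorem inv_sub (hG : IsRiemannianOn G univ) (hG' : IsRiemannianOn G' univ) (h : JG 2 G x s η)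
    (h' : JG 2 G' x s η) (hη : η ≤ 1 / 100) (h0 : ∀ i j, |G' x i j - G x i j| ≤ κ) (a b : Fin 4) :
    |(G' x)⁻¹ a b - (G x)⁻¹ a b| ≤ 64 * κ := by
  have hx := mem_univ x
  have e : (G' x)⁻¹ a b - (G x)⁻¹ a b =
      -∑ c, ∑ d, (G' x)⁻¹ a c * (G' x c d - G x c d) * (G x)⁻¹ d b := by
    have e1 := ginv_g_sum hG' hx a fun d => (G x)⁻¹ d b
    have e2 : ∑ c, (G' x)⁻¹ a c * ∑ d, G x c d * (G x)⁻¹ d b = (G' x)⁻¹ a b := by
      simp [g_ginv hG hx]
    have e3 : ∑ c, ∑ d, (G' x)⁻¹ a c * (G' x c d - G x c d) * (G x)⁻¹ d b =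
        ∑ l, (G' x)⁻¹ a l * ∑ m, G' x l m * (G x)⁻¹ m b -
          ∑ c, (G' x)⁻¹ a c * ∑ d, G x c d * (G x)⁻¹ d b := by
      simp only [Fin.sum_univ_four]; ring
    rw [e3, e1, e2]; ring
  rw [e, abs_neg]
  exact (sum16_le fun c d => abs_mul_le (abs_mul_le (jg_inv_le hG' hx h' hη a c) (h0 c d))
    (jg_inv_le hG hx h hη d b)).trans (le_of_eq (by ring))

theorem chr_sub (hG : IsRiemannianOn G univ) (hG' : IsRiemannianOn G' univ) (h : JG 2 G x s η)
    (h' : JG 2 G' x s η) (hη : η ≤ 1 / 100) (hs : 1 ≤ s) (h0 : ∀ i j, |G' x i j - G x i j| ≤ κ)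
    (h1 : ∀ k i j, |pderiv k (fun y => G' y i j) x - pderiv k (fun y => G y i j) x| ≤ κ)
    (k i j : Fin 4) : |christoffel G' x k i j - christoffel G x k i j| ≤ 140 * κ := by
  have hx := mem_univ x
  have s0 : 0 < s := by linarith
  have η0 := jg_nonneg h
  have hd : η / s ≤ 1 / 100 := (div_le_self η0 hs).trans hη
  have b : ∀ l, |pderiv i (fun y => G y j l) x + pderiv j (fun y => G y i l) x -
      pderiv l (fun y => G y i j) x| ≤ 1 := fun l => by
    obtain ⟨a1, a2⟩ := abs_le.1 (jg_pd h one_le_two s0 i j l)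
    obtain ⟨a3, a4⟩ := abs_le.1 (jg_pd h one_le_two s0 j i l)
    obtain ⟨a5, a6⟩ := abs_le.1 (jg_pd h one_le_two s0 l i j)
    exact abs_le.2 ⟨by linarith, by linarith⟩
  have b' : ∀ l, |(pderiv i (fun y => G' y j l) x + pderiv j (fun y => G' y i l) x -
      pderiv l (fun y => G' y i j) x) - (pderiv i (fun y => G y j l) x +
      pderiv j (fun y => G y i l) x - pderiv l (fun y => G y i j) x)| ≤ 3 * κ := fun l => by
    obtain ⟨a1, a2⟩ := abs_le.1 (h1 i j l)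
    obtain ⟨a3, a4⟩ := abs_le.1 (h1 j i l)
    obtain ⟨a5, a6⟩ := abs_le.1 (h1 l i j)
    exact abs_le.2 ⟨by linarith, by linarith⟩
  have key := abs_mul_le (le_of_eq (abs_of_pos one_half_pos)) (sum4_le fun l =>
    (abs_add_le _ _).trans (add_le_add (abs_mul_le (inv_sub hG hG' h h' hη h0 k l) (b l))
      (abs_mul_le (jg_inv_le hG' hx h' hη k l) (b' l))))
  refine le_of_eq_of_le (congrArg _ ?_) (key.trans (le_of_eq (by ring)))
  simp only [christoffel, inverseField, ← mul_sub, ← Finset.sum_sub_distrib]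
  exact congrArg _ (Finset.sum_congr rfl fun l _ => by ring)

theorem ric_le (hG : IsRiemannianOn G univ) (h : JG 2 G x s η) (hη : η ≤ 1 / 10 ^ 6) (hs : 1 ≤ s)
    (i j : Fin 4) : |ricci G x i j| ≤ 1 := by
  have hx := mem_univ x
  rw [R202.Tens.ricci_eq_sum_riemann hG hx]
  refine (sum4_le fun k => jg_riemann hG hx h (by linarith) le_rfl (by linarith) k i k j).trans ?_
  have : η / s ^ 2 ≤ η := div_le_self (jg_nonneg h) (one_le_pow₀ hs)
  linarith

theorem j1_zero {f : E4 → ℝ} (h : J1 0 f x 1 κ) : |f x| ≤ κ := by simpa [J1] using h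

theorem j1_one {f : E4 → ℝ} (h : J1 1 f x 1 κ) (k : Fin 4) : |pderiv k f x| ≤ κ := by
  rw [J1, norm_iteratedFDeriv_one, one_pow, mul_one] at h
  refine le_trans ?_ h
  simpa [pderiv] using (fderiv ℝ f x).le_opNorm (EuclideanSpace.single k 1)

/-! ### the flat identity -/

variable {v W : Fin 4 → E4 → ℝ}

/-- the flux of the flat identity -/
def FX (v W : Fin 4 → E4 → ℝ) (a : Fin 4) (y : E4) : ℝ :=
  1 / 2 * ((∑ i, v i y * pderiv i (W a) y - v a y * ∑ j, pderiv j (W j) y) + y a * ∑ j, v j y * v j y)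

theorem sm_FX (hv : ∀ j, ContDiff ℝ ∞ (v j)) (hW : ∀ j, ContDiff ℝ ∞ (W j)) (a : Fin 4) :
    ContDiff ℝ ∞ (FX v W a) :=
  contDiff_const.mul (((ContDiff.sum fun i _ => (hv i).mul (sm_pderiv (hW a) i)).sub
    ((hv a).mul (ContDiff.sum fun j _ => sm_pderiv (hW j) j))).add
      ((contDiff_coord a).mul (ContDiff.sum fun j _ => (hv j).mul (hv j))))

theorem flat_div (hv : ∀ j, ContDiff ℝ ∞ (v j)) (hW : ∀ j, ContDiff ℝ ∞ (W j)) (x : E4) :
    ∑ a, pderiv a (FX v W a) x = 1 / 2 * (∑ i, ∑ j, pderiv j (v i) x * pderiv i (W j) x -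
      (∑ i, pderiv i (v i) x) * ∑ i, pderiv i (W i) x) +
      (2 * ∑ j, v j x ^ 2 + ∑ a, ∑ j, x a * v j x * pderiv a (v j) x) := by
  have d : ∀ {f : E4 → ℝ}, ContDiff ℝ ∞ f → DifferentiableAt ℝ f x := fun hf =>
    hf.differentiable (by simp) x
  have e : ∀ a, pderiv a (FX v W a) x = 1 / 2 * ((∑ i, (pderiv a (v i) x * pderiv i (W a) x +
      v i x * pderiv i (pderiv a (W a)) x) - (pderiv a (v a) x * ∑ j, pderiv j (W j) x +
        v a x * ∑ j, pderiv a (pderiv j (W j)) x)) + (∑ j, v j x * v j x +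
          x a * ∑ j, (pderiv a (v j) x * v j x + v j x * pderiv a (v j) x))) := fun a => by
    have s1 : ∀ i, ContDiff ℝ ∞ fun y => v i y * pderiv i (W a) y := fun i =>
      (hv i).mul (sm_pderiv (hW a) i)
    have s2 : ContDiff ℝ ∞ fun y => ∑ i, v i y * pderiv i (W a) y := ContDiff.sum fun i _ => s1 i
    have s3 : ContDiff ℝ ∞ fun y => ∑ j, pderiv j (W j) y :=
      ContDiff.sum fun j _ => sm_pderiv (hW j) j
    have s4 : ContDiff ℝ ∞ fun y => v a y * ∑ j, pderiv j (W j) y := (hv a).mul s3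
    have s5 : ∀ j, ContDiff ℝ ∞ fun y => v j y * v j y := fun j => (hv j).mul (hv j)
    have s6 : ContDiff ℝ ∞ fun y => ∑ j, v j y * v j y := ContDiff.sum fun j _ => s5 j
    have s7 : ContDiff ℝ ∞ fun y : E4 => y a * ∑ j, v j y * v j y := (contDiff_coord a).mul s6
    have s8 : ContDiff ℝ ∞ fun y => ∑ i, v i y * pderiv i (W a) y -
        v a y * ∑ j, pderiv j (W j) y := s2.sub s4
    unfold FX
    rw [pd_cmul, pd_add a (d s8) (d s7), pd_sub a (d s2) (d s4), pd_sum a _ fun i _ => d (s1 i),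
      pd_mul a (d (hv a)) (d s3), pd_sum a _ fun j _ => d (sm_pderiv (hW j) j),
      pderiv_coord_mul (d s6), if_pos rfl, pd_sum a _ fun j _ => d (s5 j)]
    simp only [fun i => pd_mul a (d (hv i)) (d (sm_pderiv (hW a) i)),
      fun j => pd_mul a (d (hv j)) (d (hv j)),
      fun i => pd_comm a i ((hW a).contDiffAt.of_le R247.Bo84.two_le_infty (x := x))]
  simp only [e, Fin.sum_univ_four]
  ring

theorem pd_W (hv : ∀ j, ContDiff ℝ ∞ (v j)) (x : E4) (a b : Fin 4) :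
    pderiv a (fun y => ‖y‖ ^ 2 * v b y) x = 2 * x a * v b x + ‖x‖ ^ 2 * pderiv a (v b) x := by
  rw [pd_mul a (hasFDerivAt_nsq x).differentiableAt ((hv b).differentiable (by simp) x)]
  congr 2
  rw [pderiv, (hasFDerivAt_nsq x).fderiv]
  simp [EuclideanSpace.inner_single_right]

theorem abs_coord (x : E4) (i : Fin 4) : |x i| ≤ ‖x‖ := by
  simpa using PiLp.norm_apply_le x i

/-- the pointwise inequality -/
theorem pt_ineq {Z : MetricField 4} {c0 : ℝ} (hc0 : 0 ≤ c0)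
    (hc : ∀ y : E4, ‖y‖ ≤ 2 → ∀ a, |pderiv a chi y| ≤ c0) (hG : IsRiemannianOn G univ)
    (hG' : IsRiemannianOn G' univ) (h : JG 2 G x (‖x‖ + 1) (1 / 10 ^ 6))
    (h' : JG 2 G' x (‖x‖ + 1) (1 / 10 ^ 6)) (hv : ∀ j, ContDiff ℝ ∞ (v j)) (hκ : 0 ≤ κ)
    (he : ∀ i j, ricci G' x i j = (1 / 2) * (pderiv i (v j) x + pderiv j (v i) x) +
      chi x * ricci G x i j + Z x i j)
    (h1 : ‖x‖ ≤ 2 → ∀ k ≤ 1, ∀ i j, J1 k (fun y => G' y i j - G y i j) x 1 κ)
    (h2 : 1 ≤ ‖x‖ → ‖x‖ ≤ 2 → ∀ i j, |ricci G x i j| ≤ κ) :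
    7 / 16 * (‖x‖ ^ 2 * ∑ i, ∑ j, pderiv i (v j) x ^ 2) ≤
      (33 / 16 * ∑ j, v j x ^ 2 + (10 ^ 7 * (‖x‖ ^ 2 * ∑ i, ∑ j, Z x i j ^ 2) +
        16 * (10 ^ 12 + (768 * c0) ^ 2) * κ ^ 2 * (closedBall (0 : E4) 2).indicator 1 x)) +
      (BW G' (fun j y => ‖y‖ ^ 2 * v j y) x - BW G (fun j y => chi y * (‖y‖ ^ 2 * v j y)) x -
        ∑ a, pderiv a (FX v (fun j y => ‖y‖ ^ 2 * v j y) a) x) := by
  have hx := mem_univ x
  have hW : ∀ j, ContDiff ℝ ∞ fun y : E4 => ‖y‖ ^ 2 * v j y := fun j => sm_nsq.mul (hv j)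
  have s0 : 0 < ‖x‖ + 1 := by positivity
  have s1 : 1 ≤ ‖x‖ + 1 := by linarith [norm_nonneg x]
  have hη : (1 / 10 ^ 6 : ℝ) ≤ 1 / 100 := by norm_num
  have hι : ‖x‖ ≤ 2 → (closedBall (0 : E4) 2).indicator (1 : E4 → ℝ) x = 1 := fun h =>
    indicator_of_mem (by simpa using h) _
  have e0 : 0 ≤ ‖x‖ ^ 2 * ∑ i, ∑ j, pderiv i (v j) x ^ 2 + ∑ j, v j x ^ 2 := by positivity
  have key := err_alg (H := (G x)⁻¹) (H' := (G' x)⁻¹) (Γ := christoffel G x)
    (Γ' := christoffel G' x) (R := ricci G x) (Z := Z x) (q := fun a b => pderiv a (v b) x)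
    (v := fun j => v j x) (x := fun i => x i) (c := fun a => pderiv a chi x) (χ := chi x)
    (ι := (closedBall (0 : E4) 2).indicator 1 x) (norm_nonneg x) (Real.sqrt_nonneg _) hκ hc0 le_rfl
    (indicator_nonneg (fun _ _ => zero_le_one) x)
    (by by_cases hb : x ∈ closedBall (0 : E4) 2 <;> simp [hb])
    (Real.sq_sqrt e0) (abs_coord x) (jg_inv_le hG hx h hη) (jg_inv_le hG' hx h' hη)
    (jg_inv hG' hx h' hη) (jg_chr hG hx h hη one_le_two s0) (jg_chr hG' hx h' hη one_le_two s0)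
    (ric_le hG h le_rfl s1) (abs_chi x)
    (by
      rcases le_total ‖x‖ 2 with hb | hb
      · have h0 := fun i j => j1_zero (h1 hb 0 zero_le_one i j)
        refine Or.inr ⟨hb, hι hb, inv_sub hG hG' h h' hη h0, chr_sub hG hG' h h' hη s1 h0
          fun k i j => ?_⟩
        rw [← pd_sub k (dAt (hG'.contDiffOn i j) isOpen_univ hx)
          (dAt (hG.contDiffOn i j) isOpen_univ hx)]
        exact j1_one (h1 hb 1 le_rfl i j) k
      · exact Or.inl (chi_zero hb))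
    (by
      rcases lt_or_ge ‖x‖ 1 with ha | ha
      · exact Or.inl (funext (pd_chi_in ha))
      rcases le_or_gt ‖x‖ 2 with hb | hb
      · exact Or.inr ⟨hb, hι hb, hc x hb, h2 ha hb⟩
      · exact Or.inl (funext (pd_chi_out hb)))
    (p := fun a b => pderiv a (fun y => ‖y‖ ^ 2 * v b y) x) (pd_W hv x)
    (w := fun m => ‖x‖ ^ 2 * v m x) (fun _ => rfl)
  have sp := split_alg (G x)⁻¹ (G' x)⁻¹ (christoffel G x) (christoffel G' x) (ricci G x) (Z x)
    (fun a b => pderiv a (v b) x) (fun a b => pderiv a (fun y => ‖y‖ ^ 2 * v b y) x)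
    (fun m => ‖x‖ ^ 2 * v m x) (fun a => pderiv a chi x) (chi x)
  have e1 : BW G' (fun j y => ‖y‖ ^ 2 * v j y) x = ∑ i, ∑ j, (1 / 2 * (pderiv i (v j) x +
      pderiv j (v i) x) + chi x * ricci G x i j + Z x i j) * Lop (G' x)⁻¹ (christoffel G' x)
      (fun a b => pderiv a (fun y => ‖y‖ ^ 2 * v b y) x) (fun m => ‖x‖ ^ 2 * v m x) i j := by
    simp only [BW, he]
  have e2 : BW G (fun j y => chi y * (‖y‖ ^ 2 * v j y)) x = ∑ i, ∑ j, ricci G x i j *
      Lop (G x)⁻¹ (christoffel G x) (fun a b => pderiv a chi x * (‖x‖ ^ 2 * v b x) +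
        chi x * pderiv a (fun y => ‖y‖ ^ 2 * v b y) x) (fun m => chi x * (‖x‖ ^ 2 * v m x)) i j := by
    simp only [BW, fun a b => pd_mul a (sm_chi.differentiable (by simp) x)
      ((hW b).differentiable (by simp) x)]
  have e3 : ∑ i, ∑ j, pderiv i (v j) x * pderiv i (fun y => ‖y‖ ^ 2 * v j y) x =
      ‖x‖ ^ 2 * ∑ i, ∑ j, pderiv i (v j) x ^ 2 + 2 * ∑ a, ∑ j, x a * v j x * pderiv a (v j) x := by
    simp only [pd_W hv, Fin.sum_univ_four]; ring
  rw [Real.sq_sqrt e0] at key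
  rw [e1, e2, sp, flat_div hv hW, e3]
  linarith

end Crest.Agent.N207.Ph.Ve

end
end

-- ▼ part N207/Ph/Ve
section

/-!
# Row 207, block PHI (helper66): the statement `VE`
-/

set_option autoImplicit false
set_option linter.unusedSectionVars false

open scoped ContDiff Topology
open Set MeasureTheory Filter Metric
open Crest.GeometryTopology.CoordMetric Crest.GeometryTopology.ChartCurvature
  Crest.GeometryTopology.MetricFamily

noncomputable section

namespace Crest.Agent.N207.Ph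

open Hd Sk Rad Ve

theorem Ve.ric_flat (x : E4) (i j : Fin 4) : ricci flat x i j = 0 := by
  have h : ∀ y a b c, christoffel flat y a b c = 0 := fun y a b c => by
    simp [christoffel, flat, pd_const]
  simp [ricci, h, pd_const]

theorem Ve.ric_out {G : MetricField 4} {R : ℝ} (h : ∀ x : E4, R ≤ ‖x‖ → G x = 1) {x : E4}
    (hx : R < ‖x‖) (i j : Fin 4) : ricci G x i j = 0 := by
  have : G =ᶠ[𝓝 x] flat := by
    filter_upwards [(isOpen_lt continuous_const continuous_norm).mem_nhds hx] with y hy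
      using h y (le_of_lt hy)
  rw [N207.ricci_congr this, Ve.ric_flat]

theorem Ve.sym_sq_le (q z : Fin 4 → Fin 4 → ℝ) : ∑ i, ∑ j, (1 / 2 * (q i j + q j i) + z i j) ^ 2 ≤
    2 * ∑ i, ∑ j, q i j ^ 2 + 2 * ∑ i, ∑ j, z i j ^ 2 := by
  have h1 : ∑ i, ∑ j, (1 / 2 * (q i j + q j i) + z i j) ^ 2 ≤
      ∑ i, ∑ j, (q i j ^ 2 + q j i ^ 2 + 2 * z i j ^ 2) :=
    Finset.sum_le_sum fun i _ => Finset.sum_le_sum fun j _ => by
      nlinarith [sq_nonneg (1 / 2 * (q i j + q j i) - z i j), sq_nonneg (q i j - q j i)]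
  refine h1.trans (le_of_eq ?_)
  simp only [Fin.sum_univ_four]; ring

theorem ve : VEStmt := by
  obtain ⟨c0, hc0, hc⟩ := exists_c0
  set K : ℝ := 16 * (10 ^ 12 + (768 * c0) ^ 2) with hK
  set m : ℝ := (volume : Measure E4).real (closedBall 0 2) with hm
  have m0 : 0 ≤ m := measureReal_nonneg
  refine ⟨1 / 10 ^ 6, 14 * (10 ^ 7 + K * m) + 2, by norm_num, by positivity, ?_⟩
  intro Γ G G' V Z κ hΓ hG hG' hs hs' hV ⟨R1, hR1⟩ hinv he h1 h2 hZ
  obtain ⟨R2, hR2⟩ := hG'.flat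
  set R : ℝ := max (max R1 R2) 2 with hR
  set v : Fin 4 → E4 → ℝ := fun j y => V y ![j] with hv
  have sv : ∀ j, ContDiff ℝ ∞ (v j) := fun j => sm_univ (hV ![j])
  have sv1 : ∀ j, ContDiff ℝ 1 (v j) := fun j => (sv j).of_le one_le
  have v0 : ∀ j (x : E4), R < ‖x‖ → v j x = 0 := fun j x hx => by
    simp only [hv, hR1 x (((le_max_left _ _).trans (le_max_left _ _)).trans hx.le), Pi.zero_apply]
  have q0 : ∀ i j (x : E4), R < ‖x‖ → pderiv i (v j) x = 0 := fun i j => pderiv_zero_out (v0 j) i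
  have cq : ∀ i j, Continuous (pderiv i (v j)) := fun i j => cont_pderiv (sv1 j) i
  have hκ : 0 ≤ κ := (abs_nonneg _).trans (j1_zero (h1 0 (by simp) 0 zero_le_one 0 0))
  have he' : ∀ x i j, ricci G' x i j = (1 / 2) * (pderiv i (v j) x + pderiv j (v i) x) +
      chi x * ricci G x i j + Z x i j := he
  have eZ : ∀ i j, (fun x => Z x i j) = fun x => ricci G' x i j -
      ((1 / 2) * (pderiv i (v j) x + pderiv j (v i) x) + chi x * ricci G x i j) := fun i j => by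
    funext x; rw [he']; ring
  have cR : ∀ i j, Continuous fun x => ricci G' x i j := fun i j =>
    (sm_univ (sm_ricci hG'.riem i j)).continuous
  have cZ : ∀ i j, Continuous fun x => Z x i j := fun i j => by
    rw [eZ]
    exact (cR i j).sub ((((cq i j).add (cq j i)).const_mul _).add
      (sm_chi.continuous.mul (sm_univ (sm_ricci hG.riem i j)).continuous))
  have r0 : ∀ i j (x : E4), R < ‖x‖ → ricci G' x i j = 0 := fun i j x hx =>
    Ve.ric_out hR2 (((le_max_right _ _).trans (le_max_left _ _)).trans_lt hx) i j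
  have Z0 : ∀ i j (x : E4), R < ‖x‖ → Z x i j = 0 := fun i j x hx => by
    rw [congrFun (eZ i j) x, r0 i j x hx, q0 i j x hx, q0 j i x hx,
      chi_zero ((le_max_right _ _).trans hx.le)]
    ring
  have isq : ∀ {A : Fin 4 → Fin 4 → E4 → ℝ}, (∀ i j, Continuous (A i j)) →
      (∀ i j (x : E4), R < ‖x‖ → A i j x = 0) →
      Integrable fun x : E4 => ‖x‖ ^ 2 * ∑ i, ∑ j, A i j x ^ 2 := fun hA h0 =>
    integrable_of_ball R ((continuous_norm.pow 2).mul (continuous_finsetSum _ fun i _ =>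
      continuous_finsetSum _ fun j _ => (hA i j).pow 2)) fun x hx => by simp [h0 _ _ x hx]
  have iD := isq cq q0
  have iZ := isq cZ Z0
  have iR := isq cR r0
  have iN1 : ∀ j, Integrable fun x => v j x ^ 2 := fun j =>
    integrable_sq (sv j).continuous (hcs_of_ball R (v0 j))
  have iN : Integrable fun x => ∑ j, v j x ^ 2 := integrable_finsetSum _ fun j _ => iN1 j
  have iι : Integrable ((closedBall (0 : E4) 2).indicator (1 : E4 → ℝ)) :=
    (integrable_indicator_iff measurableSet_closedBall).2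
      (integrableOn_const measure_closedBall_lt_top.ne)
  -- Hardy
  have hH : 7 * ∫ x, ∑ j, v j x ^ 2 ≤ ∫ x : E4, ‖x‖ ^ 2 * ∑ i, ∑ j, pderiv i (v j) x ^ 2 := by
    obtain ⟨γ, hγ, hf⟩ := exists_free hΓ.ne hΓ.free
    have h7 : ∀ j, 7 * ∫ x, v j x ^ 2 ≤ ∫ x : E4, ‖x‖ ^ 2 * g2 (v j) x := fun j =>
      hardy7 (sv1 j) (hcs_of_ball R (v0 j)) fun r hr => M0_of_pull hf hr
        (fun I => (sm_univ (hV I)).continuous.comp (continuous_subtype_val.const_smul r))
        (fun x _ => hinv γ hγ x) ![j]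
    rw [integral_finsetSum _ fun j _ => iN1 j, Finset.mul_sum]
    refine (Finset.sum_le_sum fun j _ => h7 j).trans (le_of_eq ?_)
    rw [← integral_finsetSum _ fun j _ => integrable_wg2 (sv1 j) (hcs_of_ball R (v0 j))]
    refine integral_congr_ae (Eventually.of_forall fun x => ?_)
    simp only [g2, Fin.sum_univ_four]; ring
  -- the null terms
  have sW : ∀ j, ContDiff ℝ ∞ fun y : E4 => ‖y‖ ^ 2 * v j y := fun j => sm_nsq.mul (sv j)
  obtain ⟨i1, e1⟩ := bianchi_weak hG'.riem sW R fun j x hx => by simp [v0 j x hx]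
  obtain ⟨i2, e2⟩ := bianchi_weak (W := fun j y => chi y * (‖y‖ ^ 2 * v j y)) hG.riem
    (fun j => sm_chi.mul (sW j)) R fun j x hx => by simp [v0 j x hx]
  obtain ⟨i3, e3⟩ := int_div R (sm_FX sv sW) fun a x hx => by simp [FX, v0 _ x hx]
  have i4 : Integrable fun x => BW G' (fun j y => ‖y‖ ^ 2 * v j y) x -
      BW G (fun j y => chi y * (‖y‖ ^ 2 * v j y)) x := i1.sub i2
  have i5 : Integrable fun x : E4 => 10 ^ 7 * (‖x‖ ^ 2 * ∑ i, ∑ j, Z x i j ^ 2) +
      K * κ ^ 2 * (closedBall (0 : E4) 2).indicator 1 x := (iZ.const_mul _).add (iι.const_mul _)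
  have key := int_le_of (iD.const_mul (7 / 16)) ((iN.const_mul (33 / 16)).add i5) (i4.sub i3)
    (by
      simp only [Pi.sub_apply]
      rw [integral_sub i4 i3, integral_sub i1 i2, e1, e2, e3]; ring)
    fun x => pt_ineq hc0 hc hG.riem hG'.riem (hs x) (hs' x) sv hκ (he' x) (h1 x) (h2 x)
  simp only [Pi.add_apply] at key
  rw [integral_add (iN.const_mul _) i5, integral_add (iZ.const_mul _) (iι.const_mul _),
    integral_const_mul, integral_const_mul, integral_const_mul, integral_const_mul,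
    integral_indicator_one measurableSet_closedBall, ← hm] at key
  have hms : MeasurableSet {x : E4 | 2 ≤ ‖x‖} :=
    (isClosed_le continuous_const continuous_norm).measurableSet
  have i6 : Integrable fun x : E4 => 2 * (‖x‖ ^ 2 * ∑ i, ∑ j, pderiv i (v j) x ^ 2) +
      2 * (‖x‖ ^ 2 * ∑ i, ∑ j, Z x i j ^ 2) := (iD.const_mul _).add (iZ.const_mul _)
  have fin : RL G' 2 ≤ ∫ x : E4, (2 * (‖x‖ ^ 2 * ∑ i, ∑ j, pderiv i (v j) x ^ 2) +
      2 * (‖x‖ ^ 2 * ∑ i, ∑ j, Z x i j ^ 2)) := by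
    refine (setIntegral_mono_on iR.integrableOn i6.integrableOn hms fun x hx => ?_).trans
      (setIntegral_le_integral i6 (Eventually.of_forall fun x => by positivity))
    have := mul_le_mul_of_nonneg_left (Ve.sym_sq_le (fun i j => pderiv i (v j) x) (Z x))
      (sq_nonneg ‖x‖)
    simp only [he' x, chi_zero hx, zero_mul, add_zero]
    linarith
  rw [integral_add (iD.const_mul _) (iZ.const_mul _), integral_const_mul, integral_const_mul] at fin
  nlinarith

end Crest.Agent.N207.Ph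

end
end

-- ▼ part N207/Ph/Ws2
section

/-!
# Row 207, block PHI (helper89): the time step `WS`, file 2: the glued family in the chart
-/

set_option autoImplicit false
set_option linter.unusedSectionVars false

open scoped ContDiff Manifold Topology
open Set MeasureTheory Filter Metric
open Crest.GeometryTopology.CoordMetric Crest.GeometryTopology.ChartCurvature
  Crest.GeometryTopology.MetricFamily
open Crest.Agent.R247

noncomputable section

namespace Crest.Agent.N207.Ph.Ws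

open Sk U

theorem ftc_abs {g g' φ b : ℝ → ℝ} {a c : ℝ} (hac : a ≤ c) (hc : ContinuousOn g (Icc a c))
    (hd : ∀ s ∈ Ioo a c, HasDerivAt g (g' s) s) (hφ : IntervalIntegrable φ volume a c)
    (hb : IntervalIntegrable b volume a c) (h : ∀ s ∈ Ioo a c, |g' s - φ s| ≤ b s) :
    |g c - g a - ∫ s in a..c, φ s| ≤ ∫ s in a..c, b s := by
  have h1 := intervalIntegral.sub_le_integral_of_hasDeriv_right_of_le hac hc
    (fun s hs => (hd s hs).hasDerivWithinAt) (φ := fun s => φ s + b s)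
    ((intervalIntegrable_iff_integrableOn_Icc_of_le hac).1 (hφ.add hb))
    fun s hs => by linarith [(abs_le.1 (h s hs)).2]
  have h2 := intervalIntegral.integral_le_sub_of_hasDeriv_right_of_le hac hc
    (fun s hs => (hd s hs).hasDerivWithinAt) (φ := fun s => φ s - b s)
    ((intervalIntegrable_iff_integrableOn_Icc_of_le hac).1 (hφ.sub hb))
    fun s hs => by linarith [(abs_le.1 (h s hs)).1]
  rw [intervalIntegral.integral_add hφ hb] at h1
  rw [intervalIntegral.integral_sub hφ hb] at h2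
  exact abs_le.2 ⟨by linarith, by linarith⟩

theorem sq_int_le {e : ℝ → ℝ} {a c : ℝ} (hac : a < c) (h1 : IntervalIntegrable e volume a c)
    (h2 : IntervalIntegrable (fun s => e s ^ 2) volume a c) :
    (∫ s in a..c, e s) ^ 2 ≤ (c - a) * ∫ s in a..c, e s ^ 2 := by
  set m := (∫ s in a..c, e s) / (c - a) with hm
  have h0 : 0 < c - a := sub_pos.2 hac
  have h3 : 0 ≤ ∫ s in a..c, (e s ^ 2 - 2 * m * e s + m ^ 2) :=
    intervalIntegral.integral_nonneg hac.le fun s _ => by nlinarith [sq_nonneg (e s - m)]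
  rw [intervalIntegral.integral_add (h2.sub (h1.const_mul _)) intervalIntegrable_const,
    intervalIntegral.integral_sub h2 (h1.const_mul _), intervalIntegral.integral_const_mul,
    intervalIntegral.integral_const, smul_eq_mul] at h3
  have h4 : (∫ s in a..c, e s) = m * (c - a) := by rw [hm]; field_simp
  rw [h4] at h3 ⊢
  nlinarith

/-- the weight of the chart part of the action -/
def ph (y : E4) : ℝ := up 4 8 y - up 26 28 y

/-- it vanishes outside this set -/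
def KK : Set E4 := {y | 4 ≤ ‖y‖ ∧ ‖y‖ ≤ 28}

theorem ph_cd : ContDiff ℝ ∞ ph := (up_cd _ _).sub (up_cd _ _)

theorem ph_zero {y : E4} (h : y ∉ KK) : ph y = 0 := by
  rcases not_and_or.1 h with h | h
  · rw [ph, up_zero (by norm_num) (by norm_num) (not_le.1 h).le,
      up_zero (by norm_num) (by norm_num) (by linarith), sub_self]
  · rw [ph, up_one (by norm_num) (by norm_num) (by linarith),
      up_one (by norm_num) (by norm_num) (not_le.1 h).le, sub_self]

theorem ph_abs (y : E4) : |ph y| ≤ 1 := abs_le.2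
  ⟨by linarith [up_nonneg 4 8 y, up_le_one 26 28 y, show ph y = _ - _ from rfl],
    by linarith [up_nonneg 26 28 y, up_le_one 4 8 y, show ph y = _ - _ from rfl]⟩

theorem KK_cpt : IsCompact KK := (isCompact_closedBall (0 : E4) 28).of_isClosed_subset
  ((isClosed_le continuous_const continuous_norm).inter
    (isClosed_le continuous_norm continuous_const)) fun y hy => by simpa using hy.2

theorem KK_sub : KK ⊆ shell (1 / 2) 32 := fun _ hy => ⟨by linarith [hy.1], by linarith [hy.2]⟩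

theorem int_ph {f : E4 → ℝ} (hf : ContinuousOn f (shell (1 / 2) 32)) :
    Integrable fun y => ph y * f y :=
  ((ph_cd.continuous.continuousOn.mul (hf.mono KK_sub)).integrableOn_compact
    KK_cpt).integrable_of_forall_notMem_eq_zero fun y hy => by
      rw [Pi.mul_apply, ph_zero hy, zero_mul]

theorem set_ph (f : E4 → ℝ) : ∫ y in KK, ph y * f y = ∫ y, ph y * f y :=
  setIntegral_eq_integral_of_forall_compl_eq_zero fun y hy => by rw [ph_zero hy, zero_mul]

/-- a rescaled Ricci flow on the shell, and a fixed exterior metric -/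
structure Fam (J : Set ℝ) (κ : ℝ) (r : ℝ → MetricField 4) (G : MetricField 4) : Prop where
  op : IsOpen J
  fam : CFam r J (shell (1 / 2) 32)
  rf : ∀ t ∈ J, ∀ y ∈ shell (1 / 2) 32, ∀ i j,
    HasDerivAt (fun s => r s y i j) (-2 * κ * ricci (r t) y i j) t
  riem : IsRiemannianOn G univ

/-- the velocity -/
def hv (κ : ℝ) (g : MetricField 4) : Tn 4 2 := vel ((-2 * κ) • ricT g)

/-- the quadratic error term -/
def er (P : MetricField 4) (h : Tn 4 2) (y : E4) : ℝ :=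
  √(P y).det * (-ip P (ricT P) h y + 1 / 2 * trF P h y * scalarCurv P y)

/-- the flux 1-form -/
def fx (P : MetricField 4) (h : Tn 4 2) : Tn 4 1 := divT P h - dT (trF P h)

namespace Fam

variable {J : Set ℝ} {κ : ℝ} {r : ℝ → MetricField 4} {G : MetricField 4} (F : Fam J κ r G)
  {t : ℝ} {y : E4}
include F

theorem cfam : CFam (fun s => glu 16 24 (r s) G) J (shell (1 / 2) 32) :=
  ⟨F.fam.isOpen, fun i j => (F.fam.sm i j).add ((st_const (up_cd 16 24).contDiffOn).mul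
    ((st_const ((F.riem.contDiffOn i j).mono (subset_univ _))).sub (F.fam.sm i j))),
    fun t ht y hy => glu_pos (F.fam.pos t ht y hy) (F.riem.posDef y (mem_univ y))⟩

theorem var (ht : t ∈ J) (m : ℕ) :
    Var univ t (shell (1 / 2) 32) m (fun s => glu 16 24 (r s) G) (hv κ (r t)) := by
  have v := F.cfam.var F.op ht univ m
  have e : ∀ z ∈ shell (1 / 2) 32, ∀ i j, hv κ (r t) z ![i, j] =
      dtT (fun s => matT (glu 16 24 (r s) G)) t z ![i, j] := fun z hz i j => by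
    have h1 := F.rf t ht z hz i j
    have h2 := (h1.add ((h1.const_sub (G z i j)).const_mul (up 16 24 z))).deriv
    refine Eq.trans ?_ h2.symm
    simp only [hv, vel, smT, ricT, Pi.smul_apply, smul_eq_mul, Matrix.cons_val_zero,
      Matrix.cons_val_one]
    ring
  exact ⟨v.riem, v.ev, fun i j => (v.jd i j).congr' fun z hz => e z hz i j,
    fun z hz i j => by rw [e z hz, e z hz, v.symm z hz]⟩

theorem smT_fx (ht : t ∈ J) :
    SmT (fx (glu 16 24 (r t) G) (hv κ (r t))) (shell (1 / 2) 32) :=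
  ((F.var ht 0).smT.divT (F.cfam.riem ht)).sub
    (SmT.dT F.fam.isOpen (sm_trF (F.cfam.riem ht) (F.var ht 0).smT))

theorem d_lg (ht : t ∈ J) (hy : y ∈ shell (1 / 2) 32) :
    HasDerivAt (fun s => lg (glu 16 24 (r s) G) y)
      (√(glu 16 24 (r t) G y).det * divT (glu 16 24 (r t) G)
        (fx (glu 16 24 (r t) G) (hv κ (r t))) y ![] + er (glu 16 24 (r t) G) (hv κ (r t)) y) t := by
  have v := F.var ht 2
  have hU := F.fam.isOpen
  have hs := sm_trF v.riem v.smT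
  refine (hasDerivWithinAt_univ.1 ((v.sqrt_det hy).mul (v.scal.d hy))).congr_deriv ?_
  rw [fx, divT_sub ((v.smT.divT v.riem).dAt hU hy) ((SmT.dT hU hs).dAt hU hy), Pi.sub_apply,
    ← lapB_eq_divT v.riem hy (c2At hs hU hy), er, dScal]
  ring

theorem d_int {a b : ℝ} (hJ : Icc a b ⊆ J) (ht : t ∈ Icc a b) :
    HasDerivWithinAt (fun s => ∫ y, ph y * lg (glu 16 24 (r s) G) y)
      (∫ y, ph y * deriv (fun s => lg (glu 16 24 (r s) G) y) t) (Icc a b) t := by
  have h1 : St (fun s => lg (glu 16 24 (r s) G)) J (shell (1 / 2) 32) :=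
    F.cfam.st_sqrt_det.mul F.cfam.st_scal
  obtain ⟨C, hC⟩ := (isCompact_Icc.prod KK_cpt).exists_bound_of_continuousOn
    ((st_deriv F.op h1).continuousOn.mono (prod_mono hJ KK_sub))
  have : IsFiniteMeasure (volume.restrict KK) := ⟨by simpa using KK_cpt.measure_lt_top⟩
  simp only [← set_ph]
  refine V.hasDerivWithinAt_integral (C := |C|) (F' := fun t y =>
    ph y * deriv (fun s => lg (glu 16 24 (r s) G) y) t) (convex_Icc a b) ht
    (fun s hs => (int_ph (st_slice h1 (hJ hs)).continuousOn).integrableOn) (fun s hs x => ?_)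
    fun s hs x => ?_
  · by_cases hx : x ∈ KK
    · exact ((F.d_lg (hJ hs) (KK_sub hx)).differentiableAt.hasDerivAt.const_mul
        _).hasDerivWithinAt
    · simpa [ph_zero hx] using hasDerivWithinAt_const s (Icc a b) (0 : ℝ)
  · by_cases hx : x ∈ KK
    · rw [abs_mul]
      exact (mul_le_of_le_one_left (abs_nonneg _) (ph_abs x)).trans
        ((hC (s, x) ⟨hs, hx⟩).trans (le_abs_self C))
    · simp [ph_zero hx]

/-- the flux through the inner transition region -/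
theorem flux (ht : t ∈ J) (y : E4) :
    √(glu 16 24 (r t) G y).det *
        ip (glu 16 24 (r t) G) (dT ph) (fx (glu 16 24 (r t) G) (hv κ (r t))) y =
      κ * (√(r t y).det * Bo84.gam (r t) (up 4 8) (scalarCurv (r t)) y) := by
  have z1 : ∀ {f : E4 → ℝ} {c : ℝ}, (f =ᶠ[𝓝 y] fun _ => c) → ∀ i, pderiv i f y = 0 :=
    fun h i => by rw [pd_congr i h, pd_const]
  have hi : 8 < ‖y‖ → Bo84.gam (r t) (up 4 8) (scalarCurv (r t)) y = 0 := fun h => by
    simp [Bo84.gam, z1 ((ev_gt h).mono fun z hz => up_one (a := 4) (by norm_num) (by norm_num)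
      hz.le)]
  rcases lt_or_ge ‖y‖ 4 with c | c
  · have e1 := z1 ((ev_lt c).mono fun z hz => ph_zero fun h => absurd h.1 (not_le.2 hz))
    have e2 := z1 ((ev_lt c).mono fun z hz => up_zero (b := 8) (by norm_num) (by norm_num) hz.le)
    simp [ip, ipA_one, dT, Bo84.gam, e1, e2]
  rcases lt_or_ge ‖y‖ 16 with c1 | c1
  · have hy : y ∈ shell (1 / 2) 32 := ⟨by linarith, by linarith⟩
    have hr := F.fam.riem ht
    have e1 : glu 16 24 (r t) G =ᶠ[𝓝 y] r t := glu_lo_ev (by norm_num) (by norm_num) c1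
    have e2 : hv κ (r t) =ᶠ[𝓝 y] (-2 * κ) • ricT (r t) := (ev_lt c1).mono fun z hz => by
      funext I
      simp [hv, vel, smT, up_zero (a := 16) (b := 24) (by norm_num) (by norm_num) hz.le]
    have e3 : ph =ᶠ[𝓝 y] up 4 8 := (ev_lt c1).mono fun z hz => by
      rw [ph, up_zero (a := 26) (by norm_num) (by norm_num) (by linarith), sub_zero]
    have e4 : trF (glu 16 24 (r t) G) (hv κ (r t)) =ᶠ[𝓝 y]
        fun z => -2 * κ * scalarCurv (r t) z := (trT_congr e1 e2).mono fun z hz => by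
      rw [trF, hz]
      simp only [trT, scalarCurv, Finset.mul_sum, Pi.smul_apply, smul_eq_mul, ricT]
      exact Finset.sum_congr rfl fun _ _ => Finset.sum_congr rfl fun _ _ => by
        simp only [Fin.cons_zero, Fin.cons_one]; ring
    have e5 : ∀ b, fx (glu 16 24 (r t) G) (hv κ (r t)) y ![b] =
        κ * pderiv b (scalarCurv (r t)) y := fun b => by
      have h1 : 2 * divT (r t) (ricT (r t)) y ![b] = _ := A.two_div_ric hr hy b
      have h2 : dT (trF (glu 16 24 (r t) G) (hv κ (r t))) y ![b] =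
          -2 * κ * pderiv b (scalarCurv (r t)) y := by
        rw [(dT_congr e4).eq_of_nhds]; exact pd_cmul b _
      rw [fx, Pi.sub_apply, Pi.sub_apply, (divT_congr e1 e2).eq_of_nhds, divT_smul, h2, ← h1]
      simp only [Pi.smul_apply, smul_eq_mul]
      ring
    rw [ip, ipA_one, e1.eq_of_nhds, (dT_congr e3).eq_of_nhds]
    simp only [e5, Bo84.gam, inverseField, Finset.mul_sum, dT, Matrix.cons_val_zero]
    exact Finset.sum_congr rfl fun _ _ => Finset.sum_congr rfl fun _ _ => by ring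
  rw [hi (by linarith)]
  rcases lt_or_ge ‖y‖ 26 with c2 | c2
  · have e1 := z1 (f := ph) (c := 1) (((ev_lt c2).and
      (ev_gt (show 8 < ‖y‖ by linarith))).mono fun z hz => by
      rw [ph, up_zero (a := 26) (by norm_num) (by norm_num) hz.1.le,
        up_one (by norm_num) (by norm_num) hz.2.le, sub_zero])
    simp [ip, ipA_one, dT, e1]
  · have e2 : hv κ (r t) =ᶠ[𝓝 y] 0 := (ev_gt (show 24 < ‖y‖ by linarith)).mono fun z hz => by
      funext I
      simp [hv, vel, smT, up_one (a := 16) (b := 24) (by norm_num) (by norm_num) hz.le]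
    have e4 : trF (glu 16 24 (r t) G) (hv κ (r t)) =ᶠ[𝓝 y] fun _ => 0 :=
      e2.mono fun z hz => by simp [trF, trT, hz]
    have e5 : ∀ b, fx (glu 16 24 (r t) G) (hv κ (r t)) y ![b] = 0 := fun b => by
      rw [fx, Pi.sub_apply, Pi.sub_apply, (divT_congr EventuallyEq.rfl e2).eq_of_nhds, divT,
        cov_zero]
      simp [trT, dT, z1 e4]
    simp [ip, ipA_one, e5]

theorem d_int' {a b : ℝ} (hJ : Icc a b ⊆ J) (ht : t ∈ Icc a b) :
    HasDerivWithinAt (fun s => ∫ y, ph y * lg (glu 16 24 (r s) G) y)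
      (-(κ * ∫ y, √(r t y).det * Bo84.gam (r t) (up 4 8) (scalarCurv (r t)) y) +
        ∫ y, ph y * er (glu 16 24 (r t) G) (hv κ (r t)) y) (Icc a b) t := by
  have hr := F.cfam.riem (hJ ht)
  have hs := (F.var (hJ ht) 0).smT
  have hK : tsupport ph ⊆ KK := closure_minimal
    (fun y hy => by_contra fun h => hy (ph_zero h)) KK_cpt.isClosed
  have h1 := V.ibp_coord hr (F.smT_fx (hJ ht)) (ph_cd.of_le (kle 1)).locallyLipschitz
    (KK_cpt.of_isClosed_subset (isClosed_tsupport _) hK) (hK.trans KK_sub)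
  simp only [F.flux (hJ ht), integral_const_mul, mul_left_comm _ (ph _)] at h1
  refine (F.d_int hJ ht).congr_deriv ?_
  have h2 : ContinuousOn (er (glu 16 24 (r t) G) (hv κ (r t))) (shell (1 / 2) 32) :=
    ((sm_sqrt_det hr).mul (((SmT.ricT hr).ip hr hs).neg.add ((contDiffOn_const.mul
      (sm_trF hr hs)).mul (sm_scal hr)))).continuousOn
  rw [← h1, ← integral_add (int_ph ((sm_sqrt_det hr).mul
    ((F.smT_fx (hJ ht)).divT hr ![])).continuousOn) (int_ph h2)]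
  refine integral_congr_ae (Eventually.of_forall fun y => ?_)
  by_cases hy : y ∈ KK
  · simp only [(F.d_lg (hJ ht) (KK_sub hy)).deriv, mul_add]
  · simp [ph_zero hy]

end Fam

theorem core : ∃ C : ℝ, 0 < C ∧ ∀ {J : Set ℝ} {κ : ℝ} {r : ℝ → MetricField 4} {G : MetricField 4},
    Fam J κ r G → ∀ {a b D e0 : ℝ} {e : ℝ → ℝ}, 0 < κ → a < b → Icc a b ⊆ J → 0 ≤ D →
    IntervalIntegrable e volume a b → (∀ s ∈ Ioo a b, 0 ≤ e s) →
    (∀ s ∈ Icc a b, IsRiemannianOn (glu 16 24 (r s) G) univ ∧ Sml 2 (glu 16 24 (r s) G) (1 / 8)) →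
    (∀ s ∈ Ioo a b, ∀ y : E4, 1 ≤ ‖y‖ → ‖y‖ ≤ 28 → ∀ k ≤ 2, ∀ i j,
      J1 k (fun z => ricci (r s) z i j) y 1 (D * e s)) →
    (∀ y : E4, 1 ≤ ‖y‖ → ‖y‖ ≤ 28 → ∀ i j, |ricci (glu 16 24 (r a) G) y i j| ≤ e0) →
    (∀ s ∈ Icc a b, ∀ y : E4, 1 ≤ ‖y‖ → ‖y‖ ≤ 28 → ∀ i j,
      |ricci (glu 16 24 (r s) G) y i j| ≤ e0 + C * D * (κ * ∫ s in a..b, e s)) ∧
    ∀ s ∈ Ioo a b, |∫ y, ph y * er (glu 16 24 (r s) G) (hv κ (r s)) y| ≤
      κ * (C * D * (e s * (e0 + C * D * (κ * ∫ s in a..b, e s)))) := by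
  obtain ⟨C, hC, h⟩ := est
  have hv0 : 0 ≤ volume.real KK := measureReal_nonneg
  refine ⟨2 * C * (1 + volume.real KK), by positivity, fun {J κ r G} F {a b D e0 e} hκ hab hJ hD
    hi he hP hj h0 => ?_⟩
  have key : ∀ s ∈ Ioo a b, ∀ y : E4, 1 ≤ ‖y‖ → ‖y‖ ≤ 28 → ∀ Y,
      (∀ i j, |ricci (glu 16 24 (r s) G) y i j| ≤ Y) →
      (∀ i j, |dRic (glu 16 24 (r s) G) (hv κ (r s)) y ![i, j]| ≤ C * (2 * κ * (D * e s))) ∧
      |er (glu 16 24 (r s) G) (hv κ (r s)) y| ≤ C * (2 * κ * (D * e s) * Y) := by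
    intro s hs y y1 y2 Y hY
    have hs' := Ioo_subset_Icc_self hs
    have hc : ∀ i j, ContDiffAt ℝ ∞ (fun z => ricci (r s) z i j) y := fun i j =>
      (sm_ricci (F.fam.riem (hJ hs')) i j).contDiffAt
        (F.fam.isOpen.mem_nhds ⟨by linarith, by linarith⟩)
    have := he s hs
    refine h ⟨_, y, (-2 * κ) • ricT (r s), 2 * κ * (D * e s), Y, (hP s hs').1, by linarith,
      Sml.one (hP s hs').2 y, fun I => contDiffAt_const.mul (hc _ _), by positivity,
      fun k hk I => ?_, hY⟩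
    have h1 := norm_itd_cmul (hc (I 0) (I 1)) (-2 * κ) k
    rw [show |-2 * κ| = 2 * κ by rw [abs_of_neg (by linarith)]; ring] at h1
    refine le_trans (le_of_eq ?_) (mul_le_mul_of_nonneg_left (hj s hs y y1 y2 k hk (I 0) (I 1))
      (by positivity : 0 ≤ 2 * κ))
    rw [← mul_assoc, ← h1]; rfl
  have hae : 0 ≤ᵐ[volume.restrict (Ioc a b)] e := by
    rw [← restrict_Ioo_eq_restrict_Ioc]
    exact (ae_restrict_mem measurableSet_Ioo).mono he
  have hI : 0 ≤ ∫ s in a..b, e s := by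
    rw [intervalIntegral.integral_of_le hab.le]; exact integral_nonneg_of_ae hae
  have h1 : ∀ s ∈ Icc a b, ∀ y : E4, 1 ≤ ‖y‖ → ‖y‖ ≤ 28 → ∀ i j,
      |ricci (glu 16 24 (r s) G) y i j| ≤
        e0 + 2 * C * (1 + volume.real KK) * D * (κ * ∫ s in a..b, e s) := by
    intro s hs y y1 y2 i j
    have hy : y ∈ shell (1 / 2) 32 := ⟨by linarith, by linarith⟩
    have hd : ∀ σ ∈ Icc a s, HasDerivAt (fun σ => ricci (glu 16 24 (r σ) G) y i j)
        (dRic (glu 16 24 (r σ) G) (hv κ (r σ)) y ![i, j]) σ := fun σ hσ =>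
      hasDerivWithinAt_univ.1 (((F.var (hJ ⟨hσ.1, hσ.2.trans hs.2⟩) 2).ricci i j).d hy)
    have hi' : IntervalIntegrable e volume a s := hi.mono_set (by
      rw [uIcc_of_le hs.1, uIcc_of_le hab.le]; exact Icc_subset_Icc_right hs.2)
    have hb : ∀ σ ∈ Ioo a s, |dRic (glu 16 24 (r σ) G) (hv κ (r σ)) y ![i, j] - 0| ≤
        2 * C * D * κ * e σ := fun σ hσ => by
      obtain ⟨Y, hY⟩ := (Set.finite_range fun p : Fin 4 × Fin 4 =>
        |ricci (glu 16 24 (r σ) G) y p.1 p.2|).bddAbove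
      have := (key σ ⟨hσ.1, hσ.2.trans_le hs.2⟩ y y1 y2 Y fun i j => hY ⟨(i, j), rfl⟩).1 i j
      rw [sub_zero]; linarith
    have h2 := ftc_abs (φ := fun _ => 0) (b := fun σ => 2 * C * D * κ * e σ) hs.1
      (fun σ hσ => (hd σ hσ).continuousAt.continuousWithinAt)
      (fun σ hσ => hd σ (Ioo_subset_Icc_self hσ)) intervalIntegrable_const (hi'.const_mul _) hb
    have h3 : ∫ σ in a..s, e σ ≤ ∫ σ in a..b, e σ :=
      intervalIntegral.integral_mono_interval le_rfl hs.1 hs.2 hae hi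
    rw [intervalIntegral.integral_zero, sub_zero, intervalIntegral.integral_const_mul] at h2
    have h4 := mul_le_mul_of_nonneg_left h3 (by positivity : 0 ≤ 2 * C * D * κ)
    have h5 : 0 ≤ 2 * C * volume.real KK * D * (κ * ∫ s in a..b, e s) := by positivity
    have h6 := h0 y y1 y2 i j
    have h7 := abs_sub_abs_le_abs_sub (ricci (glu 16 24 (r s) G) y i j)
      (ricci (glu 16 24 (r a) G) y i j)
    nlinarith
  refine ⟨h1, fun s hs => ?_⟩
  generalize e0 + 2 * C * (1 + volume.real KK) * D * (κ * ∫ s in a..b, e s) = Y at h1 ⊢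
  have hY : 0 ≤ Y := (abs_nonneg _).trans (h1 a ⟨le_rfl, hab.le⟩ (EuclideanSpace.single 0 1)
    (by simp) (by simp) 0 0)
  have := he s hs
  rw [← set_ph]
  refine (norm_setIntegral_le_of_norm_le_const (μ := volume) (C := C * (2 * κ * (D * e s) * Y))
    (f := fun y => ph y * er (glu 16 24 (r s) G) (hv κ (r s)) y)
    KK_cpt.measure_lt_top fun y hy => ?_).trans ?_
  · rw [Real.norm_eq_abs, abs_mul]
    exact (mul_le_of_le_one_left (abs_nonneg _) (ph_abs y)).trans (key s hs y (by linarith [hy.1])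
      hy.2 Y (h1 s (Ioo_subset_Icc_self hs) y (by linarith [hy.1]) hy.2)).2
  · have : 0 ≤ κ * (2 * C * D * (e s * Y)) := by positivity
    nlinarith

end Crest.Agent.N207.Ph.Ws

end
end

-- ▼ part N207/Ph/Ws3
section

/-!
# Row 207, block PHI (helper89): the time step `WS`, file 3: the part on `M`; `MC`
-/

set_option autoImplicit false
set_option linter.unusedSectionVars false

open scoped ContDiff Manifold Topology
open Set MeasureTheory Filter Metric
open Crest.GeometryTopology.CoordMetric Crest.GeometryTopology.ChartCurvature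
  Crest.GeometryTopology.MetricFamily
open Crest.Agent.R247

noncomputable section

namespace Crest.Agent.N207.Ph

open Sk U

variable {M : Type*} [TopologicalSpace M] [ChartedSpace E4 M] [IsManifold 𝓘(ℝ, E4) ∞ M]
  [CompactSpace M] [T3Space M] [ConnectedSpace M] [MeasurableSpace M] [BorelSpace M]

theorem mcW {F : Flow M} (hB : Base F) : MCStmt F := by
  intro A hA t ht
  have hT := ht.2
  have h0 := ht.1
  have st : F.hc.St (t / 2) ((t + F.T) / 2) :=
    ⟨by linarith, by linarith, show _ < F.T by linarith⟩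
  have hF : SmST 4 (fun s x => V.rho (F.m t) (F.m s) x * (F.m s).rc 0 x)
      (Icc (t / 2) ((t + F.T) / 2)) := V.SmST.mul (V.smST_rho (F.sm.mono' fun s hs =>
        ⟨by linarith [hs.1], by linarith [hs.2]⟩) (F.m t)) (hB.ok.alg.sm_Q 0 st)
  obtain ⟨C, hC⟩ := V.SmST.bdd hF isCompact_Icc
  have := V.isFinite (F.m t)
  have e : (fun s => mass (F.m s) A) = fun s =>
      ∫ x in A, V.rho (F.m t) (F.m s) x * (F.m s).rc 0 x ∂(F.m t).vol := by
    funext s
    rw [mass, ← integral_indicator hA, V.integral_rho (F.m t), ← integral_indicator hA]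
    refine integral_congr_ae (Eventually.of_forall fun x => ?_)
    by_cases hx : x ∈ A <;> simp [hx]
  rw [e]
  refine ((continuousOn_of_dominated (bound := fun _ => C) (fun s hs =>
    (V.integrable_cont (F.m t) (V.SmST.sm hF hs).continuous).integrableOn.aestronglyMeasurable)
    (fun s hs => Eventually.of_forall (hC s hs)) (integrable_const C)
    (Eventually.of_forall fun x s hs =>
      (V.SmST.hasDerivWithinAt hF hs x).continuousWithinAt)).continuousAt
    (Icc_mem_nhds (by linarith) (by linarith))).continuousWithinAt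

namespace Ws

/-- the neck in the units `u` -/
def nu (N : Nk M) (u : ℝ) : Nk M := N.rs u 1 N.Γ

/-- the cutoff on `M` -/
def chi (N : Nk M) (p : M) : ℝ :=
  1 - Real.smoothTransition ((N.rad p ^ 2 - 4 ^ 2) / (8 ^ 2 - 4 ^ 2))

variable {N : Nk M} {ρ : ℝ} {g : Met 4 M} {G : MetricField 4} {y : E4} {p : M}

theorem chi_Ψ (h : N.Top) (hy : y ∈ shell N.a N.b) : chi N (N.Ψ y) = 1 - up 4 8 y := by
  rw [chi, h.rad_Ψ hy]; rfl

theorem chi_one (h : N.Top) (hp : N.rad p ≤ 4) : chi N p = 1 := by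
  have := h.a_pos.trans_le (h.rad_mem p).1
  rw [chi, Real.smoothTransition.zero_of_nonpos (div_nonpos_of_nonpos_of_nonneg
    (by nlinarith) (by norm_num)), sub_zero]

theorem chi_zero (hp : 8 ≤ N.rad p) : chi N p = 0 := by
  rw [chi, Real.smoothTransition.one_of_one_le (by rw [le_div_iff₀ (by norm_num)]; nlinarith),
    sub_self]

theorem chi_abs (p : M) : |chi N p| ≤ 1 := by
  have := Real.smoothTransition.le_one ((N.rad p ^ 2 - 4 ^ 2) / (8 ^ 2 - 4 ^ 2))
  rw [chi]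
  exact abs_le.2 ⟨by linarith, sub_le_self _ (Real.smoothTransition.nonneg _)⟩

theorem chi_ev (h : N.Top) (hp : N.rad p < 4 ∨ 8 < N.rad p) : ∃ c, ∀ᶠ q in 𝓝 p, chi N q = c := by
  rcases hp with hp | hp
  · exact ⟨1, (h.continuous_rad.continuousAt.eventually (gt_mem_nhds hp)).mono
      fun q hq => chi_one h hq.le⟩
  · exact ⟨0, (h.continuous_rad.continuousAt.eventually (lt_mem_nhds hp)).mono
      fun q hq => chi_zero hq.le⟩

theorem chi_sm (h : N.Top) (ha : N.a < 4) (hb : 8 < N.b) : Sm 4 (chi N) := by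
  intro p
  have c : (N.rad p < 4 ∨ 8 < N.rad p) → ContMDiffAt 𝓘(ℝ, E4) 𝓘(ℝ, ℝ) ∞ (chi N) p := fun hp =>
    (chi_ev h hp).elim fun _ hc => contMDiffAt_const.congr_of_eventuallyEq hc
  rcases h.rad_cases p with ⟨-, e⟩ | ⟨x, hx, rfl, -⟩ | ⟨-, e⟩
  · exact c (Or.inl (e ▸ ha))
  · refine contMDiffAt_of_par h.par hx (((contDiff_const (c := (1 : ℝ))).sub
      (up_cd 4 8)).contDiffAt.congr_of_eventuallyEq ?_)
    filter_upwards [(isOpen_shell _ _).mem_nhds hx] with z hz using chi_Ψ h hz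
  · exact c (Or.inr (e ▸ hb))

variable (h : Rng N ρ)
include h

theorem nu_top : (nu N (ρ / 64)).Top := I.top_rs h.top (Cm.u_pos h) fun γ => by simp

theorem nu_a : (nu N (ρ / 64)).a ≤ 1 / 16 := by
  change N.a / (ρ / 64) ≤ _
  rw [div_le_iff₀ (Cm.u_pos h)]; linarith [h.a_le]

theorem nu_b : 128 ≤ (nu N (ρ / 64)).b := by
  change _ ≤ N.b / (ρ / 64)
  rw [le_div_iff₀ (Cm.u_pos h)]; linarith [h.le_b, Cm.rho_pos h]

theorem nu_sub : shell (1 / 2) 32 ⊆ shell (nu N (ρ / 64)).a (nu N (ρ / 64)).b :=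
  shell_mono (by linarith [nu_a h]) (by linarith [nu_b h])

theorem nu_chi : Sm 4 (chi (nu N (ρ / 64))) :=
  chi_sm (nu_top h) (by linarith [nu_a h]) (by linarith [nu_b h])

theorem nu_Om {r : ℝ} (h1 : 1 ≤ r) (h2 : r ≤ 64) :
    p ∈ N.Om (ρ / 64 * r) ↔ (nu N (ρ / 64)).rad p < r := by
  rw [← I.rs_Om N (Cm.u_pos h) 1 N.Γ]
  exact (nu_top h).mem_Om ⟨by linarith [nu_a h], by linarith [nu_b h]⟩

theorem om_meas {r : ℝ} (h1 : 1 ≤ r) (h2 : r ≤ 64) : MeasurableSet (N.Om (ρ / 64 * r)) := by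
  have : N.Om (ρ / 64 * r) = {p | (nu N (ρ / 64)).rad p < r} := Set.ext fun _ => nu_Om h h1 h2
  rw [this]
  exact (isOpen_lt (nu_top h).continuous_rad continuous_const).measurableSet

theorem cm_rs (g : Met 4 M) (hy : y ∈ shell (1 / 2) 32) :
    cm g N (ρ / 64) =ᶠ[𝓝 y] rs (g.pm N.Ψ) (ρ / 64) := by
  filter_upwards [(isOpen_shell _ _).mem_nhds hy] with z hz
  exact Ad.g_mid h (fun _ _ => rfl) hz.1.le hz.2

theorem cm_ev (g : Met 4 M) (hy : y ∈ shell (1 / 2) 32) :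
    cm g N (ρ / 64) =ᶠ[𝓝 y] fun z => ((ρ / 64) ^ 2)⁻¹ • g.pm (nu N (ρ / 64)).Ψ z := by
  refine (cm_rs h g hy).trans ?_
  rw [Ad.rs_eq]
  exact (I.pm_rs_ev g h.top (Cm.u_pos h) 1 N.Γ (nu_sub h hy)).symm

theorem fam (F : Flow M) (hG : IsRiemannianOn G univ) :
    Fam (Ioo 0 F.T) ((ρ / 64) ^ 2)⁻¹ (fun s => cm (F.m s) N (ρ / 64)) G := by
  have c := ((nu_top h).par.mono (isOpen_shell _ _) (nu_sub h)).cflow F
  have hu : ((ρ / 64) ^ 2)⁻¹ ≠ 0 := by have := Cm.u_pos h; positivity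
  refine ⟨isOpen_Ioo, ⟨isOpen_shell _ _, fun i j => (contDiffOn_const.mul (c.sm i j)).congr
    fun q hq => by rw [(cm_ev h _ hq.2).eq_of_nhds]; rfl,
    fun t _ y _ => (Cm.cm_fl _ h).riem.posDef y (mem_univ y)⟩, fun t ht y hy i j => ?_, hG⟩
  have e : (fun s => cm (F.m s) N (ρ / 64) y i j) =
      fun s => ((ρ / 64) ^ 2)⁻¹ * (F.m s).pm (nu N (ρ / 64)).Ψ y i j :=
    funext fun s => by rw [(cm_ev h _ hy).eq_of_nhds]; rfl
  rw [e, ricci_congr (cm_ev h _ hy), I.ricci_csmul hu]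
  exact ((c.rf t ht y hy i j).const_mul _).congr_deriv (by ring)

/-- integrals over radial sets -/
theorem int_rad (g : Met 4 M) {P : ℝ → Prop} (hP : MeasurableSet {y : E4 | P ‖y‖})
    (h1 : ∀ r, P r → 1 / 2 < r ∧ r < 32) {f : M → ℝ} (hf : Continuous f) :
    ∫ p in {p | P ((nu N (ρ / 64)).rad p)}, f p ∂g.vol = (Nat.card N.Γ : ℝ)⁻¹ *
      ∫ y in {y : E4 | P ‖y‖}, √(g.pm (nu N (ρ / 64)).Ψ y).det * f ((nu N (ρ / 64)).Ψ y) := by
  have hT := nu_top h
  have hs : {y : E4 | P ‖y‖} ⊆ shell (nu N (ρ / 64)).a (nu N (ρ / 64)).b :=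
    fun y hy => nu_sub h (h1 _ hy)
  have e : {p | P ((nu N (ρ / 64)).rad p)} = (nu N (ρ / 64)).Ψ '' {y : E4 | P ‖y‖} := by
    ext p
    constructor
    · intro hp
      obtain ⟨x, -, rfl, e⟩ := hT.exists_of_rad (p := p) (by linarith [nu_a h, (h1 _ hp).1])
        (by linarith [nu_b h, (h1 _ hp).2])
      exact ⟨x, by rw [mem_ofPred_eq, e]; exact hp, rfl⟩
    · rintro ⟨x, hx, rfl⟩
      rw [mem_ofPred_eq, hT.rad_Ψ (hs hx)]; exact hx
  rw [e]
  exact ((mu M g _ hT _ hP hs fun γ _ x hx => by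
    rw [mem_ofPred_eq, γ.norm_map]; exact hx).2 f hf).2

/-- the flux, seen from `M` -/
theorem flux_M (g : Met 4 M) : ∫ p, g.gam (chi (nu N (ρ / 64))) g.scal p ∂g.vol =
    -((Nat.card N.Γ : ℝ)⁻¹ * ∫ y, √(cm g N (ρ / 64) y).det *
      Bo84.gam (cm g N (ρ / 64)) (up 4 8) (scalarCurv (cm g N (ρ / 64))) y) := by
  have hT := nu_top h
  have hu : ((ρ / 64) ^ 2)⁻¹ ≠ 0 := by have := Cm.u_pos h; positivity
  have h1 := int_rad h g (P := fun r => 2 < r ∧ r < 16) (isOpen_shell 2 16).measurableSet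
    (fun r hr => ⟨by linarith [hr.1], by linarith [hr.2]⟩)
    (g.sm_gam (nu_chi h) g.sm_scal).continuous
  rw [setIntegral_eq_integral_of_forall_compl_eq_zero fun p hp => ?_] at h1
  swap
  · obtain ⟨c, hc⟩ := chi_ev hT (p := p) (by
      by_contra e
      exact hp ⟨by linarith [not_lt.1 (not_or.1 e).1], by linarith [not_lt.1 (not_or.1 e).2]⟩)
    have := Sta.gam_sq_le g (chi (nu N (ρ / 64))) g.scal p
    rw [gam_of_const g hc, zero_mul] at this
    exact pow_eq_zero_iff two_ne_zero |>.1 (le_antisymm this (sq_nonneg _))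
  rw [h1, ← mul_neg, ← integral_neg]
  refine congrArg _ (Eq.trans ?_ (setIntegral_eq_integral_of_forall_compl_eq_zero
    (s := shell 2 16) fun y hy => ?_))
  · refine setIntegral_congr_fun (isOpen_shell 2 16).measurableSet fun y hy => ?_
    have hy' : y ∈ shell (1 / 2) 32 := ⟨by linarith [hy.1], by linarith [hy.2]⟩
    have e1 := cm_ev h g hy'
    have e2 : scalarCurv (cm g N (ρ / 64)) =ᶠ[𝓝 y]
        fun z => (ρ / 64) ^ 2 * g.scal ((nu N (ρ / 64)).Ψ z) := by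
      filter_upwards [(isOpen_shell _ _).mem_nhds hy'] with z hz
      rw [scal_congr (cm_ev h g hz), scal_csmul hu, inv_inv, hT.par.par_scal g (nu_sub h hz)]
    have e3 : (fun z => chi (nu N (ρ / 64)) ((nu N (ρ / 64)).Ψ z)) =ᶠ[𝓝 y]
        fun z => 1 - up 4 8 z := by
      filter_upwards [(isOpen_shell _ _).mem_nhds hy'] with z hz using chi_Ψ hT (nu_sub h hz)
    have e4 : ∀ i, pderiv i (fun z => 1 - up 4 8 z) y = -pderiv i (up 4 8) y := fun i => by
      simp only [pderiv, fderiv_const_sub, neg_apply]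
    simp only [hT.par.par_gam g (nu_chi h) g.sm_scal (nu_sub h hy'), Bo84.gam, inverseField,
      e1.eq_of_nhds, sqrt_det_smul, I.minv_smul hu, fun i => pd_congr i e2, fun i => pd_congr i e3,
      e4, pd_cmul, Matrix.smul_apply, smul_eq_mul, Finset.mul_sum, ← Finset.sum_neg_distrib]
    have := Cm.rho_pos h
    exact Finset.sum_congr rfl fun _ _ => Finset.sum_congr rfl fun _ _ => by field_simp
  · have z : ∀ i, pderiv i (up 4 8) y = 0 := fun i => by
      rcases not_and_or.1 hy with c | c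
      · rw [pd_congr i ((ev_lt (show ‖y‖ < 4 by linarith [not_lt.1 c])).mono fun z hz =>
          up_zero (by norm_num) (by norm_num) hz.le), pd_const]
      · rw [pd_congr i ((ev_gt (show 8 < ‖y‖ by linarith [not_lt.1 c])).mono fun z hz =>
          up_one (by norm_num) (by norm_num) hz.le), pd_const]
    simp [Bo84.gam, z]

/-- the action with a smooth cutoff -/
theorem sv_eq (g : Met 4 M) (hG : Fl G) : Sv g N (ρ / 64) (glu 16 24 (cm g N (ρ / 64)) G) =
    (∫ p, chi (nu N (ρ / 64)) p * g.scal p ∂g.vol) + (Nat.card N.Γ : ℝ)⁻¹ * (ρ / 64) ^ 2 *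
      ((∫ y, ph y * lg (glu 16 24 (cm g N (ρ / 64)) G) y) + ∫ y, up 26 28 y * lg G y) := by
  have hT := nu_top h
  have hu : ((ρ / 64) ^ 2)⁻¹ ≠ 0 := by have := Cm.u_pos h; positivity
  have hP := fl_glu (a := 16) (b := 24) (by norm_num) (by norm_num) (Cm.cm_fl g h) hG
  set P := glu 16 24 (cm g N (ρ / 64)) G with hPd
  have hf : Continuous fun p => chi (nu N (ρ / 64)) p * g.scal p :=
    (nu_chi h).continuous.mul g.sm_scal.continuous
  have m1 : MeasurableSet {y : E4 | 1 ≤ ‖y‖ ∧ ‖y‖ < 16} :=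
    (Ad.meas_ge 1).inter (isOpen_lt continuous_norm continuous_const).measurableSet
  have h1 := int_rad h g (P := fun r => 1 ≤ r ∧ r < 16) m1
    (fun r hr => ⟨by linarith [hr.1], by linarith [hr.2]⟩) hf
  have h2 : ∫ y in {y : E4 | 1 ≤ ‖y‖ ∧ ‖y‖ < 16}, √(g.pm (nu N (ρ / 64)).Ψ y).det *
      (chi (nu N (ρ / 64)) ((nu N (ρ / 64)).Ψ y) * g.scal ((nu N (ρ / 64)).Ψ y)) =
      (ρ / 64) ^ 2 * ∫ y in {y : E4 | 1 ≤ ‖y‖}, (1 - up 4 8 y) * lg P y := by
    rw [setIntegral_eq_of_subset_of_forall_sdiff_eq_zero (s := {y : E4 | 1 ≤ ‖y‖ ∧ ‖y‖ < 16})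
      (Ad.meas_ge 1) (fun y hy => hy.1) fun y hy => by
        rw [up_one (by norm_num) (by norm_num) (by linarith [not_lt.1 (not_and.1 hy.2 hy.1)]),
          sub_self, zero_mul], ← integral_const_mul]
    refine setIntegral_congr_fun m1 fun y hy => ?_
    have hy' : y ∈ shell (1 / 2) 32 := ⟨by linarith [hy.1], by linarith [hy.2]⟩
    have e1 := (glu_lo_ev (b := 24) (G2 := G) (by norm_num) (by norm_num) hy.2).trans (cm_ev h g hy')
    have := Cm.rho_pos h
    simp only [lg, hPd, scal_congr e1, e1.eq_of_nhds, sqrt_det_smul, scal_csmul hu,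
      chi_Ψ hT (nu_sub h hy'), hT.par.par_scal g (nu_sub h hy')]
    field_simp
  have o1 : ∀ {p : M}, p ∈ N.Om (ρ / 64) ↔ (nu N (ρ / 64)).rad p < 1 := by
    intro p; rw [← nu_Om h le_rfl (by norm_num), mul_one]
  have m2 : MeasurableSet (N.Om (ρ / 64)) := by simpa using om_meas h le_rfl (by norm_num)
  have h3 : ∫ p, chi (nu N (ρ / 64)) p * g.scal p ∂g.vol = (∫ p in N.Om (ρ / 64), g.scal p ∂g.vol) +
      ∫ p in {p | 1 ≤ (nu N (ρ / 64)).rad p ∧ (nu N (ρ / 64)).rad p < 16},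
        chi (nu N (ρ / 64)) p * g.scal p ∂g.vol := by
    rw [← integral_add_compl m2 (V.integrable_cont g hf)]
    congr 1
    · exact setIntegral_congr_fun m2 fun p hp => by
        simp only [chi_one hT (by linarith [o1.1 hp] : _ ≤ (4 : ℝ)), one_mul]
    · exact setIntegral_eq_of_subset_of_forall_sdiff_eq_zero m2.compl
        (fun p hp c => absurd (o1.1 c) (not_lt.2 hp.1)) fun p hp => by
          rw [chi_zero (by linarith [not_lt.1 (not_and.1 hp.2 (not_lt.1 (mt o1.2 hp.1)))]),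
            zero_mul]
  have i1 := Fl.int_lg hP (up_cd 4 8).continuous
  have i2 := Fl.int_lg hP (φ := fun y => 1 - up 4 8 y)
    (continuous_const.sub (up_cd 4 8).continuous)
  have h4 : ∫ y in {y : E4 | 1 ≤ ‖y‖}, √(P y).det * scalarCurv P y =
      (∫ y in {y : E4 | 1 ≤ ‖y‖}, (1 - up 4 8 y) * lg P y) + ∫ y, up 4 8 y * lg P y := by
    rw [← setIntegral_eq_integral_of_forall_compl_eq_zero (s := {y : E4 | 1 ≤ ‖y‖})
      (f := fun y => up 4 8 y * lg P y) fun y hy => by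
        rw [up_zero (by norm_num) (by norm_num) (by linarith [not_le.1 (show ¬1 ≤ ‖y‖ from hy)]),
          zero_mul],
      ← integral_add i2.integrableOn i1.integrableOn]
    exact integral_congr_ae (Eventually.of_forall fun y => by simp only [lg]; ring)
  have h5 : ∫ y, up 4 8 y * lg P y = (∫ y, ph y * lg P y) + ∫ y, up 26 28 y * lg G y := by
    rw [← integral_add (Fl.int_lg hP ph_cd.continuous) (Fl.int_lg hG (up_cd 26 28).continuous)]
    refine integral_congr_ae (Eventually.of_forall fun y => ?_)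
    rcases le_or_gt ‖y‖ 26 with c | c
    · simp only [ph, up_zero (a := 26) (b := 28) (by norm_num) (by norm_num) c]; ring
    · have e1 := glu_hi_ev (a := 16) (G1 := cm g N (ρ / 64)) (G2 := G) (by norm_num) (by norm_num)
        (show 24 < ‖y‖ by linarith)
      simp only [ph, lg, hPd, scal_congr e1, e1.eq_of_nhds]; ring
  rw [Sv, h4, h5, h3, h1, h2]
  ring

/-- the quadratic terms on `M` -/
theorem mass_est (g : Met 4 M) {K E W : ℝ} (hK : ∀ p, |g.scal p| ≤ K)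
    (hE : ∀ x : E4, ρ / 64 ≤ ‖x‖ → ‖x‖ ≤ ρ → g.rc 0 (N.Ψ x) ≤ E ^ 2) (h0 : ∀ p, 0 ≤ g.rc 0 p)
    (hW : g.vol.real (N.Om ρ) ≤ W) :
    |(∫ p, chi (nu N (ρ / 64)) p * (2 * g.rc 0 p - g.scal p ^ 2) ∂g.vol) -
      2 * mass g (N.Om (ρ / 16))| ≤ (2 * E ^ 2 + K ^ 2) * W := by
  have hT := nu_top h
  have := V.isFinite g
  have e4 : ρ / 16 = ρ / 64 * 4 := by ring
  have e64 : ρ = ρ / 64 * 64 := by ring
  have m4 := om_meas h (r := 4) (by norm_num) (by norm_num)
  rw [mass, e4, ← integral_indicator m4, ← integral_const_mul, ← integral_sub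
    (V.integrable_cont g (f := fun p => chi (nu N (ρ / 64)) p * (2 * g.rc 0 p - g.scal p ^ 2))
      ((nu_chi h).continuous.mul ((continuous_const.mul
      (g.sm_rc 0).continuous).sub (g.sm_scal.continuous.pow 2))))
    (((V.integrable_cont g (g.sm_rc 0).continuous).indicator m4).const_mul _),
    ← setIntegral_eq_integral_of_forall_compl_eq_zero (s := N.Om ρ) fun p hp => ?_]
  · refine le_trans ?_ (mul_le_mul_of_nonneg_left hW (by positivity))
    rw [← Real.norm_eq_abs]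
    refine norm_setIntegral_le_of_norm_le_const (measure_lt_top _ _) fun p _ => ?_
    have k1 : g.scal p ^ 2 ≤ K ^ 2 := sq_le_sq' (abs_le.1 (hK p)).1 (abs_le.1 (hK p)).2
    rw [Real.norm_eq_abs]
    rcases lt_or_ge ((nu N (ρ / 64)).rad p) 4 with c | c
    · rw [chi_one hT c.le, indicator_of_mem ((nu_Om h (by norm_num) (by norm_num)).2 c)]
      exact abs_le.2 ⟨by nlinarith, by nlinarith⟩
    rw [indicator_of_notMem (mt (nu_Om h (by norm_num) (by norm_num)).1 (not_lt.2 c)), mul_zero,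
      sub_zero]
    rcases le_or_gt 8 ((nu N (ρ / 64)).rad p) with c' | c'
    · rw [chi_zero c', zero_mul, abs_zero]; positivity
    obtain ⟨x, -, rfl, e⟩ := hT.exists_of_rad (p := p) (by linarith [nu_a h])
      (by linarith [nu_b h])
    have hρ := Cm.rho_pos h
    have k2 : g.rc 0 ((nu N (ρ / 64)).Ψ x) ≤ E ^ 2 := hE ((ρ / 64) • x)
      (by rw [Cm.norm_u h]; nlinarith) (by rw [Cm.norm_u h]; nlinarith)
    have k3 := h0 ((nu N (ρ / 64)).Ψ x)
    rw [abs_mul]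
    exact (mul_le_of_le_one_left (abs_nonneg _) (chi_abs _)).trans
      (abs_le.2 ⟨by nlinarith, by nlinarith⟩)
  · rw [e64] at hp
    have c := not_lt.1 (mt (nu_Om h (by norm_num) le_rfl).2 hp)
    rw [chi_zero (by linarith), indicator_of_notMem (mt (nu_Om h (by norm_num)
      (by norm_num)).1 (by linarith))]
    simp

end Ws

end Crest.Agent.N207.Ph

end
end

-- ▼ part N207/Ph/Ws4

/-!
# Row 207, block PHI (helper89): the time step `WS`
-/

set_option autoImplicit false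
set_option linter.unusedSectionVars false

open scoped ContDiff Manifold Topology
open Set MeasureTheory Filter Metric
open Crest.GeometryTopology.CoordMetric Crest.GeometryTopology.ChartCurvature
  Crest.GeometryTopology.MetricFamily
open Crest.Agent.R247

noncomputable section

namespace Crest.Agent.N207.Ph

open Sk U

variable {M : Type*} [TopologicalSpace M] [ChartedSpace E4 M] [IsManifold 𝓘(ℝ, E4) ∞ M]
  [CompactSpace M] [T3Space M] [ConnectedSpace M] [MeasurableSpace M] [BorelSpace M]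

namespace Ws

theorem rl_glu : ∃ W : ℝ, 0 ≤ W ∧ ∀ (G1 G : MetricField 4) (Y : ℝ), Fl G1 → Fl G →
    (∀ y : E4, 1 ≤ ‖y‖ → ‖y‖ ≤ 28 → ∀ i j, |ricci (glu 16 24 G1 G) y i j| ≤ Y) →
    RL (glu 16 24 G1 G) 1 ≤ RL G 1 + W * Y ^ 2 := by
  refine ⟨volume.real (closedBall (0 : E4) 28) * (28 ^ 2 * 16), by positivity,
    fun G1 G Y h1 hG hY => ?_⟩
  have hP := fl_glu (a := 16) (b := 24) (by norm_num) (by norm_num) h1 hG
  have i3 : Integrable ((closedBall (0 : E4) 28).indicator fun _ => 28 ^ 2 * 16 * Y ^ 2) :=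
    (integrableOn_const measure_closedBall_lt_top.ne).integrable_indicator measurableSet_closedBall
  have n3 : ∀ y, 0 ≤ (closedBall (0 : E4) 28).indicator (fun _ => 28 ^ 2 * 16 * Y ^ 2) y :=
    fun y => indicator_nonneg (fun _ _ => by positivity) y
  have h2 := setIntegral_mono_on (Fl.int_rl hP).integrableOn ((Fl.int_rl hG).add i3).integrableOn
    (Ad.meas_ge 1) fun y hy => by
      rcases le_or_gt ‖y‖ 28 with c | c
      · rw [Pi.add_apply, indicator_of_mem (by simpa using c)]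
        have h3 : ∑ i, ∑ j, ricci (glu 16 24 G1 G) y i j ^ 2 ≤ ∑ _i : Fin 4, ∑ _j : Fin 4, Y ^ 2 :=
          Finset.sum_le_sum fun i _ => Finset.sum_le_sum fun j _ =>
            sq_le_sq' (abs_le.1 (hY y hy c i j)).1 (abs_le.1 (hY y hy c i j)).2
        simp only [Finset.sum_const, Finset.card_univ, Fintype.card_fin, nsmul_eq_mul] at h3
        have h4 := mul_le_mul (pow_le_pow_left₀ (norm_nonneg y) c 2) h3 (by positivity)
          (by positivity)
        push_cast at h4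
        linarith [Ad.ric_nonneg G y]
      · rw [ricci_congr (glu_hi_ev (by norm_num) (by norm_num) (show 24 < ‖y‖ by linarith))]
        exact le_add_of_nonneg_right (n3 y)
  have h5 := setIntegral_le_integral (s := {x : E4 | 1 ≤ ‖x‖}) i3 (Eventually.of_forall n3)
  rw [integral_add' (Fl.int_rl hG).integrableOn i3.integrableOn] at h2
  have h6 : ∫ y, (closedBall (0 : E4) 28).indicator (fun _ => 28 ^ 2 * 16 * Y ^ 2) y =
      volume.real (closedBall (0 : E4) 28) * (28 ^ 2 * 16) * Y ^ 2 := by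
    rw [integral_indicator measurableSet_closedBall, setIntegral_const, smul_eq_mul]; ring
  exact h2.trans (add_le_add_right (h5.trans_eq h6) _)

variable {N : Nk M} {ρ : ℝ} {G : MetricField 4} (h : Rng N ρ)
include h

theorem ric_jet (g : Met 4 M) {c : ℝ} (hc0 : 0 ≤ c) (hc : ∀ x : E4, ρ / 64 ≤ ‖x‖ → ‖x‖ ≤ ρ →
    ∀ k ≤ 2, ∀ i j, J1 k (fun z => ricci (g.pm N.Ψ) z i j) x ‖x‖ (c / ρ ^ 2)) (y : E4)
    (y1 : 1 ≤ ‖y‖) (y2 : ‖y‖ ≤ 28) :
    ∀ k ≤ 2, ∀ i j, J1 k (fun z => ricci (cm g N (ρ / 64)) z i j) y 1 c := by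
  intro k hk i j
  have hρ := Cm.rho_pos h
  have hy : y ∈ shell (1 / 2) 32 := ⟨by linarith, by linarith⟩
  have hr := h.top.par.riem g
  have e : (fun z => ricci (cm g N (ρ / 64)) z i j) =ᶠ[𝓝 y]
      fun z => (ρ / 64) ^ 2 * ricci (g.pm N.Ψ) ((ρ / 64) • z) i j := by
    filter_upwards [(isOpen_shell _ _).mem_nhds hy] with z hz
    rw [ricci_congr (cm_rs h g hz), Ad.ricci_rs (Cm.u_pos h) hr (Ad.mid_mem h hz.1.le hz.2)]
  have h1 := J1.one (Ad.j1_rs (Cm.u_pos h) (Cm.norm_u h y).ge (hc _ (by rw [Cm.norm_u h]; nlinarith)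
    (by rw [Cm.norm_u h]; nlinarith) k hk i j)) y1
  have h2 : ContDiffAt ℝ ∞ (fun z => ricci (g.pm N.Ψ) ((ρ / 64) • z) i j) y :=
    ContDiffAt.comp (g := fun x => ricci (g.pm N.Ψ) x i j) y ((sm_ricci hr i j).contDiffAt
      (hr.isOpen.mem_nhds (Ad.mid_mem h hy.1.le hy.2))) (contDiff_const_smul _).contDiffAt
  refine Cm.j1_congr ?_ e
  rw [J1, norm_itd_cmul h2, abs_of_nonneg (sq_nonneg _), mul_assoc]
  refine (mul_le_mul_of_nonneg_left h1 (sq_nonneg _)).trans ?_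
  rw [show (ρ / 64) ^ 2 * (c / ρ ^ 2) = c / 4096 by field_simp; ring]
  linarith

theorem d_sv {F : Flow M} (hB : Base F) (hG : Fl G) {a b s : ℝ} (st : F.hc.St a b)
    (hs : s ∈ Icc a b) : HasDerivWithinAt
      (fun s => Sv (F.m s) N (ρ / 64) (glu 16 24 (cm (F.m s) N (ρ / 64)) G))
      ((∫ p, chi (nu N (ρ / 64)) p * (2 * (F.m s).rc 0 p - (F.m s).scal p ^ 2) ∂(F.m s).vol) +
        (Nat.card N.Γ : ℝ)⁻¹ * (ρ / 64) ^ 2 * ∫ y, ph y * er (glu 16 24 (cm (F.m s) N (ρ / 64)) G)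
          (hv ((ρ / 64) ^ 2)⁻¹ (cm (F.m s) N (ρ / 64))) y) (Icc a b) s := by
  have hJ : Icc a b ⊆ Ioo 0 F.T := fun σ hσ => ⟨st.1.trans_le hσ.1, hσ.2.trans_lt st.2.2⟩
  have hχ := nu_chi h
  have A := hB.ok.alg
  have h1 := hB.ok.int.int_dt st (A.sm_mul (A.sm_static hχ) (A.sm_R st))
    (fun t ht x => (hB.ok.evo.dt_R st t ht x).const_mul (chi (nu N (ρ / 64)) x)) s hs
  have h2 := (fam h F hG.riem).d_int' hJ hs
  have h3 := hB.ok.int.ibp s (hJ hs) hχ (F.m s).sm_scal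
  simp only [Flow.hc_R, Flow.hc_lap, Flow.hc_Q, Flow.hc_vol, Flow.hc_gam] at h1 h3
  simp only [sv_eq h _ hG]
  refine (h1.add ((h2.add_const _).const_mul _)).congr_deriv ?_
  have h4 := integral_add (μ := (F.m s).vol)
    (V.integrable_cont (F.m s) (f := fun p => chi (nu N (ρ / 64)) p * (F.m s).lap (F.m s).scal p)
      (hχ.continuous.mul ((F.m s).sm_lap (F.m s).sm_scal).continuous))
    (V.integrable_cont (F.m s) (f := fun p => chi (nu N (ρ / 64)) p *
      (2 * (F.m s).rc 0 p - (F.m s).scal p ^ 2)) (hχ.continuous.mul ((continuous_const.mul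
      ((F.m s).sm_rc 0).continuous).sub ((F.m s).sm_scal.continuous.pow 2))))
  rw [h3, flux_M h] at h4
  rw [integral_congr_ae (Eventually.of_forall fun x => ?_), h4]
  · have := Cm.rho_pos h
    field_simp
    ring
  · ring

end Ws

open Ws in
theorem ws {F : Flow M} (hB : Base F) : WSStmt F := by
  obtain ⟨η1, CM, hη1, hCM, cmS⟩ := cmS M
  obtain ⟨η2, CV, hη2, hCV, cvS⟩ := cvS M
  obtain ⟨K, hK⟩ := hB.ok.evo.R_bd
  obtain ⟨CG, hCG, dsg⟩ := ds_glu gl
  obtain ⟨C, hC, core⟩ := core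
  obtain ⟨W, hW, rlg⟩ := rl_glu
  obtain ⟨δ0, hδ0, hδ1⟩ : ∃ δ0 : ℝ, 0 < δ0 ∧ CG * (CM + 1) * (δ0 + δ0) = 1 / 8 :=
    ⟨1 / (16 * (CG * (CM + 1))), by positivity, by field_simp; norm_num⟩
  obtain ⟨Z, hZ⟩ : ∃ Z : ℝ, Z = 2 * CV ^ 2 + 2 * (C * CV) ^ 2 * 4096 ^ 2 := ⟨_, rfl⟩
  have hZ0 : 0 ≤ Z := by rw [hZ]; positivity
  refine ⟨min (min η1 η2) (min (1 / 200) δ0), δ0, CG * (CM + 1), by positivity, hδ0, by positivity,
    fun V => ⟨1 + W * Z + ((2 + K ^ 2) * (|V| + 3) + C * CV) + C * CV * Z, by positivity,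
      fun N m1 η δ t t' ρ e0 e1 Cs e G hm hη hδ h ht htt ht' hρt hg hi hi2 hE hE0 _ hP hq => ?_⟩⟩
  have n1 : η ≤ η1 := hη.trans ((min_le_left _ _).trans (min_le_left _ _))
  have n2 : η ≤ η2 := hη.trans ((min_le_left _ _).trans (min_le_right _ _))
  have n3 : η ≤ 1 / 200 := hη.trans ((min_le_right _ _).trans (min_le_left _ _))
  have n4 : η ≤ δ0 := hη.trans ((min_le_right _ _).trans (min_le_right _ _))
  obtain ⟨Cs', cmS⟩ := cmS Cs
  have hρ := Cm.rho_pos h
  have hT := F.hT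
  have st : F.hc.St t t' := ⟨by linarith, htt, ht'⟩
  have hJ : Icc t t' ⊆ Ioo 0 F.T := fun σ hσ => ⟨st.1.trans_le hσ.1, hσ.2.trans_lt ht'⟩
  have t0 : t ∈ Icc t t' := ⟨le_rfl, htt.le⟩
  have t1 : t' ∈ Icc t t' := ⟨htt.le, le_rfl⟩
  have n0 := Cm.eta_nonneg h.top (hg t t0)
  have d0 := DS.nonneg hP.ds
  have fl : ∀ s, Fl (glu 16 24 (cm (F.m s) N (ρ / 64)) G) := fun s =>
    fl_glu (by norm_num) (by norm_num) (Cm.cm_fl _ h) hP.fl
  have ds : ∀ s ∈ Icc t t', DS 3 (glu 16 24 (cm (F.m s) N (ρ / 64)) G) (CG * (CM + 1) * (δ + η)) :=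
    fun s hs => by
      obtain ⟨ε, a1, a2, a3⟩ := dsg _ G _ _ (Cm.cm_fl _ h) hP.fl
        (cmS _ N m1 η V ρ hm n1 h (hg s hs)).2.2.1 hP.ds
      refine ⟨ε, a1, fun n => (a2 n).trans ?_, a3⟩
      rw [mul_assoc]
      exact mul_le_mul_of_nonneg_left (by nlinarith) hCG.le
  have cv := fun s (hs : s ∈ Ioo t t') =>
    cvS _ N m1 η V ρ _ Cs hm n2 h (hg s (Ioo_subset_Icc_self hs)) (hE s hs)
  have cv0 := cvS _ N m1 η V ρ _ Cs hm n2 h (hg t t0) hE0
  have he : ∀ s ∈ Ioo t t', 0 ≤ e s := fun s hs => (sq_nonneg ρ).trans (cv s hs).1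
  have he0 : 0 ≤ e0 := (sq_nonneg ρ).trans cv0.1
  have eq0 : ∀ y : E4, ‖y‖ < 32 → glu 16 24 (cm (F.m t) N (ρ / 64)) G y = cm (F.m t) N (ρ / 64) y :=
    fun y hy => by rw [glu, hq (by simpa using hy), sub_self, smul_zero, add_zero]
  have eq1 : glu 16 24 (cm (F.m t) N (ρ / 64)) G = G := funext fun y => by
    rcases lt_or_ge ‖y‖ 32 with c | c
    · rw [eq0 y c, hq (by simpa using c)]
    · exact glu_hi (by norm_num) (by norm_num) (by linarith)
  obtain ⟨c1, c2⟩ := core (fam h F hP.fl.riem) (D := CV) (e0 := CV * e0) (by positivity) htt hJ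
    hCV.le hi he (fun s hs => ⟨(fl s).riem, fun y => jg_mono (DS.sml (ds s hs) y) (by norm_num)
      (hδ1 ▸ mul_le_mul_of_nonneg_left (add_le_add hδ n4) (by positivity))⟩)
    (fun s hs => ric_jet h _ (mul_nonneg hCV.le (he s hs)) fun x x1 x2 => ((cv s hs).2.2 x x1 x2).2)
    fun y y1 y2 i j => by
      rw [ricci_congr ((ev_lt (show ‖y‖ < 32 by linarith)).mono eq0)]
      simpa [J1] using ric_jet h _ (mul_nonneg hCV.le he0)
        (fun x x1 x2 => (cv0.2.2 x x1 x2).2) y y1 y2 0 (by norm_num) i j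
  have hI : 0 ≤ ∫ s in t..t', e s ^ 2 :=
    intervalIntegral.integral_nonneg htt.le fun s _ => sq_nonneg _
  have hY : (CV * e0 + C * CV * (((ρ / 64) ^ 2)⁻¹ * ∫ s in t..t', e s)) ^ 2 ≤
      Z * (e0 ^ 2 + (∫ s in t..t', e s ^ 2) / ρ ^ 2) := by
    have a1 := (sq_int_le htt hi hi2).trans (mul_le_mul_of_nonneg_right hρt hI)
    have a2 : (((ρ / 64) ^ 2)⁻¹ * ∫ s in t..t', e s) ^ 2 ≤
        4096 ^ 2 * ((∫ s in t..t', e s ^ 2) / ρ ^ 2) := by
      rw [mul_pow]
      exact (mul_le_mul_of_nonneg_left a1 (by positivity)).trans_eq (by field_simp; ring)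
    have a3 : 0 ≤ (∫ s in t..t', e s ^ 2) / ρ ^ 2 := by positivity
    generalize ((ρ / 64) ^ 2)⁻¹ * ∫ s in t..t', e s = X at a2
    generalize (∫ s in t..t', e s ^ 2) / ρ ^ 2 = I at a2 a3
    have a4 := mul_le_mul_of_nonneg_left a2 (sq_nonneg (C * CV))
    have a5 := mul_nonneg (sq_nonneg CV) a3
    have a6 := mul_nonneg (sq_nonneg (C * CV)) (sq_nonneg e0)
    have a7 := sq_nonneg (CV * e0 - C * CV * X)
    rw [hZ]
    linarith
  generalize CV * e0 + C * CV * (((ρ / 64) ^ 2)⁻¹ * ∫ s in t..t', e s) = Y at c1 c2 hY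
  have hB0 : 0 ≤ (2 + K ^ 2) * (|V| + 3) + C * CV := by positivity
  have hCC : 0 ≤ C * CV := by positivity
  have key := ftc_abs (φ := fun s => 2 * mass (F.m s) (N.Om (ρ / 16)))
    (b := fun s => ((2 + K ^ 2) * (|V| + 3) + C * CV) * e s ^ 2 + C * CV * Y ^ 2) htt.le
    (fun s hs => (d_sv h hB hP.fl st hs).continuousWithinAt)
    (fun s hs => (d_sv h hB hP.fl st (Ioo_subset_Icc_self hs)).hasDerivAt (Icc_mem_nhds hs.1 hs.2))
    (((mcW hB _ (by rw [show ρ / 16 = ρ / 64 * 4 by ring]; exact om_meas h (by norm_num) (by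
      norm_num))).mono (by rw [uIcc_of_le htt.le]; exact hJ)).intervalIntegrable.const_mul 2)
    ((hi2.const_mul _).add intervalIntegrable_const) fun s hs => by
      have hs' := Ioo_subset_Icc_self hs
      have hR : Rough (F.m s) N 0 (1 / 100) V := ⟨fun x hx => jg_mono ((hg s hs').jet x hx)
        (Nat.zero_le _) ((mul_le_mul n3 (Ad.wt_le h.top.a_pos hx) (I.wt_nonneg _ _ _)
          (by norm_num)).trans (by norm_num)), (hg s hs').vol⟩
      have a1 := mass_est h (F.m s) (hK s (hJ hs')) (fun x x1 x2 => ((cv s hs).2.2 x x1 x2).1)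
        (hB.ok.evo.Q_nonneg 0 s (hJ hs')) (Ad.vol_le h hR (by linarith) le_rfl)
      have a2 : |(Nat.card N.Γ : ℝ)⁻¹ * (ρ / 64) ^ 2 * ∫ y, ph y * er (glu 16 24
          (cm (F.m s) N (ρ / 64)) G) (hv ((ρ / 64) ^ 2)⁻¹ (cm (F.m s) N (ρ / 64))) y| ≤
          C * CV * (e s * Y) := by
        rw [mul_assoc, abs_mul, abs_mul, abs_of_nonneg (sq_nonneg (ρ / 64)),
          abs_of_nonneg (by positivity : 0 ≤ (Nat.card N.Γ : ℝ)⁻¹)]
        refine (mul_le_of_le_one_left (by positivity) (Nat.cast_inv_le_one _)).trans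
          ((mul_le_mul_of_nonneg_left (c2 s hs) (sq_nonneg _)).trans_eq (by field_simp))
      have a3 : (2 * (e s / ρ ^ 2) ^ 2 + K ^ 2) * ((|V| + 3) * ρ ^ 4) ≤
          (2 + K ^ 2) * (|V| + 3) * e s ^ 2 := by
        have b1 : ρ ^ 4 ≤ e s ^ 2 := by
          rw [show ρ ^ 4 = (ρ ^ 2) ^ 2 by ring]; exact pow_le_pow_left₀ (sq_nonneg ρ) (cv s hs).1 2
        have b2 := mul_le_mul_of_nonneg_left b1 (by positivity : 0 ≤ K ^ 2 * (|V| + 3))
        have b3 : 2 * (e s / ρ ^ 2) ^ 2 * ((|V| + 3) * ρ ^ 4) = 2 * (|V| + 3) * e s ^ 2 := by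
          field_simp
        linarith
      have a4 := mul_le_mul_of_nonneg_left (show e s * Y ≤ e s ^ 2 + Y ^ 2 by
        nlinarith [sq_nonneg (e s - Y), sq_nonneg (e s), sq_nonneg Y]) hCC
      rw [add_sub_right_comm]
      exact (abs_add_le _ _).trans (by linarith)
  refine ⟨_, ⟨fl t', inv_glu (Cm.cm_inv _ h) hP.inv, ds t' t1, fun y hy =>
    glu_lo (by norm_num) (by norm_num) (le_of_lt (by simpa using hy))⟩, ?_, ?_⟩
  · have a1 := rlg _ G Y (Cm.cm_fl _ h) hP.fl (c1 t' t1)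
    have a2 := Ad.RL_nonneg G 1
    have a3 : 0 ≤ (∫ s in t..t', e s ^ 2) / ρ ^ 2 := by positivity
    have a4 := mul_le_mul_of_nonneg_left hY hW
    generalize (∫ s in t..t', e s ^ 2) / ρ ^ 2 = I at a3 a4 ⊢
    have a5 := mul_nonneg (add_nonneg hB0 (mul_nonneg hCC hZ0))
      (by positivity : 0 ≤ RL G 1 + e0 ^ 2 + e1 ^ 2 + I)
    have a6 := mul_nonneg (mul_nonneg hW hZ0) (by positivity : 0 ≤ RL G 1 + e1 ^ 2)
    linarith [sq_nonneg e0, sq_nonneg e1]
  · rw [intervalIntegral.integral_const_mul, intervalIntegral.integral_add (hi2.const_mul _)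
      intervalIntegrable_const, intervalIntegral.integral_const_mul,
      intervalIntegral.integral_const, smul_eq_mul, eq1] at key
    refine key.trans ?_
    have a1 : (t' - t) * Y ^ 2 ≤ Z * (ρ ^ 2 * e0 ^ 2 + ∫ s in t..t', e s ^ 2) :=
      (mul_le_mul hρt hY (sq_nonneg _) (sq_nonneg _)).trans_eq (by field_simp)
    have a2 := mul_le_mul_of_nonneg_left a1 hCC
    generalize ∫ s in t..t', e s ^ 2 = I at hI a2 ⊢
    have a3 := mul_nonneg (by positivity : 0 ≤ 1 + W * Z)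
      (by positivity : 0 ≤ I + ρ ^ 2 * (e0 ^ 2 + e1 ^ 2))
    have a4 := mul_nonneg hB0 (by positivity : 0 ≤ ρ ^ 2 * (e0 ^ 2 + e1 ^ 2))
    have a5 := mul_nonneg (mul_nonneg hCC hZ0) (by positivity : 0 ≤ ρ ^ 2 * e1 ^ 2)
    linarith

end Crest.Agent.N207.Ph

end
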