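import Crest.Agent.N207.Ph.RgP_Mg
import Crest.Agent.N207.Ph.Asm
import Crest.Agent.N207.Ph.Ad4
import Crest.Agent.N207.Ph.Ws4_Mg
import Crest.Agent.N207.Ph.Pb2
import Crest.Agent.N207.Ph.Gl
import Crest.Agent.N207.Ph.ExD
import Crest.Agent.N207.Ph.Exb1
import Crest.Agent.N207.Ph.Pb1
import Crest.Agent.N207.Ph.Ad1
import Crest.Agent.N207.Ph.Nw5
import Crest.Agent.N207.A.Co1
import Crest.Agent.N207.Ph.Hc3
import Crest.Agent.N207.Lg.Flat
import Crest.Agent.N207.CB.Boot
import Crest.Agent.N207.U.Met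
import Crest.Agent.N207.Ph.Eqv
import Crest.Agent.N207.Lg.Nat
import Crest.Agent.N207.Lg.Pop
import Crest.Agent.N207.Ph.Cm1
import Crest.Agent.N207.Ph.Sw3
import Crest.Agent.N207.TR.Main

-- ▼ part N207/Ph/Rg
section

/-!
# Row 207, block PHI, leaf RG (helper55): rigidity of the action
-/

set_option autoImplicit false

namespace Crest.Agent.N207.Ph

theorem rg (hEN : ENStmt) (hQU : QUStmt) (hHC : HCStmt) : RGStmt :=
  Rg.rg_of hEN hQU hHC Rg.korn Rg.nid Rg.pol

end Crest.Agent.N207.Ph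
end

-- ▼ part N207/Ph/Fin0
section

/-!
# Row 207, block PHI (helper85): `PHI'` from the three last leaves
-/

set_option autoImplicit false

open scoped ContDiff Manifold

namespace Crest.Agent.N207.Ph

open Sk

variable {M : Type*} [TopologicalSpace M] [ChartedSpace E4 M] [IsManifold 𝓘(ℝ, E4) ∞ M]
  [CompactSpace M] [T3Space M] [ConnectedSpace M] [MeasurableSpace M] [BorelSpace M]

theorem phi_of {F : Flow M} (hB : Base F) (EXA : EXAStmt) (EXB : EXBStmt) (SW : SWStmt M) :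
    PHI' F :=
  phi' (EXB EXA ve gl) (rg en qu hc) (ws hB) (mcW hB) SW
    (ad hB en qu pb pball hc int (cmS M) (cvS M))

end Crest.Agent.N207.Ph
end

-- ▼ part N207/Ph/Exb2
section

/-!
# Row 207, block PHI (helper49): the cut and glued metrics of `EXB`
-/

set_option autoImplicit false

open scoped ContDiff Topology
open Set Filter MeasureTheory Metric
open Crest.GeometryTopology.CoordMetric
open Crest.Agent.R202.Tens

noncomputable section

namespace Crest.Agent.N207.Ph.Xb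

open Sk G

/-- the corrected metric -/
def gk (G k : MetricField 4) : MetricField 4 := fun z => G z - k z

/-- the corrected metric, cut at `R` -/
def gt (G k : MetricField 4) (R : ℝ) : MetricField 4 := glu R (2 * R) (gk G k) flat

/-- the glued metric -/
def gp (G k : MetricField 4) (R : ℝ) : MetricField 4 := glu 32 (2 * 32) G (gt G k R)

/-- the gauge 1-form -/
def vv (G k : MetricField 4) (U : Tn 4 1) (R : ℝ) : Tn 4 1 := fun y I =>
  Lg.gauT flat (gt G k R) y I - Lg.gauT flat G y I - U y I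

/-- the error -/
def zz (G k : MetricField 4) (U : Tn 4 1) (R : ℝ) : MetricField 4 := fun x => Matrix.of fun i j =>
  ricci (gt G k R) x i j - ((1 / 2) * (pderiv i (fun y => vv G k U R y ![j]) x +
    pderiv j (fun y => vv G k U R y ![i]) x) + (1 - up 1 2 x) * ricci G x i j)

/-- the volume of the unit ball -/
def v1 : ℝ := volume.real (closedBall (0 : E4) 1)

variable {G k : MetricField 4} {U : Tn 4 1} {R : ℝ} {y : E4} {m : ℕ} {s c c' : ℝ}

theorem v1_nonneg : 0 ≤ v1 := measureReal_nonneg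

theorem jb_neg {f : E4 → ℝ} (h : JB m f y s c) : JB m (fun z => -f z) y s c :=
  ⟨h.sm.neg, fun l hl => by
    rw [show (fun z => -f z) = -f from rfl, iteratedFDeriv_neg_apply, norm_neg]
    exact h.bd l hl⟩

theorem gk_sm (hG : Fl G) (hk : ∀ i j, ContDiff ℝ ∞ fun y => k y i j) (i j : Fin 4) :
    ContDiffAt ℝ ∞ (fun z => gk G k z i j) y := (hG.sm y i j).sub (hk i j).contDiffAt

theorem gt_sm (hG : Fl G) (hk : ∀ i j, ContDiff ℝ ∞ fun y => k y i j) (hR : 0 < R) (i j : Fin 4) :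
    ContDiffAt ℝ ∞ (fun z => gt G k R z i j) y :=
  Cm.glu_sm hR (by linarith) (fun _ => gk_sm hG hk) (fun _ => Cm.flat_sm) i j

theorem jg_gk (hG : Fl G) (hk : ∀ i j, ContDiff ℝ ∞ fun y => k y i j) (hs : 0 ≤ s)
    (h1 : JG m G y s c) (h2 : ∀ l ≤ m, ∀ i j, J1 l (fun z => k z i j) y s c') :
    JG m (gk G k) y s (c + c') := jg_of_jb fun i j =>
  (JB.add hs (jb_of_jg (hG.sm y) h1 i j)
    (jb_neg ⟨(hk i j).contDiffAt, fun l hl => h2 l hl i j⟩)).congr
    (Eventually.of_forall fun z => by simp only [dv, gk, Matrix.sub_apply]; ring)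

theorem jg_two (m : ℕ) : ∃ C : ℝ, 1 ≤ C ∧ ∀ (G k : MetricField 4) (R : ℝ) (y : E4) (c c' : ℝ),
    Fl G → (∀ i j, ContDiff ℝ ∞ fun y => k y i j) → 1 ≤ R → JG m G y (‖y‖ + 1) c →
    (∀ l ≤ m, ∀ i j, J1 l (fun z => k z i j) y (‖y‖ + 1) c') →
    JG m (gt G k R) y (‖y‖ + 1) (C * (c + c')) ∧ JG m (gp G k R) y (‖y‖ + 1) (C * (c + c')) := by
  obtain ⟨C, hC, h⟩ := Cm.gl' m
  refine ⟨(C + 1) * (C + 1), by nlinarith, fun G k R y c c' hG hk hR h1 h2 => ?_⟩
  have hs : 0 ≤ ‖y‖ + 1 := by positivity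
  have hc := N207.U.jg_nonneg h1
  have hc' : 0 ≤ c' := le_trans (by positivity) (h2 0 (Nat.zero_le _) 0 0)
  have hcc : 0 ≤ c + c' := by positivity
  have a := h (gk G k) flat R (by linarith) y _ (c + c') hs hcc (fun _ => by linarith)
    (fun _ => ⟨gk_sm hG hk, jg_gk hG hk hs h1 h2⟩) fun _ => ⟨Cm.flat_sm, Ad.jg_flat _ _ _ hcc⟩
  have b := h G (gt G k R) 32 (by norm_num) y _ ((C + 1) * (c + c')) hs (by positivity)
    (fun _ => by linarith) (fun _ => ⟨hG.sm y, jg_mono h1 (by nlinarith)⟩)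
    fun _ => ⟨gt_sm hG hk (by linarith), jg_mono a (by nlinarith)⟩
  exact ⟨jg_mono a (by nlinarith [mul_nonneg hC.le (mul_nonneg hC.le hcc)]),
    jg_mono b (by nlinarith [mul_nonneg hC.le (mul_nonneg hC.le hcc)])⟩

theorem fl_gt (hG : Fl G) (hk : ∀ i j, ContDiff ℝ ∞ fun y => k y i j) (hy : ∀ y, (k y).IsSymm)
    (hR : 0 < R) (h : Sml 0 (gk G k) (1 / 8)) : Fl (gt G k R) :=
  ⟨⟨isOpen_univ, fun i j _ _ => (gt_sm hG hk hR i j).contDiffWithinAt, fun y _ =>
    Ws.glu_pos (posDef_near (Matrix.IsSymm.sub (by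
      simpa using (hG.riem.posDef y (mem_univ y)).isHermitian) (hy y)) (h y).near)
      Matrix.PosDef.one⟩, 2 * R, fun _ hx => Cm.glu_out hR (by linarith) hx⟩

theorem int_ball {f : E4 → ℝ} {ρ : ℝ} (hρ : 0 ≤ ρ) (h : ∀ x, ‖x‖ ≤ ρ → |f x| ≤ c)
    (h0 : ∀ x, ρ < ‖x‖ → f x = 0) : ∫ x, f x ≤ c * (ρ ^ 4 * v1) := by
  rw [← setIntegral_eq_integral_of_forall_compl_eq_zero (s := closedBall 0 ρ) fun x hx =>
    h0 x (by rwa [mem_closedBall_zero_iff, not_le] at hx)]
  have := norm_setIntegral_le_of_norm_le_const (f := f) (μ := volume) (s := closedBall 0 ρ)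
    measure_closedBall_lt_top fun x hx => h x (mem_closedBall_zero_iff.1 hx)
  rw [Measure.addHaar_real_closedBall' _ _ hρ, finrank_euclideanSpace_fin] at this
  exact (le_abs_self _).trans this

theorem sq_le {Z : Matrix (Fin 4) (Fin 4) ℝ} {ρ b : ℝ} (hy : ‖y‖ ≤ ρ) (h : ∀ i j, |Z i j| ≤ b) :
    |‖y‖ ^ 2 * ∑ i, ∑ j, Z i j ^ 2| ≤ ρ ^ 2 * (16 * b ^ 2) := by
  rw [abs_of_nonneg (by positivity)]
  have : ∑ i, ∑ j, Z i j ^ 2 ≤ ∑ _i : Fin 4, ∑ _j : Fin 4, b ^ 2 :=
    Finset.sum_le_sum fun i _ => Finset.sum_le_sum fun j _ => by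
      rw [← sq_abs]; exact pow_le_pow_left₀ (abs_nonneg _) (h i j) 2
  simp only [Finset.sum_const, Finset.card_univ, Fintype.card_fin, nsmul_eq_mul] at this
  gcongr
  push_cast at this
  linarith

theorem rl_split {G1 G2 : MetricField 4} (h1 : Fl G1) (h2 : Fl G2) {B : ℝ}
    (hb : ∀ x : E4, 1 ≤ ‖x‖ → ‖x‖ ≤ 64 → ∀ i j, |ricci G1 x i j| ≤ B)
    (he : ∀ x : E4, 64 < ‖x‖ → ricci G1 x = ricci G2 x) :
    RL G1 1 ≤ 64 ^ 2 * (16 * B ^ 2) * (64 ^ 4 * v1) + RL G2 2 := by
  have hm : MeasurableSet ({x : E4 | 1 ≤ ‖x‖} ∩ closedBall 0 64) :=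
    (Ad.meas_ge 1).inter measurableSet_closedBall
  have i1 := h1.ric_int.indicator hm
  have i2 := h2.ric_int.indicator (Ad.meas_ge 2)
  have a := int_ball (f := ({x : E4 | 1 ≤ ‖x‖} ∩ closedBall 0 64).indicator
    fun x => ‖x‖ ^ 2 * ∑ i, ∑ j, ricci G1 x i j ^ 2) (c := 64 ^ 2 * (16 * B ^ 2)) (ρ := 64)
    (by norm_num) (fun x hx => by
      by_cases h : x ∈ {x : E4 | 1 ≤ ‖x‖} ∩ closedBall 0 64
      · rw [indicator_of_mem h]; exact sq_le hx (hb x h.1 hx)
      · rw [indicator_of_notMem h, abs_zero]; positivity)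
    fun x hx => indicator_of_notMem (fun h => (mem_closedBall_zero_iff.1 h.2).not_gt hx) _
  rw [RL, RL, ← integral_indicator (Ad.meas_ge 1), ← integral_indicator (Ad.meas_ge 2)]
  refine le_trans ?_ (add_le_add_left a _)
  rw [← integral_add i1 i2]
  refine integral_mono (h1.ric_int.indicator (Ad.meas_ge 1)) (i1.add i2) fun x => ?_
  have n1 := indicator_nonneg (s := {x : E4 | 1 ≤ ‖x‖} ∩ closedBall 0 64)
    (fun x _ => Ad.ric_nonneg G1 x) x
  have n2 := indicator_nonneg (s := {x : E4 | 2 ≤ ‖x‖}) (fun x _ => Ad.ric_nonneg G2 x) x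
  by_cases h : x ∈ {x : E4 | 1 ≤ ‖x‖}
  · rcases le_or_gt ‖x‖ 64 with h' | h'
    · rw [indicator_of_mem h]
      rw [indicator_of_mem (mem_inter h (mem_closedBall_zero_iff.2 h'))]
      linarith
    · rw [indicator_of_mem h, he x h']
      rw [indicator_of_mem (show x ∈ {x : E4 | 2 ≤ ‖x‖} from (by linarith : 2 ≤ ‖x‖))]
      linarith
  · rw [indicator_of_notMem h]
    linarith

theorem ricB_le {e : ℝ} (h : RicB G e) (hy : 1 ≤ ‖y‖) (i j : Fin 4) : |ricci G y i j| ≤ e := by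
  obtain ⟨J, h0, h1, h2⟩ := h
  obtain ⟨l, hl, hl'⟩ := exists_nat_pow_near hy one_lt_two
  have a : |ricci G y i j| ≤ J l := by
    simpa [J1] using h2 l y hl hl'.le 0 (by norm_num) i j
  have b := h1 (l + 1)
  rw [Finset.sum_range_succ] at b
  linarith [Finset.sum_nonneg fun x (_ : x ∈ Finset.range l) => h0 x]

section sol

variable {Γ : Subgroup Iso} {n : ℕ} {ε : ℕ → ℝ} (S : Sol Γ G n k U ε)
include S

theorem vv_sm (hG : Fl G) (ht : Fl (gt G k R)) : SmT (vv G k U R) univ := fun I =>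
  ((gau_sm ht.riem I).sub (gau_sm hG.riem I)).sub (S.usm I)

theorem vv_inv (hG : Fl G) (hi : Inv Γ G) (ht : Fl (gt G k R)) {γ : Iso} (hγ : γ ∈ Γ) (x : E4) :
    vv G k U R x = pullT γ (vv G k U R) x := by
  funext I
  have a := gau_inv ht.riem (Ws.inv_glu (inv_sub hi S.inv) (inv_flat Γ)) hγ x
  have e : pullT γ (vv G k U R) x I = pullT γ (fun z J => Lg.gauT flat (gt G k R) z J -
      Lg.gauT flat G z J) x I - pullT γ U x I := AI.pullT_sub _ _ _ _ _
  rw [e, AI.pullT_sub, ← a, ← gau_inv hG.riem hi hγ x, ← S.uinv γ hγ x]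
  rfl

theorem vv_out (hR : 0 < R) (hn : 8 * R = 2 ^ n) (h0 : ∀ y : E4, R ≤ ‖y‖ → G =ᶠ[𝓝 y] flat)
    (hy : 8 * R < ‖y‖) : vv G k U R =ᶠ[𝓝 y] 0 := by
  filter_upwards [gau_congr (glu_ev_out hR (by linarith) (gk G k) flat (by linarith : 2 * R < ‖y‖)),
    gau_congr (h0 y (by linarith)), Ws.ev_gt hy] with z h1 h2 h3
  funext I
  simp only [vv, gt, h1, h2, S.uout z (by linarith), sub_self, Pi.zero_apply]

theorem zz_in (hR : 1 ≤ R) (hn : 8 * R = 2 ^ n) (hy : ‖y‖ < R) (i j : Fin 4) :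
    zz G k U R y i j = 0 := by
  have e : gt G k R =ᶠ[𝓝 y] gk G k := glu_ev_in (by linarith) (by linarith) _ _ hy
  have h : ∀ i j, pderiv i (fun y => vv G k U R y ![j]) y = pderiv i (fun y => Vg G k U y ![j]) y :=
    fun i j => (AI.pderiv_congr ((gau_congr e).mono fun z hz => by
      simp only [vv, hz]; rfl) i).eq_of_nhds
  simp only [zz, Matrix.of_apply, h, ricci_congr e]
  exact sub_eq_zero.2 (S.eqn y (by linarith) i j)

theorem zz_out (hR : 0 < R) (hn : 8 * R = 2 ^ n) (h0 : ∀ y : E4, R ≤ ‖y‖ → G =ᶠ[𝓝 y] flat)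
    (hy : 8 * R < ‖y‖) (i j : Fin 4) : zz G k U R y i j = 0 := by
  have h : ∀ i j, pderiv i (fun y => vv G k U R y ![j]) y = 0 := fun i j => by
    rw [(AI.pderiv_congr (f' := fun _ => 0) ((vv_out S hR hn h0 hy).mono fun z hz => by
      simp only [hz, Pi.zero_apply]) i).eq_of_nhds]
    simp [pderiv]
  have e : gt G k R =ᶠ[𝓝 y] flat := glu_ev_out hR (by linarith) _ _ (by linarith)
  simp [zz, h, ricci_congr e, ricci_congr (h0 y (by linarith)), ricci_flat]

theorem zz_mid (ht : Fl (gt G k R)) (h0 : G =ᶠ[𝓝 y] flat) {b b' : ℝ}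
    (h1 : ∀ i j, |ricci (gt G k R) y i j| ≤ b ∧
      |pderiv i (fun z => Lg.gauT flat (gt G k R) z ![j]) y| ≤ b)
    (h2 : ∀ i j, |symd U y i j| ≤ b') (i j : Fin 4) : |zz G k U R y i j| ≤ 2 * b + b' := by
  have d : ∀ {T : Tn 4 1}, SmT T univ → ∀ I, DifferentiableAt ℝ (fun z => T z I) y := fun h I =>
    ((h I).contDiffAt univ_mem).differentiableAt (by simp)
  have h : ∀ i j, pderiv i (fun y => vv G k U R y ![j]) y =
      pderiv i (fun z => Lg.gauT flat (gt G k R) z ![j]) y - pderiv i (fun z => U z ![j]) y :=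
    fun i j => by
      rw [← pd_sub i (d (gau_sm ht.riem) _) (d S.usm _)]
      exact (AI.pderiv_congr ((gau_congr h0).mono fun z hz => by
        simp only [vv, hz, gau_one, sub_zero]) i).eq_of_nhds
  have a := abs_le.1 (h1 i j).1
  have b1 := abs_le.1 (h1 i j).2
  have b2 := abs_le.1 (h1 j i).2
  have b3 := abs_le.1 (h2 i j)
  have b4 := (abs_nonneg _).trans (h2 i j)
  simp only [symd, Matrix.of_apply] at b3
  simp only [zz, Matrix.of_apply, h, ricci_congr h0, ricci_flat, mul_zero, add_zero]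
  exact abs_le.2 ⟨by linarith, by linarith⟩

end sol

end Crest.Agent.N207.Ph.Xb

end
end

-- ▼ part N207/Ph/Exb
section

/-!
# Row 207, block PHI (helper49): `EXB`
-/

set_option autoImplicit false

open scoped ContDiff Topology
open Set Filter MeasureTheory Metric
open Crest.GeometryTopology.CoordMetric
open Crest.Agent.R202.Tens

noncomputable section

namespace Crest.Agent.N207.Ph

open Sk G

namespace Xb

theorem zz_int : ∃ K : ℝ, 0 ≤ K ∧ ∀ {Γ : Subgroup Iso} {G k : MetricField 4} {U : Tn 4 1} {n : ℕ}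
    {ε : ℕ → ℝ} {R A : ℝ}, Sol Γ G n k U ε → Fl G → Fl (gt G k R) → 1 ≤ R → 8 * R = 2 ^ n →
    (∀ y : E4, R ≤ ‖y‖ → G =ᶠ[𝓝 y] flat) → Sml 2 (gt G k R) (1 / 8) → (∀ l, ε l ≤ A / 3 ^ l) →
    (∫ x : E4, ‖x‖ ^ 2 * ∑ i, ∑ j, zz G k U R x i j ^ 2) ≤ K * A ^ 2 * (4 / 9) ^ n := by
  obtain ⟨C, hC, h⟩ := rg_le
  obtain ⟨D, hD, h2⟩ := jg_two 2
  refine ⟨16 * ((2 * C * D + 1) * 12 ^ 4) ^ 2 * v1, by have := v1_nonneg; positivity, ?_⟩
  intro Γ G k U n ε R A S hG ht hR hn h0 hs hA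
  have hA0 : 0 ≤ A := by
    have a := hA 0
    have b := (S.jet 0 0 (by simp) (by simp)).2 0 0
    simp only [pow_zero, div_one] at a b
    linarith [abs_nonneg (symd U 0 0 0)]
  have a := int_ball (f := fun x => ‖x‖ ^ 2 * ∑ i, ∑ j, zz G k U R x i j ^ 2) (ρ := 2 ^ n)
    (c := (2 ^ n) ^ 2 * (16 * ((2 * C * D + 1) * 12 ^ 4 * A / 12 ^ n) ^ 2)) (by positivity)
    (fun x hx => sq_le hx fun i j => ?_) fun x hx => by
      simp [zz_out S (by linarith) hn h0 (hn ▸ hx)]
  · refine a.trans_eq ?_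
    rw [show (12 : ℝ) ^ n = (2 ^ n) ^ 2 * 3 ^ n by
        rw [← pow_mul, mul_comm n, pow_mul, ← mul_pow]; norm_num,
      show (4 / 9 : ℝ) ^ n = (2 ^ n) ^ 2 / (3 ^ n) ^ 2 by
        rw [← div_pow, ← div_pow, ← pow_mul, mul_comm n, pow_mul]; norm_num]
    field_simp
  rcases lt_or_ge ‖x‖ R with hx' | hx'
  · rw [zz_in S hR hn hx', abs_zero]; positivity
  obtain ⟨l, hl, hl'⟩ := exists_nat_pow_near (x := ‖x‖ + 1) (y := 2)
    (by linarith [norm_nonneg x]) one_lt_two
  obtain ⟨j1, j2⟩ := S.jet l x hl hl'.le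
  have e0 : 0 ≤ ε l := le_trans (by positivity) (j1 0 (by norm_num) 0 0)
  have g := (h2 G k R x 0 (ε l) hG S.sm hR (jg_congr (Ad.jg_flat _ _ _ le_rfl) (h0 x hx'))
    fun m hm => j1 m (by omega)).1
  have g' : JG 2 (gt G k R) x (‖x‖ + 1) (min (D * (0 + ε l)) (1 / 8)) :=
    fun m hm i j => le_min (g m hm i j) (hs x m hm i j)
  refine (zz_mid S ht (h0 x hx') (h _ x _ _ ht.riem (by positivity) (min_le_right _ _) g')
    j2 i j).trans ?_
  have hln : n ≤ l + 4 := by
    by_contra hc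
    rw [pow_succ] at hl'
    have : (2 : ℝ) ^ (l + 5) ≤ 2 ^ n := pow_le_pow_right₀ one_le_two (by omega)
    rw [pow_add] at this
    linarith
  have p4 : (4 : ℝ) ^ l ≤ (‖x‖ + 1) ^ 2 := by
    rw [show (4 : ℝ) ^ l = (2 ^ l) ^ 2 by rw [← pow_mul, mul_comm, pow_mul]; norm_num]
    gcongr
  calc _ ≤ 2 * (C * (D * (0 + ε l) / 4 ^ l)) + ε l / 4 ^ l := by
        gcongr
        exact min_le_left _ _
    _ = (2 * C * D + 1) * (ε l / 4 ^ l) := by ring
    _ ≤ (2 * C * D + 1) * (A / 3 ^ l / 4 ^ l) := by gcongr; exact hA l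
    _ = (2 * C * D + 1) * 12 ^ 4 * A / 12 ^ (l + 4) := by
        rw [div_div, ← mul_pow, pow_add]; norm_num; field_simp
    _ ≤ _ := by gcongr; norm_num

theorem gp_ric : ∃ K : ℝ, 0 ≤ K ∧ ∀ {G k : MetricField 4} {R κ : ℝ}, Fl G → Fl (gp G k R) →
    (∀ i j, ContDiff ℝ ∞ fun y => k y i j) → 64 < R → Sml 2 G (1 / 8) → Sml 2 (gp G k R) (1 / 8) →
    ∀ y : E4, ‖y‖ ≤ 64 → (∀ m ≤ 2, ∀ i j, J1 m (fun z => k z i j) y 1 κ) → ∀ i j,
      |ricci (gp G k R) y i j - ricci G y i j| ≤ K * κ := by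
  obtain ⟨C, hC, h⟩ := ric_lip
  obtain ⟨D, hD, h2⟩ := jb_up 2 2
  refine ⟨C * (2 ^ 2 * D), by positivity, fun {G k R κ} hG hp hk hR s1 s2 y hy hj i j => ?_⟩
  have u := (h2 32 (2 * 32) (by norm_num) (by norm_num) (by norm_num) y (by linarith)).scale
    (s' := 1) (l := 1) (by norm_num) zero_le_one le_rfl (by norm_num)
  refine (h ⟨G, gp G k R, y, 2 ^ 2 * (1 ^ 2 * D * κ), hG.riem, hp.riem, Ws.Sml.one s1 y,
    Ws.Sml.one s2 y, fun m hm a b => ((u.mul zero_le_one
      (jb_neg ⟨(hk a b).contDiffAt, fun l hl => hj l hl a b⟩)).congr ?_).bd m hm⟩ i j).trans_eq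
    (by ring)
  filter_upwards [glu_ev_in (by linarith : 0 < R) (by linarith : R < 2 * R) (gk G k) flat
    (by linarith : ‖y‖ < R)] with z hz
  rw [gp, Ws.glu_apply, gt, hz, gk, Matrix.sub_apply]
  ring

end Xb

open Xb

theorem exb : EXBStmt := by
  rintro ⟨δa, Ca, hδa, hCa, hA⟩ ⟨δv, Cv, hδv, hCv, hV⟩ -
  choose D hD hJ using jg_two
  obtain ⟨Kz, hKz, hZ⟩ := zz_int
  obtain ⟨Kr, hKr, hR⟩ := gp_ric
  have hv := v1_nonneg
  have hD3 := hD 3
  set K : ℝ := 64 ^ 2 * (16 * (1 + Kr * Ca) ^ 2) * (64 ^ 4 * v1) + Cv * (Ca + 1) ^ 2 with hK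
  have hK0 : 0 ≤ K := by positivity
  have hη : 0 < min δv (1 / 8) := lt_min hδv (by norm_num)
  refine ⟨min δa (min δv (1 / 8) / (D 3 * (1 + Ca))), K + 1 + D 3 * (1 + Ca), by positivity,
    by positivity, fun Cs => ?_⟩
  obtain ⟨Cs', hA⟩ := hA Cs
  refine ⟨fun m => D m * (∑ j ∈ Finset.range (m + 1), |Cs j| + ∑ j ∈ Finset.range (m + 1), |Cs' j|),
    fun Γ G δ τ hΓ hG hi hδ hS hall hτ => ?_⟩
  obtain ⟨ε, A, n0, e0, e1, e2, hn⟩ := hA Γ G δ hG hi (hδ.trans (min_le_left _ _)) hS hall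
  have hδ0 := Ad.ds_nonneg hS
  have hδ1 : D 3 * (δ + Ca * δ) ≤ min δv (1 / 8) := by
    have := (le_div_iff₀ (by positivity)).1 (hδ.trans (min_le_right _ _))
    linarith
  have hδ2 : δ + Ca * δ ≤ D 3 * (δ + Ca * δ) := le_mul_of_one_le_left (by positivity) hD3
  have hCδ : 0 ≤ Ca * δ := by positivity
  have m1 := min_le_left δv (1 / 8)
  have m2 := min_le_right δv (1 / 8)
  obtain ⟨R0, hR0⟩ := hG.flat
  have t1 := (tendsto_pow_atTop_atTop_of_one_lt (one_lt_two (α := ℝ))).eventually_gt_atTop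
    (8 * max R0 64)
  have t2 := ((tendsto_pow_atTop_nhds_zero_of_lt_one (r := (4 / 9 : ℝ)) (by norm_num)
    (by norm_num)).const_mul (Kz * A ^ 2)).eventually_le_const (u := τ ^ 2) (by simpa using pow_pos hτ 2)
  obtain ⟨n, ⟨n1, n2⟩, n3⟩ := (((eventually_ge_atTop n0).and t1).and t2).exists
  obtain ⟨k, U, S, hk, hke⟩ := hn n n1
  obtain ⟨R, h8⟩ : ∃ R : ℝ, 8 * R = 2 ^ n := ⟨2 ^ n / 8, by ring⟩
  have r1 : R0 < R := by linarith [le_max_left R0 64]
  have r2 : 64 < R := by linarith [le_max_right R0 64]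
  have h0 : ∀ y : E4, R ≤ ‖y‖ → G =ᶠ[𝓝 y] flat := fun y hy =>
    (Ws.ev_gt (r1.trans_le hy)).mono fun z hz => hR0 z hz.le
  have sG := Ad.ds_sml hS (by norm_num : 3 ≤ 4)
  have sk : ∀ y : E4, ∀ m ≤ 3, ∀ i j, J1 m (fun z => k z i j) y (‖y‖ + 1) (Ca * δ) :=
    fun y m hm i j => by
      obtain ⟨l, hl, hl'⟩ := exists_nat_pow_near (x := ‖y‖ + 1) (y := 2)
        (by linarith [norm_nonneg y]) one_lt_two
      have b := e1 (l + 1)
      rw [Finset.sum_range_succ] at b
      exact ((S.jet l y hl hl'.le).1 m hm i j).trans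
        (by linarith [Finset.sum_nonneg fun x (_ : x ∈ Finset.range l) => e0 x])
  have s2 := fun y => hJ 3 G k R y _ _ hG S.sm (by linarith) (sG y) (sk y)
  have ft : Fl (gt G k R) := fl_gt hG S.sm S.sy (by linarith) fun y =>
    jg_of_le (jg_mono (jg_gk hG S.sm (by positivity) (sG y) (sk y)) (by linarith)) (by norm_num)
  have fp : Fl (gp G k R) := Ws.fl_glu (by norm_num) (by norm_num) hG ft
  have sG' : ∀ c, δ ≤ c → Sml 2 G c := fun c hc y => jg_of_le (jg_mono (sG y) hc) (by norm_num)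
  have st : ∀ c, min δv (1 / 8) ≤ c → Sml 2 (gt G k R) c := fun c hc y =>
    jg_of_le (jg_mono (s2 y).1 (hδ1.trans hc)) (by norm_num)
  refine ⟨gp G k R, fp, Ws.inv_glu hi (Ws.inv_glu (inv_sub hi S.inv) (inv_flat Γ)), ?_,
    fun y m i j => ?_, fun y hy => Cm.glu_in (by norm_num) (by norm_num)
      (mem_ball_zero_iff.1 hy).le, fun e he hB => ?_⟩
  · obtain ⟨εG, g0, g1, g2⟩ := hS
    refine ⟨fun l => D 3 * (εG l + ε l), fun l => by have := g0 l; have := e0 l; positivity,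
      fun n => ?_, fun l y hl hl' => (hJ 3 G k R y _ _ hG S.sm (by linarith)
        (jg_of_le (g2 l y hl hl') (by norm_num)) (S.jet l y hl hl').1).2⟩
    rw [← Finset.mul_sum, Finset.sum_add_distrib]
    calc _ ≤ D 3 * (δ + Ca * δ) := by gcongr; exacts [g1 n, e1 n]
      _ ≤ _ := by nlinarith
  · rw [mul_one]
    exact (hJ m G k R y _ _ hG S.sm (by linarith)
      (fun l hl i j => (hall y l i j).trans (by rw [mul_one]; exact le_sum_abs Cs hl))
      fun l hl i j => (hk y l i j).trans (le_sum_abs Cs' hl)).2 m le_rfl i j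
  have he0 : 0 < e := hτ.trans_le he
  have hCe : 0 ≤ Ca * e := by positivity
  have a := hV Γ G (gt G k R) (vv G k U R) (zz G k U R) ((Ca + 1) * e) hΓ hG ft
    (sG' _ (by linarith)) (st _ m1) (vv_sm S hG ft)
    ⟨8 * R + 1, fun x hx => (vv_out S (by linarith) h8 h0 (by linarith)).eq_of_nhds⟩
    (fun γ hγ => vv_inv S hG hi ft hγ) (fun x i j => by simp [zz])
    (fun x hx m hm i j => by
      refine ((jb_neg ⟨(S.sm i j).contDiffAt, fun l hl => hke e hB x (by linarith) l hl i j⟩).congr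
        ?_).bd m (by omega) |>.trans (by linarith)
      filter_upwards [glu_ev_in (by linarith : 0 < R) (by linarith : R < 2 * R) (gk G k) flat
        (by linarith : ‖x‖ < R)] with z hz
      simp only [gt, hz, gk, Matrix.sub_apply]
      ring)
    (fun x hx _ i j => (ricB_le hB hx i j).trans (by linarith))
    ((hZ S hG ft (by linarith) h8 h0 (st _ m2) e2).trans (n3.trans (by gcongr; linarith)))
  have b := rl_split fp ft (B := (1 + Kr * Ca) * e) (fun x h1 h2 i j => by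
      have c1 := abs_le.1 (ricB_le hB h1 i j)
      have c2 := abs_le.1 (hR hG fp S.sm r2 (sG' _ (by linarith))
        (fun y => jg_of_le (jg_mono (s2 y).2 (hδ1.trans m2)) (by norm_num)) x h2 (hke e hB x h2) i j)
      exact abs_le.2 ⟨by linarith, by linarith⟩)
    fun x hx => ricci_congr (glu_ev_out (by norm_num) (by norm_num) _ _ (by linarith))
  calc _ ≤ K * e ^ 2 := by rw [hK]; linarith
    _ ≤ (K + 1) ^ 2 * e ^ 2 := by gcongr; nlinarith
    _ ≤ _ := by
      have := mul_pos (by linarith : 0 < D 3) (by linarith : 0 < 1 + Ca)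
      rw [← mul_pow]
      exact pow_le_pow_left₀ (by positivity) (mul_le_mul_of_nonneg_right (by linarith) he0.le) 2

end Crest.Agent.N207.Ph

end
end

-- ▼ part N207/Ph/Nw6
section

/-!
# Row 207, block PHI (helper48): Newton kit, part 6: `la : LAStmt`
-/

set_option autoImplicit false
set_option linter.unusedSectionVars false

open scoped ContDiff Topology Pointwise RealInnerProductSpace
open MeasureTheory Set Filter Metric
open Crest.GeometryTopology.CoordMetric Crest.GeometryTopology.ChartCurvature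

noncomputable section

namespace Crest.Agent.N207.Ph

open Crest.Agent.R240.Fr (NK NKi cN cN_pos lap ker_NKi contDiff_coord)
open Crest.Agent.NLib.Ell (ei)

/-! ### isometries in components -/

/-- the matrix of an isometry -/
def om (A : Iso) (i a : Fin 4) : ℝ := A (ei i) a

theorem sum_ei (x : E4) : x = ∑ i, x i • (ei i : E4) := by
  have := (EuclideanSpace.basisFun (Fin 4) ℝ).sum_repr x
  simpa using this.symm

theorem iso_coord (A : Iso) (x : E4) (a : Fin 4) : A x a = ∑ i, x i * om A i a := by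
  conv_lhs => rw [sum_ei x]
  simp [om, map_sum]

theorem inner_sum4 (v w : E4) : ⟪v, w⟫ = ∑ i, v i * w i := by
  rw [PiLp.inner_apply]
  exact Finset.sum_congr rfl fun i _ => by simp [mul_comm]

theorem coord_iso (A : Iso) (y : E4) (c : Fin 4) : y c = ∑ d, om A c d * A y d := by
  have h := A.inner_map_map (ei c) y
  rw [inner_sum4, EuclideanSpace.inner_single_left] at h
  simpa [om] using h.symm

theorem om_orth (A : Iso) (a b : Fin 4) :
    ∑ i, om A i a * om A i b = if a = b then 1 else 0 := by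
  have h1 : ∀ i a, om A i a = A.symm (ei a) i := fun i a => by
    rw [coord_iso A (A.symm (ei a)) i]
    simp
  have h := A.symm.inner_map_map (ei a) (ei b)
  rw [inner_sum4, EuclideanSpace.inner_single_left] at h
  simp only [h1, h]
  simp

theorem fderiv_iso_app (A : Iso) (y v : E4) : fderiv ℝ A y v = A v := by
  have h := (A.toContinuousLinearEquiv : E4 →L[ℝ] E4).fderiv (x := y)
  exact congrArg (fun L : E4 →L[ℝ] E4 => L v) h

theorem pbm_iso (A : Iso) (f : MetricField 4) (y : E4) (i j : Fin 4) :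
    pbm A f y i j = ∑ a, ∑ b, om A i a * om A j b * f (A y) a b := by
  simp only [pbm, Matrix.of_apply, pullT, evT, fderiv_iso_app]
  rw [← (finTwoArrowEquiv (Fin 4)).symm.sum_comp, Fintype.sum_prod_type]
  refine Finset.sum_congr rfl fun a _ => Finset.sum_congr rfl fun b _ => ?_
  simp [Fin.prod_univ_two, finTwoArrowEquiv, matT, om]

theorem pullT_iso1 (A : Iso) (V : Tn 4 1) (y : E4) (I : Fin 1 → Fin 4) :
    pullT A V y I = ∑ a, om A (I 0) a * V (A y) ![a] := by
  simp only [pullT, evT, fderiv_iso_app]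
  rw [← (Equiv.funUnique (Fin 1) (Fin 4)).symm.sum_comp]
  refine Finset.sum_congr rfl fun a _ => ?_
  have e : (Equiv.funUnique (Fin 1) (Fin 4)).symm a = ![a] := by
    funext s; fin_cases s; rfl
  simp [e, om]

theorem pd_iso (A : Iso) (g : E4 → ℝ) (i : Fin 4) (x : E4) :
    pderiv i (fun y => g (A y)) x = ∑ a, om A i a * pderiv a g (A x) := by
  have h := A.toContinuousLinearEquiv.comp_right_fderiv (f := g) (x := x)
  have e : (fun y => g (A y)) = g ∘ A.toContinuousLinearEquiv := rfl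
  unfold pderiv
  rw [e, h]
  change fderiv ℝ g (A x) (A (ei i)) = _
  conv_lhs => rw [sum_ei (A (ei i))]
  simp [map_sum, om]

theorem sm_pd' {g : E4 → ℝ} (hg : ContDiff ℝ ∞ g) (i : Fin 4) : ContDiff ℝ ∞ (pderiv i g) :=
  R240.Fr.fderiv_apply_contDiff hg _

theorem dA {g : E4 → ℝ} (hg : ContDiff ℝ ∞ g) (x : E4) : DifferentiableAt ℝ g x :=
  hg.differentiable (by simp) x

theorem sm_iso (A : Iso) {g : E4 → ℝ} (hg : ContDiff ℝ ∞ g) : ContDiff ℝ ∞ fun y => g (A y) :=
  hg.comp A.toContinuousLinearEquiv.contDiff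

theorem lap_iso (A : Iso) {g : E4 → ℝ} (hg : ContDiff ℝ ∞ g) (x : E4) :
    lap (fun y => g (A y)) x = lap g (A x) := by
  rw [lap_eq_sum, lap_eq_sum]
  have e : ∀ i, pderiv i (pderiv i fun y => g (A y)) x =
      ∑ b, ∑ a, om A i b * om A i a * pderiv a (pderiv b g) (A x) := fun i => by
    rw [funext (pd_iso A g i), pd_sum i _ fun b _ =>
      dA (contDiff_const.mul (sm_iso A (sm_pd' hg b))) x]
    refine Finset.sum_congr rfl fun b _ => ?_
    rw [pd_cmul, pd_iso, Finset.mul_sum]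
    exact Finset.sum_congr rfl fun a _ => by ring
  simp only [e]
  rw [Finset.sum_comm]
  refine Finset.sum_congr rfl fun b _ => ?_
  rw [Finset.sum_comm]
  simp only [← Finset.sum_mul, om_orth]
  simp

theorem lap_add {g h : E4 → ℝ} (hg : ContDiff ℝ ∞ g) (hh : ContDiff ℝ ∞ h) (x : E4) :
    lap (fun y => g y + h y) x = lap g x + lap h x := by
  simp only [lap_eq_sum, ← Finset.sum_add_distrib]
  refine Finset.sum_congr rfl fun i _ => ?_
  rw [show pderiv i (fun y => g y + h y) = fun y => pderiv i g y + pderiv i h y from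
    funext fun y => pd_add i (dA hg y) (dA hh y), pd_add i (dA (sm_pd' hg i) x) (dA (sm_pd' hh i) x)]

theorem lap_sub {g h : E4 → ℝ} (hg : ContDiff ℝ ∞ g) (hh : ContDiff ℝ ∞ h) (x : E4) :
    lap (fun y => g y - h y) x = lap g x - lap h x := by
  simp only [lap_eq_sum, ← Finset.sum_sub_distrib]
  refine Finset.sum_congr rfl fun i _ => ?_
  rw [show pderiv i (fun y => g y - h y) = fun y => pderiv i g y - pderiv i h y from
    funext fun y => pd_sub i (dA hg y) (dA hh y), pd_sub i (dA (sm_pd' hg i) x) (dA (sm_pd' hh i) x)]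

theorem lap_cmul (c : ℝ) (g : E4 → ℝ) (x : E4) : lap (fun y => c * g y) x = c * lap g x := by
  simp only [lap_eq_sum, Finset.mul_sum]
  refine Finset.sum_congr rfl fun i _ => ?_
  rw [show pderiv i (fun y => c * g y) = fun y => c * pderiv i g y from
    funext fun y => pd_cmul i c, pd_cmul]

theorem lap_sum {ι : Type*} (s : Finset ι) {g : ι → E4 → ℝ} (hg : ∀ a ∈ s, ContDiff ℝ ∞ (g a))
    (x : E4) : lap (fun y => ∑ a ∈ s, g a y) x = ∑ a ∈ s, lap (g a) x := by
  simp only [lap_eq_sum]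
  rw [Finset.sum_comm]
  refine Finset.sum_congr rfl fun i _ => ?_
  rw [show pderiv i (fun y => ∑ a ∈ s, g a y) = fun y => ∑ a ∈ s, pderiv i (g a) y from
    funext fun y => pd_sum i s fun a ha => dA (hg a ha) y,
    pd_sum i s fun a ha => dA (sm_pd' (hg a ha) i) x]

theorem lap_congr {g h : E4 → ℝ} {x : E4} (e : g =ᶠ[𝓝 x] h) : lap g x = lap h x := by
  simp only [lap_eq_sum]
  exact Finset.sum_congr rfl fun i _ => pd_congr i (pd_congr_ev i e)

theorem lap_pd {g : E4 → ℝ} (hg : ContDiff ℝ ∞ g) (i : Fin 4) (x : E4) :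
    lap (pderiv i g) x = pderiv i (lap g) x := by
  have c2 : ∀ {g : E4 → ℝ}, ContDiff ℝ ∞ g → ∀ y, ContDiffAt ℝ 2 g y := fun h y =>
    h.contDiffAt.of_le R247.Bo84.two_le_infty
  rw [show lap g = fun y => ∑ a, pderiv a (pderiv a g) y from rfl,
    pd_sum i _ fun a _ => dA (sm_pd' (sm_pd' hg a) a) x, lap_eq_sum]
  refine Finset.sum_congr rfl fun a _ => ?_
  rw [show pderiv a (pderiv i g) = pderiv i (pderiv a g) from
    funext fun y => pd_comm a i (c2 hg y), pd_comm a i (c2 (sm_pd' hg a) x)]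

theorem symd_iso (A : Iso) {V : Tn 4 1} (hV : ∀ I, ContDiff ℝ ∞ fun y => V y I) :
    symd (pullT A V) = pbm A (symd V) := by
  funext x
  ext i j
  have e : ∀ i j : Fin 4, pderiv i (fun y => pullT A V y ![j]) x =
      ∑ a, ∑ b, om A i a * om A j b * pderiv a (fun y => V y ![b]) (A x) := fun i j => by
    simp only [pullT_iso1, Matrix.cons_val_zero]
    rw [pd_sum i _ fun b _ => dA (contDiff_const.mul (sm_iso A (hV _))) x, Finset.sum_comm]
    refine Finset.sum_congr rfl fun b _ => ?_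
    rw [pd_cmul, pd_iso A fun y => V y ![b], Finset.mul_sum]
    exact Finset.sum_congr rfl fun a _ => by ring
  rw [pbm_iso]
  simp only [symd, Matrix.of_apply, e, mul_add, Finset.sum_add_distrib]
  congr 1
  rw [Finset.sum_comm]
  exact Finset.sum_congr rfl fun a _ => Finset.sum_congr rfl fun b _ => by ring

/-! ### the gauge fields -/

theorem intOn_Sh_mul {k g : E4 → ℝ} (hk : LocallyIntegrable k) (hg : Continuous g) (l : ℕ) :
    IntegrableOn (fun y => k y * g y) (Sh l) :=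
  ((hk.integrableOn_isCompact (isCompact_closedBall (0 : E4) (2 ^ (l + 1)))).mul_continuousOn
    hg.continuousOn (isCompact_closedBall _ _)).mono_set
    ((Sh_sub l).trans ball_subset_closedBall)

theorem locInt_NKi (c : Fin 4) : LocallyIntegrable (NKi c) := (ker_NKi c).locInt le_rfl

theorem NKi_iso (A : Iso) (c : Fin 4) (y : E4) : NKi c y = ∑ d, om A c d * NKi d (A y) := by
  simp only [NKi, LinearIsometryEquiv.norm_map]
  rw [coord_iso A y c, Finset.mul_sum, Finset.sum_mul]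
  exact Finset.sum_congr rfl fun d _ => by ring

theorem p0_pbm (A : Iso) (l : ℕ) {f : MetricField 4} (hf : ∀ i j, Continuous fun y => f y i j)
    (i j : Fin 4) : p0 l (pbm A f) i j = ∑ a, ∑ b, om A i a * om A j b * p0 l f a b := by
  have hi : ∀ a b, IntegrableOn (fun y => om A i a * om A j b * (NK y * f y a b)) (Sh l) :=
    fun a b => (intOn_Sh_mul locInt_NK (hf a b) l).const_mul _
  simp only [p0, ← integral_const_mul]
  simp_rw [← integral_finsetSum _ fun b _ => hi _ b]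
  rw [← integral_finsetSum _ fun a _ => integrable_finsetSum _ fun b _ => hi a b,
    ← int_Sh_iso A l fun y => ∑ a, ∑ b, om A i a * om A j b * (NK y * f y a b)]
  refine integral_congr_ae (Eventually.of_forall fun y => ?_)
  simp only [pbm_iso, NK_iso, Finset.mul_sum]
  exact Finset.sum_congr rfl fun a _ => Finset.sum_congr rfl fun b _ => by ring

theorem p1_pbm (A : Iso) (l : ℕ) {f : MetricField 4} (hf : ∀ i j, Continuous fun y => f y i j)
    (i j c : Fin 4) :
    p1 l (pbm A f) i j c = ∑ a, ∑ b, ∑ d, om A i a * om A j b * om A c d * p1 l f a b d := by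
  have hi : ∀ a b d, IntegrableOn
      (fun y => om A i a * om A j b * om A c d * (NKi d y * f y a b)) (Sh l) :=
    fun a b d => (intOn_Sh_mul (locInt_NKi d) (hf a b) l).const_mul _
  simp only [p1, mul_neg, Finset.sum_neg_distrib, ← integral_const_mul, neg_inj]
  simp_rw [← integral_finsetSum _ fun d _ => hi _ _ d]
  simp_rw [← integral_finsetSum _ fun b _ => integrable_finsetSum _ fun d _ => hi _ b d]
  rw [← integral_finsetSum _ fun a _ => integrable_finsetSum _ fun b _ =>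
      integrable_finsetSum _ fun d _ => hi a b d,
    ← int_Sh_iso A l fun y => ∑ a, ∑ b, ∑ d, om A i a * om A j b * om A c d * (NKi d y * f y a b)]
  refine integral_congr_ae (Eventually.of_forall fun y => ?_)
  simp only [pbm_iso, NKi_iso A c y, Finset.mul_sum, Finset.sum_mul]
  exact Finset.sum_congr rfl fun a _ => Finset.sum_congr rfl fun b _ =>
    Finset.sum_congr rfl fun d _ => by ring

theorem alg2 (o P : Fin 4 → Fin 4 → ℝ) (x : Fin 4 → ℝ) (m : Fin 4) :
    ∑ a, (∑ c, ∑ d, o m c * o a d * P c d) / 2 * x a =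
      ∑ c, o m c * ∑ d, P c d / 2 * ∑ a, x a * o a d := by
  simp only [Fin.sum_univ_four]; ring

theorem alg3 (o Q : Fin 4 → Fin 4 → ℝ) (x : Fin 4 → ℝ) :
    ∑ a, ∑ b, (∑ d, ∑ e, o a d * o b e * Q d e) * (x a * x b) =
      ∑ d, ∑ e, Q d e * ((∑ a, x a * o a d) * ∑ a, x a * o a e) := by
  simp only [Fin.sum_univ_four]; ring

theorem alg4 (o z : Fin 4 → ℝ) (R : Fin 4 → Fin 4 → Fin 4 → ℝ) :
    ∑ d, ∑ e, (∑ c, o c * R c d e) * (z d * z e) =
      ∑ c, o c * ∑ d, ∑ e, R c d e * (z d * z e) := by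
  simp only [Fin.sum_univ_four]; ring

theorem Xg_pbm (A : Iso) (l : ℕ) {f : MetricField 4} (hf : ∀ i j, Continuous fun y => f y i j)
    (m : Fin 4) (x : E4) : Xg l (pbm A f) m x = ∑ c, om A m c * Xg l f c (A x) := by
  simp only [Xg, p0_pbm A l hf, p1_pbm A l hf, iso_coord, mul_add, Finset.sum_add_distrib]
  rw [alg2]
  congr 1
  have h := alg3 (om A)
    (fun d e => ∑ c, om A m c * (p1 l f c d e / 2 - p1 l f d e c / 4)) x
  refine Eq.trans (Finset.sum_congr rfl fun a _ => Finset.sum_congr rfl fun b _ => ?_)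
    (h.trans ?_)
  · congr 1
    simp only [Fin.sum_univ_four]; ring
  · exact alg4 (om A m) (fun d => ∑ a, x a * om A a d)
      fun c d e => p1 l f c d e / 2 - p1 l f d e c / 4

theorem zt_iso (A : Iso) (l : ℕ) (x : E4) : zt l (A x) = zt l x := by
  simp [zt, up, norm_smul]

theorem zt_smooth (l : ℕ) : ContDiff ℝ ∞ (zt l) :=
  contDiff_const.sub ((up_smooth _ _).comp (contDiff_id.const_smul _))

theorem norm_zt_arg (l : ℕ) (x : E4) : ‖((2 : ℝ) ^ l)⁻¹ • x‖ = ‖x‖ / 2 ^ l := by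
  rw [norm_smul, Real.norm_of_nonneg (by positivity), inv_mul_eq_div]

theorem zt_eq_zero {l : ℕ} {x : E4} (h : 2 ^ l / 8 ≤ ‖x‖) : zt l x = 0 := by
  rw [zt, up_eq_one (by norm_num) (by norm_num), sub_self]
  rw [norm_zt_arg, le_div_iff₀ (by positivity)]; linarith

theorem zt_eq_one {l : ℕ} {x : E4} (h : ‖x‖ ≤ 2 ^ l / 16) : zt l x = 1 := by
  rw [zt, up_eq_zero (by norm_num) (by norm_num), sub_zero]
  rw [norm_zt_arg, div_le_iff₀ (by positivity)]; linarith

theorem Xg_smooth (l : ℕ) (f : MetricField 4) (m : Fin 4) : ContDiff ℝ ∞ (Xg l f m) :=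
  (ContDiff.sum fun a _ => contDiff_const.mul (contDiff_coord a)).add
    (ContDiff.sum fun a _ => ContDiff.sum fun b _ =>
      contDiff_const.mul ((contDiff_coord a).mul (contDiff_coord b)))

theorem Wg_smooth (n : ℕ) (f : MetricField 4) (I : Fin 1 → Fin 4) :
    ContDiff ℝ ∞ fun x => Wg n f x I :=
  ContDiff.sum fun l _ => (zt_smooth l).mul (Xg_smooth l f _)

theorem UU_smooth (n : ℕ) (f : MetricField 4) (I : Fin 1 → Fin 4) :
    ContDiff ℝ ∞ fun x => UU n f x I := lap_contDiff (Wg_smooth n f I)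

theorem symd_smooth {V : Tn 4 1} (hV : ∀ I, ContDiff ℝ ∞ fun y => V y I) (i j : Fin 4) :
    ContDiff ℝ ∞ fun y => symd V y i j := (sm_pd' (hV _) i).add (sm_pd' (hV _) j)

theorem Wg_pbm (A : Iso) (n : ℕ) {f : MetricField 4} (hf : ∀ i j, Continuous fun y => f y i j) :
    Wg n (pbm A f) = pullT A (Wg n f) := by
  funext x I
  rw [pullT_iso1]
  simp only [Wg, Xg_pbm A _ hf, zt_iso, Finset.mul_sum, Matrix.cons_val_zero]
  rw [Finset.sum_comm]
  exact Finset.sum_congr rfl fun a _ => Finset.sum_congr rfl fun l _ => by ring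

theorem UU_pbm (A : Iso) (n : ℕ) {f : MetricField 4} (hf : ∀ i j, Continuous fun y => f y i j) :
    UU n (pbm A f) = pullT A (UU n f) := by
  funext x I
  rw [pullT_iso1]
  simp only [UU, Wg_pbm A n hf, pullT_iso1]
  rw [lap_sum _ fun a _ => contDiff_const.mul (sm_iso A (Wg_smooth n f _))]
  refine Finset.sum_congr rfl fun a _ => ?_
  rw [lap_cmul, lap_iso A (Wg_smooth n f _)]

theorem hcs_entry {f : MetricField 4} {n : ℕ} (h0 : ∀ y : E4, 2 ^ n ≤ ‖y‖ + 1 → f y = 0)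
    (i j : Fin 4) : HasCompactSupport fun y => f y i j :=
  hcs_of_lv (n := n) fun y hy => by rw [h0 y hy]; rfl

theorem KK_pbm (A : Iso) {n : ℕ} {f : MetricField 4} (hf : ∀ i j, Continuous fun y => f y i j)
    (h0 : ∀ y : E4, 2 ^ n ≤ ‖y‖ + 1 → f y = 0) : KK n (pbm A f) = pbm A (KK n f) := by
  funext x
  ext i j
  have hc : ∀ a b, Continuous fun y => (om A i a * om A j b) • f y a b := fun a b =>
    (hf a b).const_smul (om A i a * om A j b)
  have hs : ∀ a b, HasCompactSupport fun y => (om A i a * om A j b) • f y a b := fun a b =>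
    hcs_of_lv (n := n) fun y hy => by rw [h0 y hy]; simp
  have e : Nw (fun y => pbm A f y i j) x =
      ∑ a, ∑ b, om A i a * om A j b * Nw (fun y => f y a b) (A x) := by
    simp only [pbm_iso]
    rw [Nw_isom A fun y => ∑ a, ∑ b, om A i a * om A j b * f y a b]
    refine (Nw_sum _ (f := fun a y => ∑ b, (om A i a * om A j b) • f y a b)
      (fun a _ => continuous_finsetSum _ fun b _ => hc a b)
      (fun a _ => hcs_of_lv (n := n) fun y hy => by rw [h0 y hy]; simp) _).trans ?_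
    refine Finset.sum_congr rfl fun a _ => ?_
    rw [Nw_sum _ (fun b _ => hc a b) fun b _ => hs a b]
    exact Finset.sum_congr rfl fun b _ => Nw_smul _ _ _
  rw [pbm_iso, KK, Matrix.of_apply, e]
  simp only [KK, Matrix.of_apply, Wg_pbm A n hf, symd_iso A (Wg_smooth n f), pbm_iso, mul_sub,
    Finset.sum_sub_distrib]

theorem Wg_sub (n : ℕ) {f g : MetricField 4} (hf : ∀ i j, Continuous fun y => f y i j)
    (hg : ∀ i j, Continuous fun y => g y i j) (x : E4) (I : Fin 1 → Fin 4) :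
    Wg n (fun y => f y - g y) x I = Wg n f x I - Wg n g x I := by
  have e0 : ∀ l i j, p0 l (fun y => f y - g y) i j = p0 l f i j - p0 l g i j := fun l i j => by
    simp only [p0, Matrix.sub_apply, mul_sub]
    exact integral_sub (intOn_Sh_mul locInt_NK (hf i j) l) (intOn_Sh_mul locInt_NK (hg i j) l)
  have e1 : ∀ l i j c, p1 l (fun y => f y - g y) i j c = p1 l f i j c - p1 l g i j c :=
    fun l i j c => by
      simp only [p1, Matrix.sub_apply, mul_sub]
      rw [integral_sub (intOn_Sh_mul (locInt_NKi c) (hf i j) l)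
        (intOn_Sh_mul (locInt_NKi c) (hg i j) l)]
      ring
  simp only [Wg, ← Finset.sum_sub_distrib, ← mul_sub]
  refine Finset.sum_congr rfl fun l _ => ?_
  congr 1
  simp only [Xg, e0, e1, Fin.sum_univ_four]
  ring

theorem KK_smooth {n : ℕ} {f : MetricField 4} (hf : ∀ i j, ContDiff ℝ ∞ fun y => f y i j)
    (h0 : ∀ y : E4, 2 ^ n ≤ ‖y‖ + 1 → f y = 0) (i j : Fin 4) :
    ContDiff ℝ ∞ fun y => KK n f y i j :=
  (Nw_contDiff (hf i j) (hcs_entry h0 i j)).sub (symd_smooth (Wg_smooth n f) i j)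

theorem lap_KK {n : ℕ} {f : MetricField 4} (hf : ∀ i j, ContDiff ℝ ∞ fun y => f y i j)
    (h0 : ∀ y : E4, 2 ^ n ≤ ‖y‖ + 1 → f y = 0) (x : E4) (i j : Fin 4) :
    lap (fun y => KK n f y i j) x + symd (UU n f) x i j = f x i j := by
  have e := lap_sub (Nw_contDiff (hf i j) (hcs_entry h0 i j)) (symd_smooth (Wg_smooth n f) i j) x
  have e2 := lap_add (sm_pd' (Wg_smooth n f ![j]) i) (sm_pd' (Wg_smooth n f ![i]) j) x
  rw [lap_pd (Wg_smooth n f _), lap_pd (Wg_smooth n f _)] at e2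
  rw [lap_Nw (hf i j) (hcs_entry h0 i j)] at e
  have e3 : lap (fun y => symd (Wg n f) y i j) x = symd (UU n f) x i j := e2
  rw [← e3]
  exact (congrArg (· + _) e).trans (sub_add_cancel _ _)

theorem UU_out (n : ℕ) (f : MetricField 4) {x : E4} (hx : 2 ^ n ≤ ‖x‖) : UU n f x = 0 := by
  funext I
  have h : (fun y => Wg n f y I) =ᶠ[𝓝 x] fun _ => 0 := by
    have h2 : (0 : ℝ) < 2 ^ n := by positivity
    have : ∀ᶠ y in 𝓝 x, (2 : ℝ) ^ n / 2 < ‖y‖ :=
      continuous_norm.continuousAt.eventually (lt_mem_nhds (by linarith))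
    filter_upwards [this] with y hy
    refine Finset.sum_eq_zero fun l hl => ?_
    have : (2 : ℝ) ^ l ≤ 2 ^ n := pow_le_pow_right₀ one_le_two (Finset.mem_range.1 hl).le
    rw [zt_eq_zero (by linarith), zero_mul]
  rw [UU, lap_congr h]
  simp [lap]

theorem la : LAStmt := by
  refine ⟨fun n f => ⟨fun I => (UU_smooth n f I).contDiffOn, fun x hx => UU_out n f hx⟩,
    fun n f hf h0 => ⟨KK_smooth hf h0, fun hs y => ?_, lap_KK hf h0,
      fun A => KK_pbm A (fun i j => (hf i j).continuous) h0⟩,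
    fun n f g hf hg => ⟨?_, fun h0 h0' => ?_⟩, fun n f A hf => UU_pbm A n hf⟩
  · ext i j
    have e : (fun y => f y j i) = fun y => f y i j := funext fun y => (hs y).apply i j
    simp only [KK, symd, Matrix.transpose_apply, Matrix.of_apply, e, add_comm]
  · funext x I
    simp only [UU, Wg_sub n hf hg, Pi.sub_apply]
    exact lap_sub (Wg_smooth n f I) (Wg_smooth n g I) x
  · funext x
    ext i j
    simp only [KK, symd, Matrix.of_apply, Matrix.sub_apply, Wg_sub n hf hg]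
    rw [Nw_sub (hf i j) (hcs_entry h0 i j) (hg i j) (hcs_entry h0' i j),
      pd_sub i (dA (Wg_smooth n f _) x) (dA (Wg_smooth n g _) x),
      pd_sub j (dA (Wg_smooth n f _) x) (dA (Wg_smooth n g _) x)]
    ring

/-- invariance -/
theorem inv_iff {Γ : Subgroup Iso} {f : MetricField 4} : Inv Γ f ↔ ∀ γ ∈ Γ, pbm γ f = f := by
  refine forall₂_congr fun γ _ => ⟨fun h => ?_, fun h x => ?_⟩
  · funext x
    ext i j
    exact (congrFun (h x) ![i, j]).symm
  · funext I
    have e : I = ![I 0, I 1] := by funext s; fin_cases s <;> rfl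
    have := congrFun (congrFun (congrFun h x) (I 0)) (I 1)
    rw [e]
    exact this.symm

theorem KK_inv {Γ : Subgroup Iso} {n : ℕ} {f : MetricField 4}
    (hf : ∀ i j, Continuous fun y => f y i j) (h0 : ∀ y : E4, 2 ^ n ≤ ‖y‖ + 1 → f y = 0)
    (h : Inv Γ f) : Inv Γ (KK n f) :=
  inv_iff.2 fun γ hγ => by rw [← KK_pbm γ hf h0, inv_iff.1 h γ hγ]

theorem UU_inv {Γ : Subgroup Iso} (n : ℕ) {f : MetricField 4}
    (hf : ∀ i j, Continuous fun y => f y i j) (h : Inv Γ f) :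
    ∀ γ ∈ Γ, ∀ x, UU n f x = pullT γ (UU n f) x := fun γ hγ x => by
  rw [← UU_pbm γ n hf, inv_iff.1 h γ hγ]

end Crest.Agent.N207.Ph

end
end

-- ▼ part N207/Ph/Nw7
section

/-!
# Row 207, block PHI (helper48): Newton kit, part 7: the gauge fields on cells, `lu : LUStmt`
-/

set_option autoImplicit false
set_option linter.unusedSectionVars false

open scoped ContDiff Topology Pointwise RealInnerProductSpace
open MeasureTheory Set Filter Metric
open Crest.GeometryTopology.CoordMetric Crest.GeometryTopology.ChartCurvature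

noncomputable section

namespace Crest.Agent.N207.Ph

open Crest.Agent.R240.Fr (NK NKi cN cN_pos lap ker_NKi contDiff_coord ae_ne_zero)
open Crest.Agent.NLib.Ell (CKA ei)

theorem exists_cka {F : Type} [NormedAddCommGroup F] [NormedSpace ℝ F] {g : E4 → F}
    (hg : ContDiff ℝ ∞ g) (k : ℕ) (R : ℝ) : ∃ V, 0 < V ∧ CKA (1 / 2) (ball (0 : E4) R) k V g := by
  have h1 : ∀ j : ℕ, ∃ C, ∀ Y ∈ closedBall (0 : E4) R, ‖iteratedFDeriv ℝ j g Y‖ ≤ C := fun j =>
    (isCompact_closedBall _ _).exists_bound_of_continuousOn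
      (hg.continuous_iteratedFDeriv (by exact_mod_cast le_top)).continuousOn
  choose C hC using h1
  have h0 : 0 ≤ ∑ j ∈ Finset.range (k + 2), |C j| := Finset.sum_nonneg fun _ _ => abs_nonneg _
  refine ⟨2 * (∑ j ∈ Finset.range (k + 2), |C j|) + 1, by positivity,
    (CKA.of_bounds (M := ∑ j ∈ Finset.range (k + 2), |C j|) isOpen_ball (convex_ball _ _)
    (by norm_num) (by norm_num) (hg.of_le (by exact_mod_cast le_top)).contDiffOn
    fun j hj Y hY => ?_).mono (by linarith)⟩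
  exact ((hC j Y (ball_subset_closedBall hY)).trans (le_abs_self _)).trans
    (Finset.single_le_sum (f := fun j => |C j|) (fun _ _ => abs_nonneg _)
      (Finset.mem_range.2 (by omega)))

/-- a fixed smooth function read at scale `t` -/
theorem ck_scale {F : Type} [NormedAddCommGroup F] [NormedSpace ℝ F] {g : E4 → F}
    (hg : ContDiff ℝ ∞ g) (k : ℕ) : ∃ V, 0 < V ∧ ∀ (t : ℝ) (y : E4), ‖y‖ + 1 ≤ 4 * t →
      CK k V (fun x => g (t⁻¹ • x)) y := by
  obtain ⟨V, hV, h⟩ := exists_cka hg k 6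
  refine ⟨V, hV, fun t y hy => ?_⟩
  have hs := sc_pos y
  have ht : 0 < t := by linarith
  have hr : |t⁻¹ * ((‖y‖ + 1) / 4)| ≤ 1 := by
    rw [abs_of_pos (by positivity), inv_mul_le_iff₀ ht]; linarith
  refine ((h.dilate isOpen_ball (by norm_num) (by norm_num) (t⁻¹ • y) hr).subset
    fun Y hY => ?_).congr isOpen_ball fun Y _ => ?_
  · rw [mem_preimage, mem_ball_zero_iff]
    rw [mem_ball_zero_iff] at hY
    refine (norm_add_le _ _).trans_lt ?_
    rw [norm_smul, norm_smul, Real.norm_of_nonneg (by positivity), Real.norm_eq_abs]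
    have h1 : t⁻¹ * ‖y‖ ≤ 4 := by rw [inv_mul_le_iff₀ ht]; linarith
    nlinarith [norm_nonneg Y, abs_nonneg (t⁻¹ * ((‖y‖ + 1) / 4))]
  · simp only [cl, smul_add, smul_smul]

/-- the constant of the jets at `0` -/
def Cp : ℝ := 4 * cN * IB 2 + 20 * cN * IB 3

theorem Cp_pos : 0 < Cp := by
  have := cN_pos; have := IB_pos 2; have := IB_pos 3
  unfold Cp; positivity

theorem p0_le {l : ℕ} {f : MetricField 4} {i j : Fin 4} {A : ℝ} (hA : 0 ≤ A)
    (h : ∀ y ∈ Sh l, |f y i j| ≤ A / 4 ^ l) : |p0 l f i j| ≤ Cp * A := by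
  have hN := cN_pos
  have h1 := norm_integral_le_of_norm_le (μ := volume.restrict (Sh l))
    (f := fun y => NK y * f y i j) ((intOn_Sh (a := 2) (by norm_num) 0 l).const_mul
      (cN * (A / 4 ^ l)))
    ((ae_restrict_iff' (meas_Sh l)).2 (Eventually.of_forall fun y hy => by
      rw [norm_mul, Real.norm_eq_abs, Real.norm_eq_abs, abs_NK, zero_sub, norm_neg]
      calc cN * (‖y‖ ^ 2)⁻¹ * |f y i j| ≤ cN * (‖y‖ ^ 2)⁻¹ * (A / 4 ^ l) := by
            gcongr; exact h y hy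
        _ = _ := by ring))
  rw [integral_const_mul] at h1
  refine h1.trans ((mul_le_mul_of_nonneg_left (int_Sh (by norm_num) 0 l) (by positivity)).trans ?_)
  have e : cN * (A / 4 ^ l) * (IB 2 * ((2 ^ (l + 1)) ^ 4 / (2 ^ (l + 1)) ^ 2)) =
      4 * cN * IB 2 * A := by
    rw [show (4 : ℝ) ^ l = 2 ^ l * 2 ^ l by rw [← mul_pow]; norm_num]; field_simp; ring
  rw [e, Cp]
  have := IB_pos 3
  gcongr
  linarith [mul_pos (mul_pos (by norm_num : (0 : ℝ) < 20) hN) this]

theorem p1_le {l : ℕ} {f : MetricField 4} {i j : Fin 4} (c : Fin 4) {A : ℝ} (hA : 0 ≤ A)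
    (h : ∀ y ∈ Sh l, |f y i j| ≤ A / 4 ^ l) : |p1 l f i j c| ≤ Cp * A / 2 ^ l := by
  have hN := cN_pos
  have h1 := norm_integral_le_of_norm_le (μ := volume.restrict (Sh l))
    (f := fun y => NKi c y * f y i j) ((intOn_Sh (a := 3) le_rfl 0 l).const_mul
      (10 * cN * (A / 4 ^ l)))
    ((ae_restrict_iff' (meas_Sh l)).2 (by
      filter_upwards [ae_ne_zero] with y h0 hy
      rw [norm_mul, Real.norm_eq_abs, Real.norm_eq_abs, zero_sub, norm_neg]
      calc |NKi c y| * |f y i j| ≤ 10 * cN * (‖y‖ ^ 3)⁻¹ * (A / 4 ^ l) :=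
            mul_le_mul ((ker_NKi c).bd y h0) (h y hy) (abs_nonneg _) (by positivity)
        _ = _ := by ring))
  rw [integral_const_mul] at h1
  rw [p1, abs_neg]
  refine h1.trans ((mul_le_mul_of_nonneg_left (int_Sh le_rfl 0 l) (by positivity)).trans ?_)
  have e : 10 * cN * (A / 4 ^ l) * (IB 3 * ((2 ^ (l + 1)) ^ 4 / (2 ^ (l + 1)) ^ 3)) =
      20 * cN * IB 3 * A / 2 ^ l := by
    rw [show (4 : ℝ) ^ l = 2 ^ l * 2 ^ l by rw [← mul_pow]; norm_num]; field_simp; ring
  rw [e, Cp]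
  have := IB_pos 2
  gcongr
  linarith [mul_pos (mul_pos (by norm_num : (0 : ℝ) < 4) hN) this]

/-- bounds for the coefficients of the shell `l` -/
structure PB (l : ℕ) (f : MetricField 4) (A : ℝ) : Prop where
  h0 : ∀ i j, |p0 l f i j| ≤ A
  h1 : ∀ i j c, |p1 l f i j c| ≤ A / 2 ^ l

theorem PB.nonneg {l : ℕ} {f : MetricField 4} {A : ℝ} (h : PB l f A) : 0 ≤ A :=
  (abs_nonneg _).trans (h.h0 0 0)

theorem PB.q {l : ℕ} {f : MetricField 4} {A : ℝ} (h : PB l f A) (m a b : Fin 4) :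
    |p1 l f m a b / 2 - p1 l f a b m / 4| ≤ A / 2 ^ l := by
  have h1 := abs_le.1 (h.h1 m a b)
  have h2 := abs_le.1 (h.h1 a b m)
  have h3 : 0 ≤ A / 2 ^ l := (abs_nonneg _).trans (h.h1 m a b)
  rw [abs_le]; constructor <;> linarith [h1.1, h1.2, h2.1, h2.2]

theorem ws_nonneg4 {F : Type} [NormedAddCommGroup F] [NormedSpace ℝ F] {a : ℕ → ℝ} {g : E4 → F}
    (h : WS (fun l => a l / 4 ^ l) g) (l : ℕ) : 0 ≤ a l := by
  have hl : (0 : ℝ) < 4 ^ l := by positivity
  have := mul_nonneg (h.nonneg l) hl.le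
  rwa [div_mul_cancel₀ _ hl.ne'] at this

theorem pb_of_ws {f : MetricField 4} {a : ℕ → ℝ}
    (h : ∀ i j, WS (fun l => a l / 4 ^ l) fun y => f y i j) (l : ℕ) : PB l f (Cp * a l) :=
  ⟨fun i j => p0_le (ws_nonneg4 (h 0 0) l) fun y hy => h i j l y hy.1 hy.2.le,
    fun i j c => p1_le c (ws_nonneg4 (h 0 0) l) fun y hy => h i j l y hy.1 hy.2.le⟩

/-- the gauge field of one shell -/
def Wl (l : ℕ) (f : MetricField 4) (m : Fin 4) (x : E4) : ℝ := zt l x * Xg l f m x

theorem Wl_smooth (l : ℕ) (f : MetricField 4) (m : Fin 4) : ContDiff ℝ ∞ (Wl l f m) :=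
  (zt_smooth l).mul (Xg_smooth l f m)

theorem Wl_far (k l : ℕ) (f : MetricField 4) (m : Fin 4) {y : E4} (hy : 4 * 2 ^ l < ‖y‖ + 1) :
    CK k 0 (Wl l f m) y := CK.of_zero le_rfl fun z hz => by
  have h1 := (sc_near hz).1
  have h2 : (1 : ℝ) ≤ 2 ^ l := one_le_pow₀ one_le_two
  rw [Wl, zt_eq_zero (by linarith), zero_mul]

theorem Wl_ev {l : ℕ} (f : MetricField 4) (m : Fin 4) {x : E4} (hx : ‖x‖ < 2 ^ l / 16) :
    Wl l f m =ᶠ[𝓝 x] Xg l f m := by
  have : ∀ᶠ y in 𝓝 x, ‖y‖ < (2 : ℝ) ^ l / 16 :=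
    continuous_norm.continuousAt.eventually (gt_mem_nhds hx)
  filter_upwards [this] with y hy
  rw [Wl, zt_eq_one hy.le, one_mul]

theorem ck_Wl (k : ℕ) : ∃ C : ℝ, 0 < C ∧ ∀ (l : ℕ) (f : MetricField 4) (A : ℝ), PB l f A →
    ∀ (m : Fin 4) (y : E4), CK k (C * A * 2 ^ l) (Wl l f m) y := by
  obtain ⟨V, hV, H⟩ := ck_scale (g := fun x : E4 => 1 - up (1 / 16) (1 / 8) x)
    (contDiff_const.sub (up_smooth _ _)) k
  obtain ⟨W, hW, H'⟩ := ck_scale (g := fun x : E4 => x) contDiff_id k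
  refine ⟨2 ^ (k + 1) * (V * (4 * W + 16 * (2 ^ (k + 1) * (W * W)))), by positivity,
    fun l f A hA m y => ?_⟩
  have hA0 := hA.nonneg
  have hl : (0 : ℝ) < 2 ^ l := by positivity
  rcases lt_or_ge (4 * 2 ^ l) (‖y‖ + 1) with hy | hy
  · exact (Wl_far k l f m hy).mono (by positivity)
  have hx : ∀ a, CK k (2 ^ l * W) (fun x : E4 => x a) y := fun a => by
    have := ((H' (2 ^ l) y hy).proj a).const_mul (2 ^ l)
    rw [abs_of_pos hl] at this
    exact this.congr fun z _ => by simp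
  have h1 : ∀ a, CK k (A * (2 ^ l * W)) (fun x : E4 => p0 l f m a / 2 * x a) y := fun a =>
    ((hx a).const_mul _).mono (mul_le_mul_of_nonneg_right (by
      rw [abs_div, abs_two]; linarith [hA.h0 m a]) (by positivity))
  have h2 : ∀ a b, CK k (A / 2 ^ l * (2 ^ (k + 1) * (2 ^ l * W * (2 ^ l * W))))
      (fun x : E4 => (p1 l f m a b / 2 - p1 l f a b m / 4) * (x a * x b)) y := fun a b =>
    (((hx a).mul (hx b)).const_mul _).mono (mul_le_mul_of_nonneg_right (hA.q m a b)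
      (by positivity))
  have h3 := (CK.sum_le h1).add (CK.sum_le fun a => CK.sum_le (h2 a))
  refine ((H (2 ^ l) y hy).mul h3).mono (le_of_eq ?_)
  simp only [Fintype.card_fin]
  push_cast
  field_simp
  ring

theorem pd_coord (i a : Fin 4) (x : E4) :
    pderiv i (fun y : E4 => y a) x = if a = i then 1 else 0 := by
  have h := (EuclideanSpace.proj (𝕜 := ℝ) a : E4 →L[ℝ] ℝ).fderiv (x := x)
  have e : (fun y : E4 => y a) = (EuclideanSpace.proj (𝕜 := ℝ) a : E4 →L[ℝ] ℝ) := rfl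
  rw [pderiv, e, h]
  simp

theorem pd_Xg (l : ℕ) (f : MetricField 4) (m i : Fin 4) (x : E4) :
    pderiv i (Xg l f m) x = p0 l f m i / 2 + ∑ b, ((p1 l f m i b / 2 - p1 l f i b m / 4) +
      (p1 l f m b i / 2 - p1 l f b i m / 4)) * x b := by
  have dc : ∀ a, DifferentiableAt ℝ (fun y : E4 => y a) x := fun a => dA (contDiff_coord a) x
  unfold Xg
  rw [pd_add i (by fun_prop) (by fun_prop), pd_sum i _ fun a _ => by fun_prop,
    pd_sum i _ fun a _ => by fun_prop]
  simp only [pd_cmul, pd_coord]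
  have e : ∀ a, pderiv i (fun z : E4 => ∑ b, (p1 l f m a b / 2 - p1 l f a b m / 4) * (z a * z b)) x
      = ∑ b, (p1 l f m a b / 2 - p1 l f a b m / 4) *
        ((if a = i then 1 else 0) * x b + x a * if b = i then 1 else 0) := fun a => by
    rw [pd_sum i _ fun b _ => by fun_prop]
    refine Finset.sum_congr rfl fun b _ => ?_
    rw [pd_cmul, pd_mul i (dc a) (dc b), pd_coord, pd_coord]
  simp only [e]
  fin_cases i <;> simp [Fin.sum_univ_four] <;> ring

theorem lap_Xg (l : ℕ) (f : MetricField 4) (m : Fin 4) (x : E4) :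
    lap (Xg l f m) x = ∑ i, 2 * (p1 l f m i i / 2 - p1 l f i i m / 4) := by
  rw [lap_eq_sum]
  refine Finset.sum_congr rfl fun i _ => ?_
  rw [funext (pd_Xg l f m i), pd_add i (by fun_prop) (by fun_prop), pd_const,
    pd_sum i _ fun a _ => by fun_prop]
  simp only [pd_cmul, pd_coord]
  simp
  ring

theorem CK.lap {k : ℕ} {M : ℝ} {g : E4 → ℝ} {y : E4} (h : CK (k + 2) M g y) :
    CK k (4 * (4 / (‖y‖ + 1) * (4 / (‖y‖ + 1) * M))) (lap g) y := by
  have := CK.sum_le fun i => (h.pderiv i).pderiv i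
  rw [Fintype.card_fin] at this
  exact this

theorem lap_Wl_in {l : ℕ} (f : MetricField 4) (m : Fin 4) {y z : E4} (hy : ‖y‖ + 1 ≤ 2 ^ l / 32)
    (hz : ‖z - y‖ < (‖y‖ + 1) / 4) :
    lap (Wl l f m) =ᶠ[𝓝 z] fun _ => ∑ i, 2 * (p1 l f m i i / 2 - p1 l f i i m / 4) := by
  have h1 := (sc_near hz).2
  have h2 : (0 : ℝ) < 2 ^ l := by positivity
  filter_upwards [(Wl_ev (l := l) f m (x := z) (by linarith)).eventuallyEq_nhds] with w hw
  rw [lap_congr hw, lap_Xg]

theorem ck_LW (k : ℕ) : ∃ C : ℝ, 0 < C ∧ ∀ (l : ℕ) (f : MetricField 4) (A : ℝ), PB l f A →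
    ∀ (m : Fin 4) (j : ℕ) (y : E4), 2 ^ j ≤ ‖y‖ + 1 → ‖y‖ + 1 ≤ 2 ^ (j + 1) →
      CK k (if j ≤ l + 2 then C * A / 2 ^ l else 0) (lap (Wl l f m)) y ∧
      ∀ i, CK k (C * (wE j l * A) / 4 ^ j) (pderiv i (lap (Wl l f m))) y := by
  obtain ⟨C, hC, H⟩ := ck_Wl (k + 1 + 2)
  refine ⟨2 ^ 31 * C + 8, by positivity, fun l f A hA m j y h1 h2 => ?_⟩
  have hA0 := hA.nonneg
  have hl : (0 : ℝ) < 2 ^ l := by positivity
  have hj : (0 : ℝ) < 2 ^ j := by positivity
  have hs := sc_pos y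
  have hw : 0 ≤ wE j l := le_min (by positivity) (by positivity)
  rcases lt_or_ge (4 * 2 ^ l) (‖y‖ + 1) with hy | hy
  · have h0 := (Wl_far (k + 1 + 2) l f m hy).lap
    refine ⟨(h0.of_le (by omega)).mono ?_, fun i => (h0.pderiv i).mono ?_⟩
    · split_ifs <;> simp only [mul_zero] <;> positivity
    · simp only [mul_zero]; positivity
  have hjl : j ≤ l + 2 := by
    have : (2 : ℝ) ^ j < 2 ^ (l + 3) := by
      rw [pow_add]; linarith
    have := pow_lt_imp this; omega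
  rw [if_pos hjl]
  rcases le_or_gt (‖y‖ + 1) (2 ^ l / 32) with hy' | hy'
  · refine ⟨((CK.const _).congr fun z hz => (lap_Wl_in f m hy' hz).eq_of_nhds).mono ?_,
      fun i => CK.of_zero (by positivity) fun z hz => ?_⟩
    · refine (norm_sum_le_of_le _ (n := fun _ => 2 * (A / 2 ^ l)) fun i _ => ?_).trans ?_
      · rw [norm_mul, Real.norm_eq_abs, Real.norm_eq_abs, abs_two]
        linarith [hA.q m i i]
      · simp only [Finset.sum_const, Finset.card_univ, Fintype.card_fin, nsmul_eq_mul]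
        rw [mul_div_assoc]
        have : 0 ≤ A / 2 ^ l := by positivity
        have : 0 ≤ 2 ^ 31 * C * (A / 2 ^ l) := by positivity
        push_cast
        linarith
    · rw [pd_congr i (lap_Wl_in f m hy' hz), pd_const]
  · have h0 := (H l f A hA m y).lap
    have h3 : 4 / (‖y‖ + 1) ≤ 128 / 2 ^ l := by
      rw [div_le_div_iff₀ hs hl]; linarith
    have h4 : 4 * (4 / (‖y‖ + 1) * (4 / (‖y‖ + 1) * (C * A * 2 ^ l))) ≤
        2 ^ 16 * C * A / 2 ^ l := by
      calc _ ≤ 4 * (128 / 2 ^ l * (128 / 2 ^ l * (C * A * 2 ^ l))) := by gcongr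
        _ = _ := by field_simp; ring
    refine ⟨(h0.of_le (by omega)).mono (h4.trans ?_), fun i => (h0.pderiv i).mono ?_⟩
    · gcongr
      nlinarith
    · have e4 : ∀ m : ℕ, (4 : ℝ) ^ m = 2 ^ m * 2 ^ m := fun m => by rw [← mul_pow]; norm_num
      have h5 : 1 / 4 ^ l ≤ 256 * wE j l / (4 : ℝ) ^ j := by
        have h6 : (4 : ℝ) ^ j ≤ 4 ^ (l + 2) := pow_le_pow_right₀ (by norm_num) hjl
        have h7 : (0 : ℝ) < 4 ^ l := by positivity
        have h8 : (0 : ℝ) < 4 ^ j := by positivity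
        rw [pow_add] at h6
        rw [le_div_iff₀ h8, wE, mul_min_of_nonneg _ _ (by norm_num : (0 : ℝ) ≤ 256), le_min_iff,
          div_mul_eq_mul_div, one_mul, ← mul_div_assoc, div_le_div_iff₀ h7 h8]
        refine ⟨by nlinarith, ?_⟩
        have : 0 ≤ (4 : ℝ) ^ j / 4 ^ l := by positivity
        linarith
      calc _ ≤ 128 / 2 ^ l * (2 ^ 16 * C * A / 2 ^ l) := by gcongr
        _ = 2 ^ 23 * C * A * (1 / 4 ^ l) := by rw [e4]; field_simp; ring
        _ ≤ 2 ^ 23 * C * A * (256 * wE j l / 4 ^ j) := by gcongr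
        _ = 2 ^ 31 * C * (wE j l * A) / 4 ^ j := by ring
        _ ≤ _ := by gcongr; linarith

theorem UU_eq (n : ℕ) (f : MetricField 4) (I : Fin 1 → Fin 4) :
    (fun x => UU n f x I) = fun x => ∑ l ∈ Finset.range n, lap (Wl l f (I 0)) x :=
  funext fun x => lap_sum _ (fun l _ => Wl_smooth l f _) x

theorem symd_UU_eq (n : ℕ) (f : MetricField 4) (i j : Fin 4) (x : E4) :
    symd (UU n f) x i j = ∑ l ∈ Finset.range n,
      (pderiv i (lap (Wl l f j)) x + pderiv j (lap (Wl l f i)) x) := by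
  simp only [symd, Matrix.of_apply, UU_eq, Matrix.cons_val_zero]
  rw [pd_sum i _ fun l _ => dA (lap_contDiff (Wl_smooth l f _)) x,
    pd_sum j _ fun l _ => dA (lap_contDiff (Wl_smooth l f _)) x, Finset.sum_add_distrib]

theorem lu_symd (k : ℕ) : ∃ C : ℝ, 0 < C ∧ ∀ (n : ℕ) (f : MetricField 4) (a : ℕ → ℝ),
    (∀ i j, WS (fun l => a l / 4 ^ l) fun y => f y i j) → ∀ i j,
    WD k (fun l => C * (∑ m ∈ Finset.range n, wE l m * a m) / 4 ^ l)
      fun y => symd (UU n f) y i j := by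
  obtain ⟨C, hC, H⟩ := ck_LW k
  have := Cp_pos
  refine ⟨2 * C * Cp, by positivity, fun n f a ha i j l y h1 h2 => ?_⟩
  have h := CK.sum (Finset.range n) fun m _ =>
    ((H m f _ (pb_of_ws ha m) j l y h1 h2).2 i).add ((H m f _ (pb_of_ws ha m) i l y h1 h2).2 j)
  refine (h.congr fun z _ => symd_UU_eq n f i j z).mono (le_of_eq ?_)
  simp only [Finset.mul_sum, Finset.sum_div]
  exact Finset.sum_congr rfl fun m _ => by ring

theorem sum_tail (n j : ℕ) :
    ∑ l ∈ Finset.range n, (if j ≤ l + 2 then (1 : ℝ) / 2 ^ l else 0) ≤ 8 / 2 ^ j := by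
  rw [← Finset.sum_filter]
  have h := geom_sum_Ico_le_of_lt_one (x := (1 : ℝ) / 2) (m := j - 2) (n := n) (by norm_num)
    (by norm_num)
  have e : (Finset.range n).filter (fun l => j ≤ l + 2) = Finset.Ico (j - 2) n := by
    ext l; simp only [Finset.mem_filter, Finset.mem_range, Finset.mem_Ico]; omega
  rw [e]
  simp only [one_div, inv_pow] at h ⊢
  refine h.trans ?_
  have h1 : (2 : ℝ) ^ j ≤ 2 ^ (j - 2 + 2) := pow_le_pow_right₀ one_le_two (by omega)
  have h2 : (0 : ℝ) < 2 ^ (j - 2) := by positivity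
  rw [pow_add] at h1
  rw [div_le_div_iff₀ (by norm_num) (by positivity), inv_mul_le_iff₀ h2]
  linarith

theorem lu : LUStmt := by
  intro k
  obtain ⟨C, hC, H⟩ := ck_LW k
  obtain ⟨D, hD, H'⟩ := lu_symd k
  have hp := Cp_pos
  refine ⟨D + 8 * C * Cp, by positivity, fun n f a ha => ⟨fun b hb i j => ?_, fun B hB I => ?_⟩⟩
  · refine (H' n f a ha i j).mono fun l => ?_
    have h0 : 0 ≤ b l := by simpa using hb l 0
    have h1 := mul_le_mul_of_nonneg_left (hb l n) hD.le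
    have h2 : 0 ≤ 8 * C * Cp * b l := by positivity
    exact div_le_div_of_nonneg_right (by linarith) (by positivity)
  · intro l y h1 h2
    have hB0 : 0 ≤ B := (ws_nonneg4 (ha 0 0) 0).trans (hB 0)
    have h := CK.sum (Finset.range n) fun m _ => (H m f _ (pb_of_ws ha m) (I 0) l y h1 h2).1
    rw [UU_eq]
    refine h.mono ?_
    calc _ ≤ ∑ m ∈ Finset.range n, C * Cp * B * (if l ≤ m + 2 then (1 : ℝ) / 2 ^ m else 0) := by
          refine Finset.sum_le_sum fun m _ => ?_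
          split_ifs
          · rw [mul_one_div, ← mul_assoc]
            gcongr
            exact hB m
          · simp
      _ ≤ C * Cp * B * (8 / 2 ^ l) := by
          rw [← Finset.mul_sum]
          exact mul_le_mul_of_nonneg_left (sum_tail n l) (by positivity)
      _ = 8 * C * Cp * B / 2 ^ l := by ring
      _ ≤ _ := by
          beta_reduce
          gcongr
          linarith

end Crest.Agent.N207.Ph

end
end

-- ▼ part N207/Ph/Nw8
section

/-!
# Row 207, block PHI (helper48): Newton kit, part 8: `le : LEStmt`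
-/

set_option autoImplicit false
set_option linter.unusedSectionVars false

open scoped ContDiff Topology Pointwise RealInnerProductSpace
open MeasureTheory Set Filter Metric
open Crest.GeometryTopology.CoordMetric Crest.GeometryTopology.ChartCurvature

noncomputable section

namespace Crest.Agent.N207.Ph

open Crest.Agent.R240.Fr (NK NKi cN cN_pos lap ker_NKi contDiff_coord ae_ne_zero)
open Crest.Agent.NLib.Ell (CKA ei)

theorem NK_taylor {x y : E4} (hy : 0 < ‖y‖) (h : 2 * ‖x‖ ≤ ‖y‖) :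
    |NK (x - y) - (NK y - ∑ c, NKi c y * x c)| ≤ 24 * cN * ‖x‖ ^ 2 / ‖y‖ ^ 4 := by
  have hN := cN_pos
  have e1 : ∑ c, NKi c y * x c = 2 * cN * ⟪x, y⟫ * ((‖y‖ ^ 2) ^ 2)⁻¹ := by
    rw [inner_sum4, Finset.mul_sum, Finset.sum_mul]
    exact Finset.sum_congr rfl fun c _ => by unfold NKi; ring
  have e2 : ‖x - y‖ ^ 2 = ‖x‖ ^ 2 - 2 * ⟪x, y⟫ + ‖y‖ ^ 2 := norm_sub_sq_real x y
  have hd : ‖y‖ / 2 ≤ ‖x - y‖ := by
    have := norm_sub_norm_le y x
    rw [norm_sub_rev] at this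
    linarith
  have hp := abs_le.1 (abs_real_inner_le_norm x y)
  have hx := norm_nonneg x
  have hd2 : ‖y‖ ^ 2 / 4 ≤ ‖x - y‖ ^ 2 := by nlinarith
  unfold NK
  rw [e1]
  set p := ⟪x, y⟫
  set d := ‖x - y‖ ^ 2
  set u := ‖x‖
  set v := ‖y‖
  have hd0 : 0 < d := lt_of_lt_of_le (by positivity) hd2
  have e3 : -cN * d⁻¹ - (-cN * (v ^ 2)⁻¹ - 2 * cN * p * ((v ^ 2) ^ 2)⁻¹) =
      cN * (v ^ 2 * u ^ 2 - 4 * p ^ 2 + 2 * p * u ^ 2) / (d * v ^ 4) := by
    field_simp
    rw [e2]; ring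
  rw [e3, abs_div, abs_mul, abs_of_pos hN, abs_of_pos (by positivity : 0 < d * v ^ 4),
    div_le_div_iff₀ (by positivity) (by positivity)]
  have h1 : p ^ 2 ≤ u ^ 2 * v ^ 2 := by nlinarith [hp.1, hp.2]
  have h2 : u * v ≤ v ^ 2 / 2 := by nlinarith
  have h3 : |v ^ 2 * u ^ 2 - 4 * p ^ 2 + 2 * p * u ^ 2| ≤ 6 * (u ^ 2 * v ^ 2) := by
    have hu2 : 0 ≤ u ^ 2 := sq_nonneg u
    have h4 := mul_le_mul_of_nonneg_right (hp.2.trans h2) hu2
    have h5 := mul_le_mul_of_nonneg_right ((neg_le_neg h2).trans hp.1) hu2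
    have h6 : 0 ≤ u ^ 2 * v ^ 2 := by positivity
    rw [abs_le]; constructor <;> nlinarith [sq_nonneg p]
  have h7 : 6 * (u ^ 2 * v ^ 2) ≤ 24 * u ^ 2 * d := by nlinarith [sq_nonneg u]
  calc cN * |v ^ 2 * u ^ 2 - 4 * p ^ 2 + 2 * p * u ^ 2| * v ^ 4
      ≤ cN * (24 * u ^ 2 * d) * v ^ 4 := by gcongr; exact h3.trans h7
    _ = _ := by ring

theorem symd_Wg_eq (n : ℕ) (f : MetricField 4) (i j : Fin 4) (x : E4) :
    symd (Wg n f) x i j = ∑ l ∈ Finset.range n,
      (pderiv i (Wl l f j) x + pderiv j (Wl l f i) x) := by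
  have e : ∀ m : Fin 4, (fun y => Wg n f y ![m]) = fun y => ∑ l ∈ Finset.range n, Wl l f m y :=
    fun m => rfl
  simp only [symd, Matrix.of_apply, e]
  rw [pd_sum i _ fun l _ => dA (Wl_smooth l f _) x, pd_sum j _ fun l _ => dA (Wl_smooth l f _) x,
    Finset.sum_add_distrib]

theorem symd_Xg {l : ℕ} {f : MetricField 4} (hs : ∀ y, (f y).IsSymm) (i j : Fin 4) (x : E4) :
    pderiv i (Xg l f j) x + pderiv j (Xg l f i) x = p0 l f i j + ∑ c, p1 l f i j c * x c := by
  have e : ∀ a b y, f y a b = f y b a := fun a b y => (hs y).apply b a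
  have e0 : p0 l f j i = p0 l f i j := by simp only [p0, e j i]
  have e1 : ∀ a b c, p1 l f a b c = p1 l f b a c := fun a b c => by simp only [p1, e a b]
  rw [pd_Xg, pd_Xg, e0, add_add_add_comm, add_halves, ← Finset.sum_add_distrib]
  congr 1
  refine Finset.sum_congr rfl fun c _ => ?_
  rw [e1 j i c, e1 c i j, e1 c j i]
  ring

theorem one_shell : ∃ C : ℝ, 0 < C ∧ ∀ (l j : ℕ) (f : MetricField 4) (A : ℝ) (x : E4), 0 ≤ A →
    (∀ a b, Continuous fun y => f y a b) → (∀ y, (f y).IsSymm) →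
    (∀ a b, ∀ y ∈ Sh l, |f y a b| ≤ A / 4 ^ l) → 2 ^ j ≤ ‖x‖ + 1 → ‖x‖ + 1 ≤ 2 ^ (j + 1) →
    ∀ a b, |NS l (fun y => f y a b) x - (pderiv a (Wl l f b) x + pderiv b (Wl l f a) x)| ≤
      C * (wE j l * A) := by
  obtain ⟨C, hC, H⟩ := ck_Wl (0 + 1)
  have hN := cN_pos
  have hp := Cp_pos
  have hI := IB_pos 2
  have hV := VB_nonneg
  refine ⟨2 ^ 15 * cN * VB + 256 * (64 * IB 2 * cN) + 2 ^ 15 * (C * Cp), by positivity,
    fun l j f A x hA hf hs hb h1 h2 a b => ?_⟩
  have hl : (0 : ℝ) < 2 ^ l := by positivity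
  have hj : (0 : ℝ) < 2 ^ j := by positivity
  have e4 : ∀ m : ℕ, (4 : ℝ) ^ m = 2 ^ m * 2 ^ m := fun m => by rw [← mul_pow]; norm_num
  have hw : 0 ≤ wE j l := le_min (by positivity) (by positivity)
  rcases le_or_gt (j + 5) l with h | h
  · have h3 : (2 : ℝ) ^ (j + 5) ≤ 2 ^ l := pow_le_pow_right₀ one_le_two h
    have hj1 : (1 : ℝ) ≤ 2 ^ j := one_le_pow₀ one_le_two
    rw [pow_add] at h3
    rw [pow_succ] at h2
    have hx : ‖x‖ < 2 ^ l / 16 := by linarith
    rw [pd_congr a (Wl_ev f b hx), pd_congr b (Wl_ev f a hx), symd_Xg hs]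
    have i0 := intOn_Sh_mul locInt_NK (hf a b) l
    have i1 : ∀ c, IntegrableOn (fun y => NKi c y * f y a b * x c) (Sh l) := fun c =>
      (intOn_Sh_mul (locInt_NKi c) (hf a b) l).mul_const _
    have e : NS l (fun y => f y a b) x - (p0 l f a b + ∑ c, p1 l f a b c * x c) =
        ∫ y in Sh l, (NK (x - y) - (NK y - ∑ c, NKi c y * x c)) * f y a b := by
      simp only [NS, p0, p1, neg_mul, Finset.sum_neg_distrib, ← integral_mul_const, ← sub_eq_add_neg]
      have i2 : IntegrableOn (fun y => ∑ c, NKi c y * f y a b * x c) (Sh l) :=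
        integrable_finsetSum _ fun c _ => i1 c
      have i3 : IntegrableOn (fun y => NK y * f y a b - ∑ c, NKi c y * f y a b * x c) (Sh l) :=
        i0.sub i2
      rw [← integral_finsetSum _ fun c _ => i1 c, ← integral_sub i0 i2,
        ← integral_sub (intOn_NS (hf a b) l x) i3]
      refine integral_congr_ae (Eventually.of_forall fun y => ?_)
      simp only [smul_eq_mul, Fin.sum_univ_four]
      ring
    rw [e]
    have h5 := norm_setIntegral_le_of_norm_le_const (vol_Sh_ne l).lt_top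
      (f := fun y => (NK (x - y) - (NK y - ∑ c, NKi c y * x c)) * f y a b)
      (C := 24 * cN * (2 ^ j * 2) ^ 2 / (2 ^ l / 2) ^ 4 * (A / 4 ^ l)) fun y hy => by
        have h6 : 2 ^ l / 2 ≤ ‖y‖ := by linarith [hy.1]
        rw [norm_mul, Real.norm_eq_abs, Real.norm_eq_abs]
        refine mul_le_mul ((NK_taylor (by linarith) (by linarith)).trans ?_) (hb a b y hy)
          (abs_nonneg _) (by positivity)
        gcongr
        linarith
    have h7 : wE j l = 4 ^ j / 4 ^ l := min_eq_right (by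
      have : (4 : ℝ) ^ j ≤ 4 ^ l := pow_le_pow_right₀ (by norm_num) (by omega)
      gcongr)
    refine h5.trans ((mul_le_mul_of_nonneg_left (vol_Sh l) (by positivity)).trans ?_)
    calc _ = 24576 * cN * VB * (wE j l * A) := by
          rw [h7, e4 l, e4 j]; field_simp; ring
      _ ≤ _ := by
          gcongr
          nlinarith [mul_nonneg hN.le hV, mul_pos hI hN, mul_pos hC hp]
  · have h3 : (2 : ℝ) ^ l ≤ 2 ^ (j + 4) := pow_le_pow_right₀ one_le_two (by omega)
    have h4 : (4 : ℝ) ^ l ≤ 4 ^ (j + 4) := pow_le_pow_right₀ (by norm_num) (by omega)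
    have hl4 : (0 : ℝ) < 4 ^ l := by positivity
    have hj4 : (0 : ℝ) < 4 ^ j := by positivity
    rw [pow_add] at h3 h4
    have h5 : (1 : ℝ) ≤ 256 * (4 ^ j / 4 ^ l) := by
      rw [← mul_div_assoc, le_div_iff₀ hl4]; linarith
    have h6 : min 1 ((4 : ℝ) ^ l / 4 ^ j) ≤ 256 * wE j l := by
      rw [wE, mul_min_of_nonneg _ _ (by norm_num : (0 : ℝ) ≤ 256), le_min_iff]
      have : 0 ≤ (4 : ℝ) ^ l / 4 ^ j := by positivity
      exact ⟨(min_le_right _ _).trans (by linarith), (min_le_left _ _).trans h5⟩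
    have h7 := NS_le (f := fun y => f y a b) (c := A / 4 ^ l) (by positivity) (hb a b) h1
    have h8 : ∀ a b, |pderiv a (Wl l f b) x| ≤ 2 ^ 14 * (C * Cp) * (wE j l * A) := fun a b => by
      rcases lt_or_ge (4 * 2 ^ l) (‖x‖ + 1) with hy | hy
      · have := ((Wl_far (0 + 1) l f b hy).pderiv a).bdd
        rw [mul_zero] at this
        exact this.trans (by positivity)
      · have hP : PB l f (Cp * A) :=
          ⟨fun i j => p0_le hA (hb i j), fun i j c => p1_le c hA (hb i j)⟩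
        refine ((H l f _ hP b x).pderiv a).bdd.trans ?_
        have h9 : 4 / (‖x‖ + 1) ≤ 64 / 2 ^ l := by
          rw [div_le_div_iff₀ (sc_pos x) hl]; linarith
        have h10 : (1 : ℝ) ≤ 256 * wE j l := by
          rw [wE, mul_min_of_nonneg _ _ (by norm_num : (0 : ℝ) ≤ 256), le_min_iff]
          refine ⟨?_, h5⟩
          rw [← mul_div_assoc, le_div_iff₀ hj4, e4 j, e4 l]
          have : (2 : ℝ) ^ j ≤ 4 * 2 ^ l := h1.trans hy
          nlinarith
        calc 4 / (‖x‖ + 1) * (C * (Cp * A) * 2 ^ l) ≤ 64 / 2 ^ l * (C * (Cp * A) * 2 ^ l) := by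
              gcongr
          _ = 64 * (C * Cp) * A * 1 := by field_simp
          _ ≤ 64 * (C * Cp) * A * (256 * wE j l) := by gcongr
          _ = _ := by ring
    have h11 : |NS l (fun y => f y a b) x| ≤ 256 * (64 * IB 2 * cN) * (wE j l * A) := by
      refine h7.trans ?_
      calc _ = 64 * IB 2 * cN * A * min 1 (4 ^ l / 4 ^ j) := by field_simp
        _ ≤ 64 * IB 2 * cN * A * (256 * wE j l) := by gcongr
        _ = _ := by ring
    have h12 : 0 ≤ 2 ^ 15 * cN * VB * (wE j l * A) := by positivity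
    refine (abs_sub _ _).trans ((add_le_add h11 ((abs_add_le _ _).trans
      (add_le_add (h8 a b) (h8 b a)))).trans ?_)
    linarith

/-- the sup bound of `KK` -/
theorem KK_sup : ∃ C : ℝ, 0 < C ∧ ∀ (n : ℕ) (f : MetricField 4) (a : ℕ → ℝ),
    (∀ i j, Continuous fun y => f y i j) → (∀ y, (f y).IsSymm) →
    (∀ y : E4, 2 ^ n ≤ ‖y‖ + 1 → f y = 0) → (∀ i j, WS (fun l => a l / 4 ^ l) fun y => f y i j) →
    ∀ i j, WS (fun l => C * ∑ m ∈ Finset.range n, wE l m * a m) fun y => KK n f y i j := by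
  obtain ⟨C, hC, H⟩ := one_shell
  refine ⟨C, hC, fun n f a hf hs h0 ha i j l x h1 h2 => ?_⟩
  simp only [KK, Matrix.of_apply]
  rw [Nw_eq_sum (hf i j) (n := n) (fun y hy => by rw [h0 y hy]; rfl), symd_Wg_eq,
    ← Finset.sum_sub_distrib, Finset.mul_sum]
  exact norm_sum_le_of_le _ fun m _ => H m l f (a m) x (ws_nonneg4 (ha 0 0) m) hf hs
    (fun a' b' y hy => ha a' b' m y hy.1 hy.2.le) h1 h2 i j


theorem wE_near {i j : ℕ} (h : i ≤ j + 2) (h' : j ≤ i + 2) (l : ℕ) : wE i l ≤ 16 * wE j l := by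
  unfold wE
  rw [mul_min_of_nonneg _ _ (by norm_num : (0 : ℝ) ≤ 16)]
  have h1 : (4 : ℝ) ^ j ≤ 4 ^ (i + 2) := pow_le_pow_right₀ (by norm_num) h'
  have h2 : (4 : ℝ) ^ i ≤ 4 ^ (j + 2) := pow_le_pow_right₀ (by norm_num) h
  have h3 : (0 : ℝ) < 4 ^ l := by positivity
  rw [pow_add] at h1 h2
  refine min_le_min ?_ ?_
  · rw [← mul_div_assoc, div_le_div_iff₀ (by positivity) (by positivity)]
    nlinarith
  · rw [← mul_div_assoc]
    exact div_le_div_of_nonneg_right (by linarith) h3.le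

theorem le : LEStmt := by
  intro k
  obtain ⟨C, hC, H⟩ := KK_sup
  obtain ⟨D, hD, HD⟩ := sw_lap k
  obtain ⟨E, hE, HE⟩ := lu_symd k
  refine ⟨D * (1 + 16 * E + 16 * C), by positivity,
    fun n f a a' b hf hs h0 ha ha' hb hab i j => ?_⟩
  have hb0 : ∀ j, 0 ≤ b j := fun j => by simpa using hb j 0
  have ha0 := ws_nonneg4 (ha 0 0)
  have hn : ∀ j i : ℕ, i ≤ j + 2 → j ≤ i + 2 →
      ∑ m ∈ Finset.range n, wE i m * a m ≤ 16 * b j := fun j i h h' => by
    refine le_trans (Finset.sum_le_sum fun l _ =>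
      mul_le_mul_of_nonneg_right (wE_near h h' l) (ha0 l)) ?_
    simp only [mul_assoc, ← Finset.mul_sum]
    linarith [hb j n]
  refine (HD (fun y => KK n f y i j) (fun l => a' l + E * ∑ m ∈ Finset.range n, wE l m * a m) _
    (fun l => (1 + 16 * E + 16 * C) * b l) (KK_smooth hf h0 i j) (fun l y h1 h2 => ?_)
    (H n f a (fun i j => (hf i j).continuous) hs h0 ha i j) (fun l m h1 h2 => ?_)
    fun l m h1 h2 => ?_).mono fun l => le_of_eq (by ring)
  · refine (((ha' i j l y h1 h2).sub (HE n f a ha i j l y h1 h2)).congr fun z _ =>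
      eq_sub_of_add_eq (lap_KK hf h0 z i j)).mono (le_of_eq ?_)
    beta_reduce
    ring
  · have h3 := mul_le_mul_of_nonneg_left (hn l m (by omega) (by omega)) hE.le
    have h4 := hab l m h1 h2
    have h5 := mul_nonneg hC.le (hb0 l)
    beta_reduce
    linarith
  · have h3 := mul_le_mul_of_nonneg_left (hn l m h1 h2) hC.le
    have h5 := mul_nonneg hE.le (hb0 l)
    linarith [hb0 l]

end Crest.Agent.N207.Ph

end
end

-- ▼ part N207/Ph/EzD
section

/-!
# Row 207, block PHI (helper48): abstract Picard iteration for `k = KK n (S k)`, definitions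
-/

set_option autoImplicit false

open scoped ContDiff Topology
open Set Metric
open Crest.GeometryTopology.CoordMetric Crest.GeometryTopology.ChartCurvature

noncomputable section

namespace Crest.Agent.N207.Ph.Ez

open Crest.Agent.R238 (Ell)
open Crest.Agent.R240.Fr (lap)

/-- entrywise `WD` -/
def WM (m : ℕ) (a : ℕ → ℝ) (k : MetricField 4) : Prop := ∀ i j, WD m a fun y => k y i j

/-- smooth entries -/
def SmM (k : MetricField 4) : Prop := ∀ i j, ContDiff ℝ ∞ fun y => k y i j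

/-- slowly varying summable envelopes -/
structure Env (ε : ℕ → ℝ) (δ : ℝ) : Prop where
  nn : ∀ l, 0 ≤ ε l
  sum : ∀ n, ∑ l ∈ Finset.range n, ε l ≤ δ
  nb : Nb ε fun l => 3 * ε l
  cv : ∀ j m, ∑ l ∈ Finset.range m, wE j l * ε l ≤ 7 * ε j

/-- admissible perturbations -/
structure Ad (ε : ℕ → ℝ) (K : ℝ) (k : MetricField 4) : Prop where
  sy : ∀ y, (k y).IsSymm
  wd : WM 3 (fun l => K * ε l) k

/-- the source map -/
structure Src (Γ : Subgroup Iso) (n : ℕ) (S : MetricField 4 → MetricField 4) (ε : ℕ → ℝ)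
    (K L0 L1 : ℝ) (M : ℕ → ℝ → ℝ) : Prop where
  out : ∀ k (y : E4), 2 ^ n ≤ ‖y‖ + 1 → S k y = 0
  sm : ∀ k, Ad ε K k → SmM k → SmM (S k) ∧ (∀ y, (S k y).IsSymm) ∧ (Inv Γ k → Inv Γ (S k))
  zero : WM 1 (fun l => L0 * ε l / 4 ^ l) (S 0)
  lip : ∀ m ≤ 1, ∀ k k', Ad ε K k → Ad ε K k' → ∀ (l : ℕ) (y : E4) (d : ℝ), 2 ^ l ≤ ‖y‖ + 1 →
    ‖y‖ + 1 ≤ 2 ^ (l + 1) → (∀ i j, CK (m + 2) d (fun z => k z i j - k' z i j) y) →
    ∀ i j, CK m (L1 * ε l * d / 4 ^ l) (fun z => S k z i j - S k' z i j) y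
  boot : ∀ (m : ℕ) (B : ℝ) (k : MetricField 4), Ad ε K k → WM (m + 1) (fun _ => B) k →
    ∃ τ F : MetricField 4, (∀ x, Ell (1 / 2) 2 (τ x)) ∧ WM m (fun _ => M m B) τ ∧
      WM m (fun l => M m B / 4 ^ l) F ∧ ∀ x i j, lap (fun y => k y i j) x - S k x i j =
        ∑ a, ∑ b, τ x a b * pderiv a (pderiv b fun y => k y i j) x - F x i j

/-- the abstract fixed point theorem -/
def PICStmt : Prop :=
  ∃ θ C : ℝ, 0 < θ ∧ 1 ≤ C ∧ ∀ M : ℕ → ℝ → ℝ, ∃ Cs' : ℕ → ℝ, ∀ (Γ : Subgroup Iso) (n : ℕ)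
    (S : MetricField 4 → MetricField 4) (ε : ℕ → ℝ) (L0 L1 δ : ℝ), Env ε δ → 0 ≤ L0 → 0 ≤ L1 →
    L0 * δ ≤ 1 → L1 * δ ≤ θ → Src Γ n S ε (C * L0) L0 L1 M →
    ∃ k : MetricField 4, SmM k ∧ Ad ε (C * L0) k ∧ Inv Γ k ∧ (∀ m, WM m (fun _ => Cs' m) k) ∧
      (∀ x i j, lap (fun y => k y i j) x + symd (UU n (S k)) x i j = S k x i j) ∧
      WM 0 (fun l => C * L0 * ε l / 4 ^ l) (symd (UU n (S k))) ∧
      ∀ (J : ℕ → ℝ) (e : ℝ), (∀ m, ∑ l ∈ Finset.range m, J l ≤ e) → WM 0 J (S 0) →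
        WM 2 (fun l => C * 4 ^ l * e) k

/-- the instance: `S k = χₙ (PP G - PP (G - k)) - 2 up 1 2 Ric G` (any `S` will do) -/
def SRCStmt : Prop :=
  ∃ c : ℝ, 0 < c ∧ ∀ K : ℝ, 0 ≤ K → ∃ L1 δ0 : ℝ, 0 ≤ L1 ∧ 0 < δ0 ∧ ∀ Cs : ℕ → ℝ,
    ∃ M : ℕ → ℝ → ℝ, ∀ (Γ : Subgroup Iso) (G : MetricField 4) (ε : ℕ → ℝ) (δ : ℝ) (n : ℕ),
    Fl G → Inv Γ G → All Cs G → Env ε δ → δ ≤ δ0 →
    (∀ (l : ℕ) (y : E4), 2 ^ l ≤ ‖y‖ + 1 → ‖y‖ + 1 ≤ 2 ^ (l + 1) → Sk.JG 4 G y (‖y‖ + 1) (ε l)) →
    (∀ y : E4, 2 ^ n ≤ 4 * (‖y‖ + 1) → G y = 1) →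
    ∃ S : MetricField 4 → MetricField 4, Src Γ n S ε K c L1 M ∧
      (∀ k U, SmM k → Ad ε K k → SmT U univ →
        (∀ x i j, lap (fun y => k y i j) x + symd U x i j = S k x i j) →
        ∀ y : E4, 2 * (‖y‖ + 1) ≤ 2 ^ n → ∀ i j, ricci (fun z => G z - k z) y i j =
          (1 / 2) * symd (Vg G k U) y i j + (1 - up 1 2 y) * ricci G y i j) ∧
      ∀ e, RicB G e → ∃ J : ℕ → ℝ, (∀ m, ∑ l ∈ Finset.range m, J l ≤ c * e) ∧ WM 0 J (S 0)

end Crest.Agent.N207.Ph.Ez

end
end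

-- ▼ part N207/Ph/Ez1
section

/-!
# Row 207, block PHI (helper48): abstract Picard iteration, `pic : PICStmt`
-/

set_option autoImplicit false

open scoped ContDiff Topology
open Set Metric Filter
open Crest.GeometryTopology.CoordMetric Crest.GeometryTopology.ChartCurvature

noncomputable section

namespace Crest.Agent.N207.Ph.Ez

open Crest.Agent.R238 (Ell)
open Crest.Agent.R240.Fr (lap)
open Crest.Agent.NLib.Ell (CKA)

theorem ck_limit {k : ℕ} {M : ℝ} {u : ℕ → E4 → ℝ} {f : E4 → ℝ} {y : E4}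
    (h : ∀ m, CK k M (u m) y) (hf : ∀ x, Tendsto (fun m => u m x) atTop (𝓝 (f x))) :
    CK k M f y :=
  CKA.limit (l := atTop) (u := fun m Y => u m (cl y Y)) isOpen_ball (by norm_num)
    (Eventually.of_forall h) fun _ _ => hf _

theorem lap_sub2 {g h : E4 → ℝ} (hg : ContDiff ℝ 2 g) (hh : ContDiff ℝ 2 h) (x : E4) :
    lap (fun y => g y - h y) x = lap g x - lap h x := by
  have d1 : ∀ {g : E4 → ℝ}, ContDiff ℝ 2 g → ∀ y, DifferentiableAt ℝ g y := fun hg y =>
    hg.differentiable (by norm_num) y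
  have d2 : ∀ {g : E4 → ℝ}, ContDiff ℝ 2 g → ∀ i, DifferentiableAt ℝ (pderiv i g) x :=
    fun hg i => (((hg.fderiv_right (m := 1) (by norm_num)).clm_apply contDiff_const).differentiable
      (by norm_num)) x
  simp only [lap_eq_sum, ← Finset.sum_sub_distrib]
  refine Finset.sum_congr rfl fun i _ => ?_
  rw [show pderiv i (fun y => g y - h y) = fun y => pderiv i g y - pderiv i h y from
    funext fun y => pd_sub i (d1 hg y) (d1 hh y), pd_sub i (d2 hg i) (d2 hh i)]

theorem Env.le {ε : ℕ → ℝ} {δ : ℝ} (h : Env ε δ) (l : ℕ) : ε l ≤ δ :=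
  (Finset.single_le_sum (fun i _ => h.nn i) (Finset.self_mem_range_succ l)).trans (h.sum (l + 1))

theorem Env.cv' {ε : ℕ → ℝ} {δ c : ℝ} (h : Env ε δ) (hc : 0 ≤ c) (j m : ℕ) :
    ∑ l ∈ Finset.range m, wE j l * (c * ε l) ≤ 7 * (c * ε j) := by
  have := mul_le_mul_of_nonneg_left (h.cv j m) hc
  rw [Finset.mul_sum] at this
  calc _ = ∑ l ∈ Finset.range m, c * (wE j l * ε l) := Finset.sum_congr rfl fun l _ => by ring
    _ ≤ _ := this.trans (le_of_eq (by ring))

theorem Env.nb' {ε : ℕ → ℝ} {δ c : ℝ} (h : Env ε δ) (hc : 0 ≤ c) :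
    Nb (fun l => c * ε l) fun l => 7 * (c * ε l) := fun j i h1 h2 => by
  have h3 := mul_le_mul_of_nonneg_left (h.nb j i h1 h2) hc
  have h4 := mul_nonneg hc (h.nn j)
  beta_reduce at h3 ⊢
  linarith

theorem ad_zero {ε : ℕ → ℝ} {δ K : ℝ} (h : Env ε δ) (hK : 0 ≤ K) : Ad ε K 0 :=
  ⟨fun _ => Matrix.isSymm_zero, fun _ _ l _ _ _ => CK.zero.mono (mul_nonneg hK (h.nn l))⟩

theorem inv_zero (Γ : Subgroup Iso) : Inv Γ 0 := inv_iff.2 fun γ _ => by
  funext x; ext i j; simp [pbm_iso]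

theorem wE_mul (j l : ℕ) : wE j l * 4 ^ l ≤ 4 ^ j := by
  have h : (0 : ℝ) < 4 ^ l := by positivity
  exact (mul_le_mul_of_nonneg_right (min_le_right _ _) h.le).trans (le_of_eq (by field_simp))

/-- `∑ₗ r ^ |j - l| ≤ (1 + r) / (1 - r)`-type bound -/
theorem sum_min {q : ℝ} (hq : 1 < q) (j m : ℕ) :
    ∑ l ∈ Finset.range m, min (q ^ l / q ^ j) (q ^ j / q ^ l) ≤ (q + 1) / (q - 1) := by
  have hq0 : 0 < q := by linarith
  have hq1 : 0 < q - 1 := by linarith
  have key : ∀ m, ∑ l ∈ Finset.range m, min (q ^ l / q ^ j) (q ^ j / q ^ l) ≤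
      if m ≤ j then q ^ m / q ^ j / (q - 1) else (q + 1 - q * (q ^ j / q ^ m)) / (q - 1) := by
    intro m
    induction m with
    | zero => simp only [Finset.range_zero, Finset.sum_empty, zero_le, if_true]; positivity
    | succ m ih =>
      rw [Finset.sum_range_succ]
      rcases lt_trichotomy m j with h | h | h
      · rw [if_pos h.le] at ih
        rw [if_pos (by omega)]
        refine (add_le_add ih (min_le_left _ _)).trans (le_of_eq ?_)
        field_simp; ring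
      · subst h
        rw [if_pos le_rfl] at ih
        rw [if_neg (by omega)]
        refine (add_le_add ih (min_le_left _ _)).trans (le_of_eq ?_)
        field_simp; ring
      · rw [if_neg (by omega)] at ih ⊢
        refine (add_le_add ih (min_le_right _ _)).trans (le_of_eq ?_)
        field_simp; ring
  refine (key m).trans ?_
  split_ifs with h
  · refine div_le_div_of_nonneg_right ?_ hq1.le
    have : q ^ m / q ^ j ≤ 1 := by
      rw [div_le_one (by positivity)]; exact pow_le_pow_right₀ hq.le h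
    linarith
  · refine div_le_div_of_nonneg_right ?_ hq1.le
    have : 0 ≤ q * (q ^ j / q ^ m) := by positivity
    linarith

theorem sum_wE (j m : ℕ) : ∑ l ∈ Finset.range m, wE j l ≤ 2 :=
  (sum_min (q := 4) (by norm_num) j m).trans (by norm_num)

variable {Γ : Subgroup Iso} {n : ℕ} {S : MetricField 4 → MetricField 4} {ε : ℕ → ℝ}
  {K L0 L1 δ θ : ℝ} {M : ℕ → ℝ → ℝ}

theorem Src.dist (h : Src Γ n S ε K L0 L1 M) (hε : Env ε δ) (hL : 0 ≤ L1) (hθ : L1 * δ ≤ θ)
    {m : ℕ} (hm : m ≤ 1) {k k' : MetricField 4} (hk : Ad ε K k) (hk' : Ad ε K k') {D : ℝ}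
    (hD : 0 ≤ D) (hd : WM (m + 2) (fun l => D * ε l) fun z => k z - k' z) :
    WM m (fun l => θ * D * ε l / 4 ^ l) fun z => S k z - S k' z := fun i j l y h1 h2 => by
  refine (h.lip m hm k k' hk hk' l y _ h1 h2 (fun i j => hd i j l y h1 h2) i j).mono ?_
  have h3 : L1 * ε l ≤ θ := (mul_le_mul_of_nonneg_left (hε.le l) hL).trans hθ
  have h4 := mul_le_mul_of_nonneg_right h3 (mul_nonneg hD (hε.nn l))
  exact div_le_div_of_nonneg_right (by linarith) (by positivity)

theorem Src.size (h : Src Γ n S ε K L0 L1 M) (hε : Env ε δ) (hL : 0 ≤ L1) (hθ : L1 * δ ≤ θ)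
    (hK : 0 ≤ K) (hθK : θ * K ≤ L0) {k : MetricField 4} (hk : Ad ε K k) :
    WM 1 (fun l => 2 * L0 * ε l / 4 ^ l) (S k) := fun i j l y h1 h2 => by
  have h3 := h.dist hε hL hθ le_rfl hk (ad_zero hε hK) hK
    (fun i j => by simpa using hk.wd i j) i j l y h1 h2
  refine (((h.zero i j l y h1 h2).add h3).congr fun z _ => by simp).mono ?_
  have h4 := mul_le_mul_of_nonneg_right hθK (hε.nn l)
  rw [← add_div]
  exact div_le_div_of_nonneg_right (by linarith) (by positivity)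

theorem symd_UU_sub (n : ℕ) {f g : MetricField 4} (hf : ∀ i j, Continuous fun y => f y i j)
    (hg : ∀ i j, Continuous fun y => g y i j) (x : E4) (i j : Fin 4) :
    symd (UU n fun y => f y - g y) x i j = symd (UU n f) x i j - symd (UU n g) x i j := by
  rw [(la.2.2.1 n f g hf hg).1]
  simp only [symd, Matrix.of_apply, Pi.sub_apply]
  rw [pd_sub i (dA (UU_smooth n f _) x) (dA (UU_smooth n g _) x),
    pd_sub j (dA (UU_smooth n f _) x) (dA (UU_smooth n g _) x)]
  ring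

theorem WM.cont {m : ℕ} {a : ℕ → ℝ} {k : MetricField 4} (h : WM m a k) (i j : Fin 4) :
    Continuous fun y => k y i j := (h i j).contDiff.continuous

/-- the bootstrap -/
theorem boot (C : ℝ) (M : ℕ → ℝ → ℝ) : ∃ Cs' : ℕ → ℝ, ∀ (Γ : Subgroup Iso) (n : ℕ)
    (S : MetricField 4 → MetricField 4) (ε : ℕ → ℝ) (K L0 L1 : ℝ) (k : MetricField 4),
    Src Γ n S ε K L0 L1 M → Ad ε K k → WM 3 (fun _ => C) k →
    (∀ i j, WS (fun l => 2 / 4 ^ l) fun y => S k y i j) →
    (∀ x i j, lap (fun y => k y i j) x + symd (UU n (S k)) x i j = S k x i j) →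
    ∀ m, WM (m + 1) (fun _ => Cs' m) k := by
  choose Cn hCn Hn using fun m M' => nsw m (1 / 2) 2 M' (by norm_num) (by norm_num)
  choose U hU HU using lu
  refine ⟨fun m => Nat.rec C (fun m B => Cn m (M m B) * (M m B + U m * 14 + C)) m,
    fun Γ n S ε K L0 L1 k h hk h3 hS heq m => ?_⟩
  induction m with
  | zero => exact fun i j => (h3 i j).of_le (by norm_num)
  | succ m ih =>
    obtain ⟨τ, F, hE, hτ, hF, he⟩ := h.boot m _ k hk ih
    set B : ℝ := Nat.rec C (fun m B => Cn m (M m B) * (M m B + U m * 14 + C)) m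
    have hM : 0 ≤ M m B := (hτ 0 0).nonneg 0
    have h7 : ∀ j m, ∑ l ∈ Finset.range m, wE j l * 2 ≤ 14 := fun j m => by
      have := sum_wE j m
      rw [← Finset.sum_mul]; linarith
    intro i j
    refine Hn m (M m B) τ (fun _ _ => 0) (fun _ => 0) (fun y => k y i j)
      (fun y => F y i j - symd (UU n (S k)) y i j) (fun _ => M m B + U m * 14) (fun _ => C)
      (fun _ => M m B + U m * 14 + C) hE hτ (fun _ l _ _ _ => CK.zero.mono (by positivity))
      (fun l _ _ _ => CK.zero.mono (by positivity)) (fun l y h1 h2 => ?_) (fun y => ?_)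
      (h3 i j).ws (fun x => ?_) fun _ _ _ _ => le_rfl
    · refine ((hF i j l y h1 h2).sub ((HU m n (S k) (fun _ => 2) hS).1 (fun _ => 14) h7 i j l y
        h1 h2)).mono (le_of_eq ?_)
      beta_reduce; ring
    · obtain ⟨l, h1, h2⟩ := exists_lv y
      exact ⟨C, (h3 i j l y h1 h2.le).of_le (by norm_num)⟩
    · have := he x i j
      have := heq x i j
      simp only [zero_mul, Finset.sum_const_zero, add_zero]
      linarith

theorem pic : PICStmt := by
  obtain ⟨C1, hC1, H1⟩ := le 1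
  obtain ⟨C0, hC0, H0⟩ := le 0
  obtain ⟨U0, hU0, HU⟩ := lu 0
  set Q := C1 + C0 + U0 + 1 with hQ
  have hQ0 : 0 < Q := by positivity
  refine ⟨1 / (14 * Q), 14 * Q, by positivity, by linarith, fun M => ?_⟩
  obtain ⟨Cs', HB⟩ := boot (14 * Q) M
  refine ⟨Cs', fun Γ n S ε L0 L1 δ hε hL0 hL1 h0δ hθ h => ?_⟩
  set θ := 1 / (14 * Q) with hθd
  set K := 14 * Q * L0 with hKd
  have hθ0 : 0 < θ := by positivity
  have hθQ : θ * (14 * Q) = 1 := by rw [hθd]; field_simp
  have hK : 0 ≤ K := by positivity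
  have hθK : θ * K ≤ L0 := by rw [hKd, ← mul_assoc, hθQ, one_mul]
  have size := fun {k : MetricField 4} (hk : Ad ε K k) => h.size hε hL1 hθ hK hθK hk
  have h2L : 0 ≤ 2 * L0 := by positivity
  -- the iterates
  let k : ℕ → MetricField 4 := fun m => Nat.rec 0 (fun _ g => KK n (S g)) m
  have hk : ∀ m, SmM (k m) ∧ Ad ε K (k m) ∧ Inv Γ (k m) := fun m => by
    induction m with
    | zero => exact ⟨fun _ _ => contDiff_const, ad_zero hε hK, inv_zero Γ⟩
    | succ m ih =>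
      obtain ⟨s1, s2, s3⟩ := h.sm _ ih.2.1 ih.1
      refine ⟨KK_smooth s1 (h.out _), ⟨(la.2.1 n _ s1 (h.out _)).2.1 s2, fun i j => ?_⟩,
        KK_inv (fun i j => (s1 i j).continuous) (h.out _) (s3 ih.2.2)⟩
      refine (H1 n _ (fun l => 2 * L0 * ε l) _ _ s1 s2 (h.out _)
        (fun i j => (size ih.2.1 i j).ws) (size ih.2.1) (hε.cv' h2L) (hε.nb' h2L) i j).mono
        fun l => ?_
      have := mul_nonneg hL0 (hε.nn l)
      rw [hKd]; nlinarith
  have hsm := fun m => (h.sm _ (hk m).2.1 (hk m).1).1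
  have hsy := fun m => (h.sm _ (hk m).2.1 (hk m).1).2.1
  have hd : ∀ m, WM 2 (fun l => K * (1 / 2) ^ m * ε l) fun z => k (m + 1) z - k m z := fun m => by
    induction m with
    | zero => exact fun i j => by simpa [k] using ((hk 1).2.1.wd i j).of_le (j := 2) (by norm_num)
    | succ m ih =>
      have hD : 0 ≤ K * (1 / 2) ^ m := by positivity
      have h1 := h.dist hε hL1 hθ zero_le_one (hk (m + 1)).2.1 (hk m).2.1 hD ih
      have hc : 0 ≤ θ * (K * (1 / 2) ^ m) := by positivity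
      have e := (la.2.2.1 n _ _ (fun i j => (hsm (m + 1) i j).continuous)
        fun i j => (hsm m i j).continuous).2 (h.out _) (h.out _)
      intro i j
      have h2 := H0 n (fun z => S (k (m + 1)) z - S (k m) z) _ _ _
        (fun i j => (hsm (m + 1) i j).sub (hsm m i j)) (fun y => (hsy (m + 1) y).sub (hsy m y))
        (fun y hy => by rw [h.out _ y hy, h.out _ y hy, sub_zero]) (fun i j => (h1 i j).ws) h1
        (hε.cv' hc) (hε.nb' hc) i j
      rw [e] at h2
      refine h2.mono fun l => ?_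
      have h3 : 0 ≤ K * (1 / 2) ^ m * ε l := mul_nonneg hD (hε.nn l)
      have h4 : C0 * (7 * θ) ≤ 1 / 2 := by nlinarith
      calc C0 * (7 * (θ * (K * (1 / 2) ^ m) * ε l))
          = C0 * (7 * θ) * (K * (1 / 2) ^ m * ε l) := by ring
        _ ≤ 1 / 2 * (K * (1 / 2) ^ m * ε l) := mul_le_mul_of_nonneg_right h4 h3
        _ = _ := by ring
  have hcv : ∀ y i j, ∃ v, Tendsto (fun m => k m y i j) atTop (𝓝 v) := fun y i j => by
    obtain ⟨l, h1, h2⟩ := exists_lv y
    refine cauchySeq_tendsto_of_complete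
      (cauchySeq_of_le_geometric (1 / 2) (K * ε l) (by norm_num) fun m => ?_)
    rw [dist_comm, dist_eq_norm]
    exact (hd m i j l y h1 h2.le).bdd.trans (le_of_eq (by ring))
  choose v hv using hcv
  let kk : MetricField 4 := fun y => Matrix.of (v y)
  have hlim : ∀ i j y, Tendsto (fun m => k m y i j) atTop (𝓝 (kk y i j)) := fun i j y => hv y i j
  have had : Ad ε K kk := ⟨fun y => by
      ext i j
      refine tendsto_nhds_unique (hlim j i y) ?_
      simpa only [((hk _).2.1.sy y).apply i j] using hlim i j y,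
    fun i j l y h1 h2 => ck_limit (fun m => (hk m).2.1.wd i j l y h1 h2) (hlim i j)⟩
  have hinv : Inv Γ kk := inv_iff.2 fun γ hγ => by
    funext x
    ext i j
    refine tendsto_nhds_unique ?_ (hlim i j x)
    have e : ∀ m, k m x i j = ∑ a, ∑ b, om γ i a * om γ j b * k m (γ x) a b := fun m => by
      rw [← pbm_iso, inv_iff.1 (hk m).2.2 γ hγ]
    simp only [e, pbm_iso]
    exact tendsto_finsetSum _ fun a _ => tendsto_finsetSum _ fun b _ =>
      (hlim a b _).const_mul _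
  have hdd : ∀ m, WM 2 (fun l => 2 * K * (1 / 2) ^ m * ε l) fun z => kk z - k m z := fun m => by
    have h1 : ∀ p, WM 2 (fun l => 2 * K * (1 / 2) ^ m * (1 - (1 / 2) ^ p) * ε l)
        fun z => k (p + m) z - k m z := fun p => by
      induction p with
      | zero => exact fun i j l y _ _ => CK.of_zero (by simp) fun z _ => by simp
      | succ p ih =>
        intro i j l y h1 h2
        refine (((hd (p + m) i j l y h1 h2).add (ih i j l y h1 h2)).congr fun z _ => ?_).mono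
          (le_of_eq ?_)
        · rw [Nat.add_right_comm]; simp
        · beta_reduce; ring
    intro i j l y h2 h3
    refine ck_limit (u := fun p z => (k (p + m) z - k m z) i j)
      (fun p => (h1 p i j l y h2 h3).mono ?_) fun x =>
        ((hlim i j x).comp (tendsto_add_atTop_nat m)).sub_const _
    have h4 : 0 ≤ 2 * K * (1 / 2) ^ m * (1 / 2) ^ p * ε l := mul_nonneg (by positivity) (hε.nn l)
    beta_reduce; linarith
  have heq : ∀ x i j, lap (fun y => kk y i j) x + symd (UU n (S kk)) x i j = S kk x i j := by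
    intro x i j
    obtain ⟨l, h1, h2⟩ := exists_lv x
    have hs := sc_pos x
    have hb : ∀ m, |lap (fun y => kk y i j) x + symd (UU n (S kk)) x i j - S kk x i j| ≤
        (4 * (4 / (‖x‖ + 1) * (4 / (‖x‖ + 1) * (K * ε l))) + U0 * (7 * (θ * (2 * K) * ε l)) / 4 ^ l
          + θ * (2 * K) * ε l / 4 ^ l) * (1 / 2) ^ m := fun m => by
      have hD : 0 ≤ 2 * K * (1 / 2) ^ m := by positivity
      have hc : 0 ≤ θ * (2 * K * (1 / 2) ^ m) := by positivity
      have d1 := h.dist hε hL1 hθ zero_le_one had (hk m).2.1 hD (hdd m)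
      have b1 := (CK.lap (k := 0) (hdd (m + 1) i j l x h1 h2.le)).bdd
      have b2 := ((HU n _ _ fun i j => (d1 i j).ws).1 _ (hε.cv' hc) i j l x h1 h2.le).bdd
      have b3 := (d1 i j l x h1 h2.le).bdd
      rw [symd_UU_sub n (size had).cont (size (hk m).2.1).cont] at b2
      have e1 : lap (fun y => (kk y - k (m + 1) y) i j) x =
          lap (fun y => kk y i j) x - lap (fun y => k (m + 1) y i j) x :=
        lap_sub2 ((had.wd i j).of_le (j := 2) (by norm_num)).contDiff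
          (((hk (m + 1)).1 i j).of_le R247.Bo84.two_le_infty) x
      have e2 : lap (fun y => k (m + 1) y i j) x + symd (UU n (S (k m))) x i j =
          S (k m) x i j := lap_KK (hsm m) (h.out _) x i j
      rw [e1] at b1
      simp only [Real.norm_eq_abs, Matrix.sub_apply] at b1 b2 b3
      have e3 : lap (fun y => kk y i j) x + symd (UU n (S kk)) x i j - S kk x i j =
          (lap (fun y => kk y i j) x - lap (fun y => k (m + 1) y i j) x) +
          (symd (UU n (S kk)) x i j - symd (UU n (S (k m))) x i j) -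
          (S kk x i j - S (k m) x i j) := by linarith
      rw [e3]
      refine ((abs_sub _ _).trans (add_le_add ((abs_add_le _ _).trans (add_le_add b1 b2))
        b3)).trans (le_of_eq ?_)
      ring
    have ht := (tendsto_pow_atTop_nhds_zero_of_lt_one (r := (1 / 2 : ℝ)) (by norm_num)
      (by norm_num)).const_mul (4 * (4 / (‖x‖ + 1) * (4 / (‖x‖ + 1) * (K * ε l))) +
        U0 * (7 * (θ * (2 * K) * ε l)) / 4 ^ l + θ * (2 * K) * ε l / 4 ^ l)
    rw [mul_zero] at ht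
    exact sub_eq_zero.1 (abs_nonpos_iff.1 (ge_of_tendsto' ht hb))
  have hεL : ∀ l, L0 * ε l ≤ 1 := fun l => (mul_le_mul_of_nonneg_left (hε.le l) hL0).trans h0δ
  have hall := HB Γ n S ε K L0 L1 kk h had (fun i j => (had.wd i j).mono fun l => by
      rw [hKd]; nlinarith [hεL l]) (fun i j l y h1 h2 => ((size had i j).ws l y h1 h2).trans
        (div_le_div_of_nonneg_right (by nlinarith [hεL l]) (by positivity))) heq
  refine ⟨kk, fun i j => contDiff_infty.2 fun m => ((hall m i j).of_le (Nat.le_succ m)).contDiff,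
    had, hinv, fun m i j => (hall m i j).of_le (Nat.le_succ m), heq, fun i j => ?_,
    fun J e hJ hS => ?_⟩
  · refine ((HU n _ _ fun i j => (size had i j).ws).1 _ (hε.cv' h2L) i j).mono fun l => ?_
    have := mul_nonneg hL0 (hε.nn l)
    exact div_le_div_of_nonneg_right (by nlinarith) (by positivity)
  · have he : 0 ≤ e := by simpa using hJ 0
    have hJ0 := (hS 0 0).nonneg
    set E := 14 * Q * e with hE
    have hE0 : 0 ≤ E := by positivity
    have hs : ∀ m, ∑ l ∈ Finset.range m, (J l + L1 * ε l * E) ≤ 2 * e := fun m => by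
      rw [Finset.sum_add_distrib, ← Finset.sum_mul, ← Finset.mul_sum]
      have h1 : L1 * ∑ l ∈ Finset.range m, ε l ≤ θ :=
        (mul_le_mul_of_nonneg_left (hε.sum m) hL1).trans hθ
      have h2 := mul_le_mul_of_nonneg_right h1 hE0
      have h3 : θ * E = e := by rw [hE, ← mul_assoc, hθQ, one_mul]
      linarith [hJ m]
    have hn : ∀ l, 0 ≤ J l + L1 * ε l * E := fun l =>
      add_nonneg (hJ0 l) (mul_nonneg (mul_nonneg hL1 (hε.nn l)) hE0)
    have hm : ∀ m, WM 2 (fun l => 14 * Q * 4 ^ l * e) (k m) := fun m => by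
      induction m with
      | zero => exact fun i j l y _ _ => CK.zero.mono (by positivity)
      | succ m ih =>
        have h1 : WM 0 (fun l => 4 ^ l * (J l + L1 * ε l * E) / 4 ^ l) (S (k m)) :=
          fun i j l y h1 h2 => by
            have h3 := h.lip 0 zero_le_one _ _ (hk m).2.1 (ad_zero hε hK) l y _ h1 h2
              (fun i j => by simpa using ih i j l y h1 h2) i j
            refine (((hS i j l y h1 h2).add h3).congr fun z _ => by simp).mono (le_of_eq ?_)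
            rw [hE]; field_simp
        intro i j
        refine (H0 n _ _ _ (fun l => 4 * 4 ^ l * (2 * e)) (hsm m) (hsy m) (h.out _)
          (fun i j => (h1 i j).ws) h1 (fun j p => ?_) (fun j i h2 _ => ?_) i j).mono fun l => ?_
        · calc _ ≤ ∑ l ∈ Finset.range p, 4 ^ j * (J l + L1 * ε l * E) :=
                Finset.sum_le_sum fun l _ => by
                  rw [← mul_assoc]; exact mul_le_mul_of_nonneg_right (wE_mul j l) (hn l)
            _ ≤ 4 ^ j * (2 * e) := by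
                rw [← Finset.mul_sum]; exact mul_le_mul_of_nonneg_left (hs p) (by positivity)
            _ ≤ _ := by
                have : 0 ≤ 4 ^ j * (2 * e) := by positivity
                linarith
        · have h3 : (4 : ℝ) ^ i ≤ 4 ^ (j + 1) := pow_le_pow_right₀ (by norm_num) h2
          have h4 : J i + L1 * ε i * E ≤ 2 * e :=
            (Finset.single_le_sum (f := fun l => J l + L1 * ε l * E) (fun l _ => hn l)
              (Finset.self_mem_range_succ i)).trans (hs (i + 1))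
          rw [pow_succ'] at h3
          exact mul_le_mul h3 h4 (hn i) (by positivity)
        · have : 0 ≤ 4 ^ l * e := by positivity
          nlinarith
    exact fun i j l y h1 h2 => ck_limit (fun m => hm m i j l y h1 h2) (hlim i j)

end Crest.Agent.N207.Ph.Ez

end
end

-- ▼ part N207/Ph/Ey1
section

/-!
# Row 207, block PHI (helper11): the nonlinear part of the gauged Ricci operator on cells
-/

set_option autoImplicit false
set_option linter.unusedSectionVars false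

open scoped ContDiff Topology
open Set Filter Metric
open Crest.GeometryTopology.CoordMetric

noncomputable section

namespace Crest.Agent.N207.Ph.Ey

open Crest.Agent.NLib.Ell Crest.Agent.N207.Lg Sk Hc
open Crest.Agent.R240.Fr (lap)

/-- symmetric and close to `δ` -/
def Nr (g : MetricField 4) : Prop :=
  ∀ x, (∀ a b, g x a b = g x b a) ∧ ∀ a b, |dv g a b x| ≤ 1 / 100

variable {g : MetricField 4} {x : E4}

theorem Nr.pos (h : Nr g) (x : E4) : (g x).PosDef :=
  (I.pos_of_small (h x).1 (h x).2).posDef (by norm_num)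

theorem Nr.det (h : Nr g) (x : E4) : 1 / 384 ≤ (g x).det := by
  have h0 := (h.pos x).det_pos
  have h1 : |((g x)⁻¹).det| ≤ _ := Matrix.det_le (abv := AbsoluteValue.abs)
    (U.abs_inv_le h0.ne'.isUnit (ε := 1 / 100) (by norm_num) (h x).2)
  rw [Matrix.det_nonsing_inv, Ring.inverse_eq_inv', abs_of_pos (inv_pos.2 h0),
    inv_le_comm₀ h0 (by positivity)] at h1
  refine le_trans (le_of_eq ?_) h1
  norm_num [Nat.factorial]

theorem Nr.c2 (h : Nr g) (hc : ∀ a b, ContDiffAt ℝ 2 (fun z => g z a b) x) : C2 g x :=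
  ⟨hc, Eventually.of_forall fun z => (h z).1, (h.pos x).det_pos⟩

theorem Nr.riem (h : Nr g) (hc : ∀ a b, ContDiff ℝ ∞ fun z => g z a b) : IsRiemannianOn g univ :=
  ⟨isOpen_univ, fun a b => (hc a b).contDiffOn, fun z _ => h.pos z⟩

theorem Nr.hd_eq (h : Nr g) (a b : Fin 4) (x : E4) :
    hd g a b x = ∑ c, (g x)⁻¹ a c * dv g c b x := by
  have e := congrFun (congrFun (Matrix.nonsing_inv_mul _ (h.pos x).det_pos.ne'.isUnit) a) b
  rw [Matrix.mul_apply] at e
  simp only [hd, dv, mul_sub, Finset.sum_sub_distrib, e, Matrix.one_apply]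
  simp

theorem nr_flat : Nr flat := fun x => ⟨fun a b => by simp [flat, Matrix.one_apply, eq_comm],
  fun a b => by simp [dv, flat]⟩

/-- the first order part -/
def QQ (g : MetricField 4) (i j : Fin 4) (y : E4) : ℝ :=
  2 * qd (iv g y) (jet g y) i j - gv (iv g y) (jet g y) i * gv (iv g y) (jet g y) j

/-- `Δ g + 2 Ric g - symd B` -/
def PP (g : MetricField 4) (i j : Fin 4) (y : E4) : ℝ :=
  ∑ a, ∑ b, hd g a b y * jet2 g y a b i j + QQ g i j y

theorem pp_eq (h : C2 g x) (i j : Fin 4) : PP g i j x =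
    lap (fun z => g z i j) x + 2 * ricci g x i j - symd (gauT flat g) x i j := by
  have e : lap (fun z => g z i j) x = ∑ a, jet2 g x a a i j := rfl
  have e2 : flat = fun _ => 1 := rfl
  rw [ricci_one h, e, e2]
  simp only [PP, QQ, hd, sub_mul, Finset.sum_sub_distrib, Matrix.one_apply, ite_mul, one_mul,
    zero_mul, Finset.sum_ite_eq, Finset.mem_univ, if_true, symd, Matrix.of_apply, gauT_const, lapJ,
    iv]
  ring

theorem ric_eq (h : C2 g x) (i j : Fin 4) :
    ricci g x i j = ricJ (iv g x) (jet g x) (jet2 g x) i j := by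
  rw [(c2_one x).ricci_eq h, TG_const, TTG_const, ricci_const, zero_add]

/-! ### pairs of functions -/

section LP

variable {D : Type} {k : ℕ} {y : D → E4} {κ : D → ℝ} {φ ψ : D × Bool × E4 → ℝ}

/-- bounded, with a difference of size `κ` -/
def LP (k : ℕ) (y : D → E4) (κ : D → ℝ) (φ : D × Bool × E4 → ℝ) : Prop :=
  ∃ C, 0 ≤ C ∧ ∀ d, (∀ b, CK k C (fun x => φ (d, b, x)) (y d)) ∧
    CK k (C * κ d) (fun x => φ (d, true, x) - φ (d, false, x)) (y d)

theorem LP.cst (hκ : ∀ d, 0 ≤ κ d) {c : D → ℝ} {K : ℝ} (hc : ∀ d, |c d| ≤ K) :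
    LP k y κ fun p => c p.1 :=
  ⟨|K|, abs_nonneg _, fun d => ⟨fun _ => (CK.const (c d)).mono ((hc d).trans (le_abs_self K)),
    CK.of_zero (mul_nonneg (abs_nonneg _) (hκ d)) fun _ _ => sub_self _⟩⟩

theorem lp_cl (hκ : ∀ d, 0 ≤ κ d) : Cl (LP k y κ) where
  const c := LP.cst hκ (c := fun _ => c) fun _ => le_rfl
  add := by
    rintro φ ψ ⟨C, hC, h⟩ ⟨C', hC', h'⟩
    exact ⟨C + C', by positivity, fun d => ⟨fun b => ((h d).1 b).add ((h' d).1 b),
      (((h d).2.add (h' d).2).congr fun z _ => by ring).mono (le_of_eq (by ring))⟩⟩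
  mul := by
    rintro φ ψ ⟨C, hC, h⟩ ⟨C', hC', h'⟩
    refine ⟨2 * (2 ^ (k + 1) * (C * C')), by positivity, fun d =>
      ⟨fun b => (((h d).1 b).mul ((h' d).1 b)).mono ?_, ((((h d).2.mul ((h' d).1 true)).add
        (((h d).1 false).mul (h' d).2)).congr fun z _ => by ring).mono (le_of_eq (by ring))⟩⟩
    have : 0 ≤ 2 ^ (k + 1) * (C * C') := by positivity
    linarith

theorem LP.of_le (h : LP k y κ φ) {j : ℕ} (hj : j ≤ k) : LP j y κ φ :=
  h.imp fun _ hC => ⟨hC.1, fun d => ⟨fun b => ((hC.2 d).1 b).of_le hj, (hC.2 d).2.of_le hj⟩⟩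

theorem LP.inv (h : LP k y κ φ) {c : ℝ} (hc : 0 < c) (h0 : ∀ p, c ≤ φ p) :
    LP k y κ fun p => (φ p)⁻¹ := by
  obtain ⟨C, hC, h⟩ := h
  obtain ⟨E, hE⟩ := NLib.Ell.comp 4 k (1 / 2) C (by norm_num) (by norm_num) ℝ ℝ (fun t => t⁻¹) (Ioi 0)
    (Icc c C) isOpen_Ioi isCompact_Icc (fun t ht => hc.trans_le ht.1) CB.Bt.sm_inv0
  have h1 : ∀ d b, CK k |E| (fun x => (φ (d, b, x))⁻¹) (y d) := fun d b =>
    CKA.mono (hE _ _ isOpen_ball (fun Y hY => ⟨h0 _, (le_abs_self _).trans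
      (((h d).1 b).bdd_cl hY)⟩) ((h d).1 b)) (le_abs_self E)
  refine ⟨|E| + 2 ^ (k + 1) * (C * (2 ^ (k + 1) * (|E| * |E|))), by positivity, fun d =>
    ⟨fun b => (h1 d b).mono (le_add_of_nonneg_right (by positivity)),
      ((((h d).2.mul ((h1 d true).mul (h1 d false))).neg).congr fun z _ => ?_).mono ?_⟩⟩
  · have := (hc.trans_le (h0 (d, true, z))).ne'
    have := (hc.trans_le (h0 (d, false, z))).ne'
    field_simp
    ring
  · rcases hC.eq_or_lt with rfl | hC'
    · have := (((h d).1 true).bdd)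
      linarith [h0 (d, true, y d), le_abs_self (φ (d, true, y d)), Real.norm_eq_abs (φ (d, true, y d))]
    · have := (mul_nonneg_iff_of_pos_left hC').1 (h d).2.nonneg
      nlinarith [mul_nonneg (abs_nonneg E) this]

theorem LP.pd (h : LP (k + 1) y κ φ) (i : Fin 4) :
    LP k y κ fun p => (‖y p.1‖ + 1) * pderiv i (fun x => φ (p.1, p.2.1, x)) p.2.2 := by
  obtain ⟨C, hC, h⟩ := h
  have e : ∀ (d : D) (M : ℝ), |‖y d‖ + 1| * (4 / (‖y d‖ + 1) * M) = 4 * M := fun d M => by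
    rw [abs_of_pos (Hc.sc_pos _)]
    have := Hc.sc_pos (y d)
    field_simp
  refine ⟨4 * C, by positivity, fun d => ⟨fun b => ((((h d).1 b).pderiv i).const_mul _).mono
    (e d C).le, CKA.mono (CKA.congr (((h d).2.pderiv i).const_mul (‖y d‖ + 1)) isOpen_ball
      fun Y hY => ?_) (by rw [e, mul_assoc])⟩⟩
  have h1 := fun b => (((h d).1 b).contDiffAt_cl hY).differentiableAt (by simp)
  simp only [pderiv, fderiv_fun_sub (h1 true) (h1 false), sub_apply, mul_sub]

end LP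

/-- two metrics on a cell -/
structure Dt (m : ℕ) (K : ℝ) where
  g : Bool → MetricField 4
  y : E4
  η : ℝ
  d : ℝ
  pos : 0 < η
  le : η ≤ K
  nr : ∀ b, Nr (g b)
  jt : ∀ b i j, CK m η (dv (g b) i j) y
  dif : ∀ i j, CK m d (fun x => g true x i j - g false x i j) y

namespace Dt

variable {m k : ℕ} {K : ℝ}

/-- the class of the data -/
abbrev L (m : ℕ) (K : ℝ) (k : ℕ) : (Dt m K × Bool × E4 → ℝ) → Prop :=
  LP k (fun D : Dt m K => D.y) fun D => D.d / D.η

theorem kap (D : Dt m K) : 0 ≤ D.d / D.η := div_nonneg (D.dif 0 0).nonneg D.pos.le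

theorem cls : Cl (L m K k) := lp_cl kap

theorem eta : L m K k fun p => p.1.η :=
  LP.cst kap (K := K) fun D => by rw [abs_of_pos D.pos]; exact D.le

theorem nn (i j : Fin 4) : L m K m fun p => p.1.η⁻¹ * dv (p.1.g p.2.1) i j p.2.2 :=
  ⟨1, zero_le_one, fun D => ⟨fun b => ((D.jt b i j).const_mul D.η⁻¹).mono (by
    rw [abs_of_pos (inv_pos.2 D.pos), inv_mul_cancel₀ D.pos.ne']),
    (((D.dif i j).const_mul D.η⁻¹).congr fun z _ => by simp only [dv]; ring).mono (by
      simp only [abs_of_pos (inv_pos.2 D.pos), one_mul, div_eq_inv_mul, le_refl])⟩⟩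

theorem gg (i j : Fin 4) : L m K m fun p => p.1.g p.2.1 p.2.2 i j := by
  have h := cls.add (cls.mul eta (nn (m := m) (K := K) i j))
    (cls.const ((1 : Matrix (Fin 4) (Fin 4) ℝ) i j))
  refine (congrArg _ (funext fun p => ?_)).mp h
  rw [mul_inv_cancel_left₀ p.1.pos.ne', dv, sub_add_cancel]

theorem hh : P2 (L m K m) fun p => iv (p.1.g p.2.1) p.2.2 :=
  CB.Bt.cl_inv cls gg ((CB.Bt.cl_det cls gg).inv (by norm_num) fun p => (p.1.nr _).det _)

theorem dd (a b : Fin 4) : L m K m fun p => p.1.η⁻¹ * hd (p.1.g p.2.1) a b p.2.2 := by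
  refine (congrArg _ (funext fun p => ?_)).mp
    (cls.sum Finset.univ fun c => cls.mul (hh a c) (nn (m := m) (K := K) c b))
  rw [(p.1.nr _).hd_eq, Finset.mul_sum]
  exact Finset.sum_congr rfl fun c _ => by simp only [iv]; ring

theorem pd_cm (c : ℝ) (i : Fin 4) (f : E4 → ℝ) :
    pderiv i (fun x => c * f x) = fun x => c * pderiv i f x := funext fun _ => pd_cmul i c

theorem tt : P3 (L (m + 1) K m) fun p => ((‖p.1.y‖ + 1) / p.1.η) • jet (p.1.g p.2.1) p.2.2 :=
  fun c a b => by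
    refine (congrArg _ (funext fun p => ?_)).mp ((nn (m := m + 1) (K := K) a b).pd c)
    simp only [pd_cm, TR.pd_dv, Pi.smul_apply, smul_eq_mul, Lg.jet]
    ring

theorem tt2 : P4 (L (m + 2) K m)
    fun p => ((‖p.1.y‖ + 1) ^ 2 / p.1.η) • jet2 (p.1.g p.2.1) p.2.2 := fun c d a b => by
  refine (congrArg _ (funext fun p => ?_)).mp ((tt (m := m + 1) (K := K) d a b).pd c)
  simp only [pd_cm, Pi.smul_apply, smul_eq_mul, jet2]
  ring

theorem qq (i j : Fin 4) :
    L (m + 1) K m fun p => ((‖p.1.y‖ + 1) / p.1.η) ^ 2 * QQ (p.1.g p.2.1) i j p.2.2 := by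
  have h1 : P2 (L (m + 1) K m) _ := fun a b => (hh a b).of_le (Nat.le_succ m)
  refine (congrArg _ (funext fun p => ?_)).mp (cls.sub (cls.mul (cls.const 2) (cls.qd h1 tt i j))
    (cls.mul (cls.gv h1 tt i) (cls.gv h1 tt j)))
  simp only [qd_hom, gv_smul', Pi.smul_apply, smul_eq_mul, QQ]
  ring

end Dt

theorem pp_lp (m : ℕ) (K : ℝ) (i j : Fin 4) : Dt.L (m + 2) K m
    fun p => ((‖p.1.y‖ + 1) / p.1.η) ^ 2 * PP (p.1.g p.2.1) i j p.2.2 := by
  have h1 : Dt.L (m + 2) K m _ := (Dt.qq (m := m + 1) i j).of_le (Nat.le_succ m)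
  refine (congrArg _ (funext fun p => ?_)).mp (Dt.cls.add (Dt.cls.sum Finset.univ fun a =>
    Dt.cls.sum Finset.univ fun b => Dt.cls.mul ((Dt.dd a b).of_le (Nat.le_add_right m 2))
      (Dt.tt2 a b i j)) h1)
  simp only [PP, mul_add, Finset.mul_sum, Pi.smul_apply, smul_eq_mul]
  congr 1
  exact Finset.sum_congr rfl fun a _ => Finset.sum_congr rfl fun b _ => by ring

theorem ric_lp (m : ℕ) (K : ℝ) (i j : Fin 4) : Dt.L (m + 2) K m fun p => (‖p.1.y‖ + 1) ^ 2 *
    ricJ (iv (p.1.g p.2.1) p.2.2) (jet (p.1.g p.2.1) p.2.2) (jet2 (p.1.g p.2.1) p.2.2) i j := by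
  have h1 : P2 (Dt.L (m + 2) K m) _ := fun a b => (Dt.hh a b).of_le (Nat.le_add_right m 2)
  have h2 : P3 (Dt.L (m + 2) K m) fun p => (‖p.1.y‖ + 1) • jet (p.1.g p.2.1) p.2.2 :=
    fun c a b => by
      refine (congrArg _ (funext fun p => ?_)).mp
        (Dt.cls.mul Dt.eta ((Dt.tt (m := m + 1) (K := K) c a b).of_le (Nat.le_succ m)))
      have := p.1.pos.ne'
      simp only [Pi.smul_apply, smul_eq_mul]
      field_simp
  have h3 : P4 (Dt.L (m + 2) K m) fun p => (‖p.1.y‖ + 1) ^ 2 • jet2 (p.1.g p.2.1) p.2.2 :=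
    fun c d a b => by
      refine (congrArg _ (funext fun p => ?_)).mp (Dt.cls.mul Dt.eta (Dt.tt2 (K := K) c d a b))
      have := p.1.pos.ne'
      simp only [Pi.smul_apply, smul_eq_mul]
      field_simp
  refine (congrArg _ (funext fun p => ?_)).mp (Dt.cls.ricJ h1 h2 h3 i j)
  simp only [ricJ_hom, Pi.smul_apply, smul_eq_mul]

theorem unif2 {D : Type} {k : ℕ} {y : D → E4} {κ : D → ℝ} (hκ : ∀ d, 0 ≤ κ d)
    {φ : Fin 4 → Fin 4 → D × Bool × E4 → ℝ} (h : ∀ i j, LP k y κ (φ i j)) :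
    ∃ C, 0 < C ∧ ∀ d i j, (∀ b, CK k C (fun x => φ i j (d, b, x)) (y d)) ∧
      CK k (C * κ d) (fun x => φ i j (d, true, x) - φ i j (d, false, x)) (y d) := by
  choose C hC h using h
  have h1 : ∀ i j, C i j ≤ ∑ i, ∑ j, C i j + 1 := fun i j =>
    ((Finset.single_le_sum (fun j _ => hC i j) (Finset.mem_univ j)).trans
      (Finset.single_le_sum (f := fun i => ∑ j, C i j)
        (fun i _ => Finset.sum_nonneg fun j _ => hC i j) (Finset.mem_univ i))).trans (by linarith)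
  have h2 : 0 ≤ ∑ i, ∑ j, C i j := Finset.sum_nonneg fun i _ => Finset.sum_nonneg fun j _ => hC i j
  exact ⟨_, by positivity, fun d i j => ⟨fun b => ((h i j d).1 b).mono (h1 i j),
    (h i j d).2.mono (mul_le_mul_of_nonneg_right (h1 i j) (hκ d))⟩⟩

theorem ck_div {k : ℕ} {M c : ℝ} {f : E4 → ℝ} {y : E4} (hc : 0 < c)
    (h : CK k M (fun x => c * f x) y) : CK k (M / c) f y :=
  ((h.const_mul c⁻¹).congr fun z _ => (inv_mul_cancel_left₀ hc.ne' _).symm).mono (by
    rw [abs_of_pos (inv_pos.2 hc), div_eq_inv_mul])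

/-- the Lipschitz estimate of `PP` -/
theorem lip (m : ℕ) (K : ℝ) : ∃ C : ℝ, 0 < C ∧ ∀ (g g' : MetricField 4) (y : E4) (η d : ℝ),
    0 < η → η ≤ K → Nr g → Nr g' → (∀ i j, CK (m + 2) η (dv g i j) y) →
    (∀ i j, CK (m + 2) η (dv g' i j) y) → (∀ i j, CK (m + 2) d (fun x => g x i j - g' x i j) y) →
    ∀ i j, CK m (C * η * d / (‖y‖ + 1) ^ 2) (fun x => PP g i j x - PP g' i j x) y := by
  obtain ⟨C, hC, h⟩ := unif2 Dt.kap (pp_lp m K)
  refine ⟨C, hC, fun g g' y η d h0 h1 h2 h3 h4 h5 h6 i j => ?_⟩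
  have hs := Hc.sc_pos y
  have h7 := (h ⟨fun b => bif b then g else g', y, η, d, h0, h1, fun b => by cases b <;> assumption,
    fun b => by cases b <;> assumption, h6⟩ i j).2
  simp only [cond_true, cond_false, ← mul_sub] at h7
  refine (ck_div (by positivity) h7).mono (le_of_eq ?_)
  field_simp

/-- the Ricci tensor -/
theorem ric_ck (m : ℕ) (K : ℝ) : ∃ C : ℝ, 0 < C ∧ ∀ (g : MetricField 4) (y : E4) (d : ℝ),
    d ≤ K → Nr g → (∀ i j, ContDiff ℝ 2 fun x => g x i j) → (∀ i j, CK (m + 2) d (dv g i j) y) →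
    ∀ i j, CK m (C * d / (‖y‖ + 1) ^ 2) (fun x => ricci g x i j) y := by
  obtain ⟨C, hC, h⟩ := unif2 Dt.kap (ric_lp m (|K| + 1))
  refine ⟨C / (|K| + 1), by positivity, fun g y d h1 h2 h3 h4 i j => ?_⟩
  have hs := Hc.sc_pos y
  have h7 := (h ⟨fun b => bif b then g else flat, y, |K| + 1, d, by positivity, le_rfl,
    fun b => by cases b; exacts [nr_flat, h2], fun b => by
      cases b
      · exact fun i j => CK.of_zero (by positivity) fun z _ => sub_self _
      · exact fun i j => (h4 i j).mono (by linarith [le_abs_self K]), h4⟩ i j).2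
  simp only [cond_true, cond_false, ← ric_eq (h2.c2 fun a b => (h3 a b).contDiffAt),
    ← ric_eq (nr_flat.c2 fun a b => contDiffAt_const), ricci_flat, mul_zero, sub_zero] at h7
  refine (ck_div (by positivity) h7).mono (le_of_eq ?_)
  field_simp

/-- the coefficients of the bootstrap -/
theorem bdd (m : ℕ) (K : ℝ) : ∃ C : ℝ, 0 < C ∧ ∀ (g : MetricField 4) (y : E4), Nr g →
    (∀ i j, CK (m + 1) K (dv g i j) y) → ∀ i j, CK (m + 1) C (hd g i j) y ∧
      CK m (C / (‖y‖ + 1) ^ 2) (QQ g i j) y := by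
  obtain ⟨C, hC, h⟩ := unif2 Dt.kap (Dt.dd (m := m + 1) (K := |K| + 1))
  obtain ⟨C', hC', h'⟩ := unif2 Dt.kap (Dt.qq (m := m) (K := |K| + 1))
  refine ⟨C * (|K| + 1) + C' * (|K| + 1) ^ 2, by positivity, fun g y h1 h2 i j => ?_⟩
  have hs := Hc.sc_pos y
  let D : Dt (m + 1) (|K| + 1) := ⟨fun _ => g, y, |K| + 1, 0, by positivity, le_rfl, fun _ => h1,
    fun _ i j => (h2 i j).mono (by linarith [le_abs_self K]),
    fun _ _ => CK.of_zero le_rfl fun _ _ => sub_self _⟩
  refine ⟨(ck_div (c := (|K| + 1)⁻¹) (by positivity) ((h D i j).1 true)).mono ?_,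
    (ck_div (c := ((‖y‖ + 1) / (|K| + 1)) ^ 2) (by positivity) ((h' D i j).1 true)).mono ?_⟩
  · rw [div_inv_eq_mul]
    exact le_add_of_nonneg_right (by positivity)
  · rw [div_pow, div_div_eq_mul_div]
    gcongr
    exact le_add_of_nonneg_left (by positivity)

end Crest.Agent.N207.Ph.Ey

end
end

-- ▼ part N207/Ph/Ey2
section

/-!
# Row 207, block PHI (helper11): the source of the Picard iteration, algebra
-/

set_option autoImplicit false
set_option linter.unusedSectionVars false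

open scoped ContDiff Topology
open Set Filter Metric
open Crest.GeometryTopology.CoordMetric

noncomputable section

namespace Crest.Agent.N207.Ph.Ey

open Crest.Agent.NLib.Ell Crest.Agent.N207.Lg Crest.Agent.N207.G Sk Hc Ez
open Crest.Agent.R240.Fr (lap)
open Crest.Agent.R238 (Ell)

theorem cka_of_forall {U : Set E4} {k : ℕ} {a M N : ℝ} {f : E4 → ℝ}
    (h : ∀ t, 0 < t → t ≤ 1 → CKA a U k (M + t * N) f) : CKA a U k M f := by
  have hle : ∀ {x r : ℝ}, (∀ t, 0 < t → t ≤ 1 → x ≤ (M + t * N) * r) → x ≤ M * r :=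
    fun {x r} hx => by
      have h1 : Tendsto (fun t : ℝ => (M + t * N) * r) (𝓝[>] 0) (𝓝 ((M + 0 * N) * r)) :=
        (Continuous.tendsto (by fun_prop) 0).mono_left nhdsWithin_le_nhds
      rw [zero_mul, add_zero] at h1
      exact ge_of_tendsto h1 (mem_of_superset (Ioc_mem_nhdsGT one_pos) fun t ht => hx t ht.1 ht.2)
  have h0 : ∀ {k : ℕ} {f : E4 → ℝ}, (∀ t, 0 < t → t ≤ 1 → CKA a U k (M + t * N) f) →
      CKA a U 0 M f := fun h => ⟨fun x hx => by
    simpa using hle (r := 1) fun t h1 h2 => by simpa using (h t h1 h2).bdd hx,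
    fun x hx y hy => hle fun t h1 h2 => (h t h1 h2).ho.hol x hx y hy⟩
  induction k generalizing f with
  | zero => exact h0 h
  | succ k ih => exact ⟨h0 h, (h 1 one_pos le_rfl).diff, fun i => ih fun t h1 h2 => (h t h1 h2).pd i⟩

theorem up_ck' (k : ℕ) : ∃ C : ℝ, 0 < C ∧ ∀ ρ : ℝ, 1 / 2 ≤ ρ → ∀ y, CK k C (up ρ (2 * ρ)) y := by
  obtain ⟨C, hC, h⟩ := jb_up (k + 1) 2
  refine ⟨2 * (2 ^ (k + 1) * C), by positivity, fun ρ hρ y => ck_of_jb fun Y _ => ?_⟩
  rcases le_or_gt ‖cl y Y‖ (2 * ρ) with h1 | h1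
  · exact (h ρ (2 * ρ) (by linarith) (by linarith) (by linarith) _ h1).scale (by linarith)
      (Hc.sc_pos _).le one_le_two (by linarith)
  · refine (JB.const (1 : ℝ) ?_).congr ?_
    · rw [norm_one]
      exact one_le_mul_of_one_le_of_one_le (one_le_pow₀ one_le_two) hC
    · filter_upwards [(isOpen_lt continuous_const continuous_norm).mem_nhds h1] with z hz
      exact up_eq_one (by linarith) (by linarith) (le_of_lt hz)

/-- the cut-off functions -/
structure Chi (C : ℕ → ℝ) (n : ℕ) (χ : E4 → ℝ) : Prop where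
  sm : ContDiff ℝ ∞ χ
  abs : ∀ x, |χ x| ≤ 1
  iso : ∀ (A : Iso) (x : E4), χ (A x) = χ x
  out : ∀ x : E4, 2 ^ n ≤ ‖x‖ + 1 → χ x = 0
  one : ∀ x : E4, 2 * (‖x‖ + 1) ≤ 2 ^ n → χ x = 1
  ck : ∀ k y, CK k (C k) χ y

theorem exists_chi : ∃ C : ℕ → ℝ, (∀ k, 0 < C k) ∧ (∀ k y, CK k (C k) (up 1 2) y) ∧
    ∀ n, ∃ χ, Chi C n χ := by
  choose C hC h using up_ck'
  refine ⟨fun k => 1 + C k, fun k => by have := hC k; positivity, fun k y => ?_, fun n => ?_⟩
  · simpa using (h k 1 (by norm_num) y).mono (le_add_of_nonneg_left zero_le_one)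
  rcases n with _ | n
  · exact ⟨fun _ => 0, contDiff_const, by simp, fun _ _ => rfl, fun _ _ => rfl,
      fun x hx => by linarith [norm_nonneg x, pow_zero (2 : ℝ)],
      fun k y => CK.zero.mono (by have := hC k; positivity)⟩
  have h1 : (1 : ℝ) ≤ 2 ^ n := one_le_pow₀ one_le_two
  refine ⟨fun x => 1 - up (2 ^ n - 1 / 2) (2 * (2 ^ n - 1 / 2)) x,
    contDiff_const.sub (up_smooth _ _), fun x => ?_, fun A x => by simp only [up, A.norm_map],
    fun x hx => ?_, fun x hx => ?_, fun k y => ?_⟩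
  · rw [up, abs_le]
    constructor <;> linarith [Real.smoothTransition.nonneg ((‖x‖ ^ 2 - (2 ^ n - 1 / 2) ^ 2) /
      ((2 * (2 ^ n - 1 / 2)) ^ 2 - (2 ^ n - 1 / 2) ^ 2)), Real.smoothTransition.le_one
        ((‖x‖ ^ 2 - (2 ^ n - 1 / 2) ^ 2) / ((2 * (2 ^ n - 1 / 2)) ^ 2 - (2 ^ n - 1 / 2) ^ 2))]
  · rw [up_eq_one (by linarith) (by linarith) (by rw [pow_succ] at hx; linarith), sub_self]
  · rw [up_eq_zero (by linarith) (by linarith) (by rw [pow_succ] at hx; linarith), sub_zero]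
  · simpa using (CK.const (1 : ℝ)).sub (h k (2 ^ n - 1 / 2) (by linarith) y)

variable {G g k : MetricField 4} {χ : E4 → ℝ} {Γ : Subgroup Iso}

/-- the source -/
def SS (χ : E4 → ℝ) (G k : MetricField 4) : MetricField 4 := fun x => Matrix.of fun i j =>
  χ x * (PP G i j x - PP (fun z => G z - k z) i j x - 2 * (up 1 2 x * ricci G x i j))

theorem sm_of (hg : IsRiemannianOn g univ) : SmM g := fun i j =>
  contDiffOn_univ.1 (hg.contDiffOn i j)

theorem pp_eq' (hg : IsRiemannianOn g univ) (i j : Fin 4) : PP g i j = fun x =>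
    lap (fun z => g z i j) x + 2 * ricci g x i j - symd (gauT flat g) x i j :=
  funext fun x => pp_eq (.of_riem hg (mem_univ x)) i j

theorem gau_sm (hg : IsRiemannianOn g univ) (I : Fin 1 → Fin 4) :
    ContDiff ℝ ∞ fun y => gauT flat g y I := contDiffOn_univ.1 (smT_gauT riem_flat hg I)

theorem ric_sm (hg : IsRiemannianOn g univ) (i j : Fin 4) : ContDiff ℝ ∞ fun y => ricci g y i j :=
  contDiffOn_univ.1 (sm_ricci hg i j)

theorem pp_sm (hg : IsRiemannianOn g univ) (i j : Fin 4) : ContDiff ℝ ∞ (PP g i j) := by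
  rw [pp_eq' hg]
  exact ((lap_contDiff (sm_of hg i j)).add (contDiff_const.mul (ric_sm hg i j))).sub
    (symd_smooth (gau_sm hg) i j)

theorem pp_sy (hg : IsRiemannianOn g univ) (i j : Fin 4) (x : E4) : PP g i j x = PP g j i x := by
  have e : (fun z => g z i j) = fun z => g z j i := funext fun z => g_sy hg (mem_univ z) i j
  simp only [pp_eq' hg, e, (C2.of_riem hg (mem_univ x)).ricci_sy i j, symd, Matrix.of_apply]
  ring

theorem inv_iff' {f : MetricField 4} : Inv Γ f ↔ ∀ γ ∈ Γ, ∀ y i j,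
    ∑ a, ∑ b, om γ i a * om γ j b * f (γ y) a b = f y i j := by
  rw [inv_iff]
  refine forall₂_congr fun γ _ => ⟨fun h y i j => by rw [← pbm_iso, h], fun h => ?_⟩
  funext y
  ext i j
  rw [pbm_iso, h]

theorem inv_sub' (hG : Inv Γ G) (hk : Inv Γ k) : Inv Γ fun z => G z - k z :=
  inv_iff'.2 fun γ hγ y i j => by
    simp only [Matrix.sub_apply, mul_sub, Finset.sum_sub_distrib, inv_iff'.1 hG γ hγ,
      inv_iff'.1 hk γ hγ]

theorem ric_inv (hg : IsRiemannianOn g univ) (hI : Inv Γ g) : Inv Γ (ricci g) :=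
  inv_iff.2 fun γ hγ => by rw [← ((eqv γ).1 g hg).2.2, inv_iff.1 hI γ hγ]

theorem pp_inv (hg : IsRiemannianOn g univ) (hI : Inv Γ g) :
    Inv Γ fun x => Matrix.of fun i j => PP g i j x := inv_iff'.2 fun γ hγ y i j => by
  have h1 := (eqv γ).2.2 g (sm_of hg) y i j
  have h2 := congrFun₂ (congrFun ((eqv γ).2.1 _ (smT_gauT riem_flat hg)) y) i j
  rw [← funext ((eqv γ).1 g hg).2.1] at h2
  rw [inv_iff.1 hI γ hγ, pbm_iso] at h1 h2
  have h3 := inv_iff'.1 (ric_inv hg hI) γ hγ y i j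
  simp only [Matrix.of_apply, pp_eq' hg] at h1 ⊢
  rw [h1, h2, ← h3]
  simp only [mul_add, mul_sub, Finset.sum_add_distrib, Finset.sum_sub_distrib, Finset.mul_sum]
  congr 2
  exact Finset.sum_congr rfl fun _ _ => Finset.sum_congr rfl fun _ _ => by ring

theorem ss_sm (hχ : ContDiff ℝ ∞ χ) (hG : IsRiemannianOn G univ)
    (hg : IsRiemannianOn (fun z => G z - k z) univ) : SmM (SS χ G k) := fun i j =>
  hχ.mul (((pp_sm hG i j).sub (pp_sm hg i j)).sub
    (contDiff_const.mul ((up_smooth _ _).mul (ric_sm hG i j))))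

theorem ss_sy (hG : IsRiemannianOn G univ) (hg : IsRiemannianOn (fun z => G z - k z) univ)
    (y : E4) : (SS χ G k y).IsSymm := Matrix.IsSymm.ext fun i j => by
  simp only [SS, Matrix.of_apply, pp_sy hG j i, pp_sy hg j i,
    (C2.of_riem hG (mem_univ y)).ricci_sy j i]

theorem ss_inv (hχ : ∀ (A : Iso) (x : E4), χ (A x) = χ x) (hG : IsRiemannianOn G univ)
    (hg : IsRiemannianOn (fun z => G z - k z) univ) (hI : Inv Γ G) (hk : Inv Γ k) :
    Inv Γ (SS χ G k) := inv_iff'.2 fun γ hγ y i j => by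
  have h1 := inv_iff'.1 (pp_inv hG hI) γ hγ y i j
  have h2 := inv_iff'.1 (pp_inv hg (inv_sub' hI hk)) γ hγ y i j
  have h3 := inv_iff'.1 (ric_inv hG hI) γ hγ y i j
  have h4 : up 1 2 (γ y) = up 1 2 y := by simp only [up, γ.norm_map]
  simp only [Matrix.of_apply] at h1 h2
  simp only [SS, Matrix.of_apply, hχ, h4]
  rw [← h1, ← h2, ← h3]
  simp only [Finset.mul_sum, ← Finset.sum_sub_distrib]
  exact Finset.sum_congr rfl fun _ _ => Finset.sum_congr rfl fun _ _ => by ring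

theorem ss_eqn (hG : IsRiemannianOn G univ) (hg : IsRiemannianOn (fun z => G z - k z) univ)
    (hk : SmM k) {U : Tn 4 1} (hU : SmT U univ) {y : E4} (hχ : χ y = 1) {i j : Fin 4}
    (h : lap (fun y => k y i j) y + symd U y i j = SS χ G k y i j) :
    ricci (fun z => G z - k z) y i j =
      (1 / 2) * symd (Vg G k U) y i j + (1 - up 1 2 y) * ricci G y i j := by
  have e : ∀ a b, pderiv a (fun y => Vg G k U y ![b]) y =
      pderiv a (fun y => gauT flat (fun z => G z - k z) y ![b]) y -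
        pderiv a (fun y => gauT flat G y ![b]) y - pderiv a (fun y => U y ![b]) y := fun a b => by
    simp only [Vg]
    rw [pd_sub a (dA ((gau_sm hg _).sub (gau_sm hG _)) y) (dA (contDiffOn_univ.1 (hU _)) y),
      pd_sub a (dA (gau_sm hg _) y) (dA (gau_sm hG _) y)]
  simp only [SS, Matrix.of_apply, hχ, pp_eq' hG, pp_eq' hg, Matrix.sub_apply,
    Ph.lap_sub (sm_of hG i j) (hk i j), symd] at h
  simp only [symd, Matrix.of_apply, e]
  linarith

theorem jet2_sub (hG : ∀ i j, ContDiff ℝ 2 fun y => G y i j)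
    (hk : ∀ i j, ContDiff ℝ 2 fun y => k y i j) (x : E4) (a b i j : Fin 4) :
    jet2 (fun z => G z - k z) x a b i j =
      jet2 G x a b i j - pderiv a (pderiv b fun y => k y i j) x := by
  have e : (fun z => jet (fun z => G z - k z) z b i j) =
      fun z => pderiv b (fun y => G y i j) z - pderiv b (fun y => k y i j) z :=
    funext fun z => pd_sub b (d2 (hG i j) z) (d2 (hk i j) z)
  rw [jet2, e]
  exact pd_sub a (pv_diff (hG i j) b x) (pv_diff (hk i j) b x)

theorem ss_split (hG : ∀ i j, ContDiff ℝ 2 fun y => G y i j)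
    (hk : ∀ i j, ContDiff ℝ 2 fun y => k y i j) (x : E4) (i j : Fin 4) :
    lap (fun y => k y i j) x - SS χ G k x i j =
      ∑ a, ∑ b, ((1 : Matrix (Fin 4) (Fin 4) ℝ) a b - χ x * hd (fun z => G z - k z) a b x) *
        pderiv a (pderiv b fun y => k y i j) x -
      χ x * (∑ a, ∑ b, (hd G a b x - hd (fun z => G z - k z) a b x) * jet2 G x a b i j +
        (QQ G i j x - QQ (fun z => G z - k z) i j x) - 2 * (up 1 2 x * ricci G x i j)) := by
  simp only [SS, Matrix.of_apply, PP, jet2_sub hG hk, lap_eq_sum, sub_mul, mul_sub,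
    Finset.sum_sub_distrib, Matrix.one_apply, ite_mul, one_mul, zero_mul, Finset.sum_ite_eq,
    Finset.mem_univ, if_true, mul_assoc, ← Finset.mul_sum]
  ring

theorem ell_tau (h : Nr g) {c : ℝ} (hc : |c| ≤ 1) (x : E4) : Ell (1 / 2) 2
    (Matrix.of fun a b => (1 : Matrix (Fin 4) (Fin 4) ℝ) a b - c * hd g a b x) := by
  have h1 : ∀ a b, |c * hd g a b x| ≤ 1 * (4 * (2 * (1 / 100))) := fun a b =>
    Rad.abs_mul_le hc (by
      rw [h.hd_eq]
      exact Rad.sum4_le fun e => Rad.abs_mul_le (U.abs_inv_le (h.pos x).det_pos.ne'.isUnit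
        (ε := 1 / 100) (by norm_num) (h x).2 a e) ((h x).2 e b))
  refine ⟨fun a b => ?_, fun z => ?_⟩
  · have := (h.pos x).inv.1.apply a b
    simp only [star_trivial] at this
    simp only [Matrix.of_apply, hd, this, Matrix.one_apply, eq_comm]
  · have h2 := abs_le.1 (Rad.quad_le h1 (WithLp.toLp 2 z))
    rw [EuclideanSpace.real_norm_sq_eq] at h2
    simp only [Matrix.of_apply, sub_mul, Finset.sum_sub_distrib, Matrix.one_apply, ite_mul, one_mul,
      zero_mul, Finset.sum_ite_eq, Finset.mem_univ, if_true, ← pow_two] at h2 ⊢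
    have h3 : 0 ≤ ∑ i, z i ^ 2 := by positivity
    constructor <;> linarith [h2.1, h2.2]

end Crest.Agent.N207.Ph.Ey

end
end

-- ▼ part N207/Ph/Ey3
section

/-!
# Row 207, block PHI (helper11): the source of the Picard iteration, estimates
-/

set_option autoImplicit false
set_option linter.unusedSectionVars false

open scoped ContDiff Topology
open Set Filter Metric
open Crest.GeometryTopology.CoordMetric

noncomputable section

namespace Crest.Agent.N207.Ph.Ey

open Crest.Agent.NLib.Ell Crest.Agent.N207.Lg Crest.Agent.N207.G Sk Hc Ez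
open Crest.Agent.R240.Fr (lap)
open Crest.Agent.R238 (Ell)

variable {G k : MetricField 4} {χ : E4 → ℝ} {K δ : ℝ} {ε C : ℕ → ℝ} {n : ℕ}

/-- the standing hypotheses -/
structure Hy (K : ℝ) (G : MetricField 4) (ε : ℕ → ℝ) : Prop where
  K0 : 0 ≤ K
  riem : IsRiemannianOn G univ
  nn : ∀ l, 0 ≤ ε l
  le : ∀ l, (6 + K) * ε l ≤ 1 / 100
  ck : ∀ i j, WD 3 (fun l => 6 * ε l) (dv G i j)

theorem dv_sm (hG : IsRiemannianOn G univ) (i j : Fin 4) : ContDiff ℝ ∞ (dv G i j) :=
  (sm_of hG i j).sub contDiff_const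

theorem hy_of (hK : 0 ≤ K) (hG : IsRiemannianOn G univ) (hε : Env ε δ)
    (hδ : δ ≤ 1 / (100 * (6 + K))) (hJ : ∀ (l : ℕ) (y : E4), 2 ^ l ≤ ‖y‖ + 1 →
      ‖y‖ + 1 ≤ 2 ^ (l + 1) → JG 4 G y (‖y‖ + 1) (ε l)) : Hy K G ε := by
  refine ⟨hK, hG, hε.nn, fun l => ?_, fun i j l y h1 h2 => ?_⟩
  · have h1 : ε l ≤ 1 / (100 * (6 + K)) := ((Finset.single_le_sum (fun i _ => hε.nn i)
      (Finset.self_mem_range_succ l)).trans (hε.sum _)).trans hδ
    rw [le_div_iff₀ (by positivity)] at h1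
    linarith
  · refine (ck_of_jb (c := 3 * ε l) fun Y hY => ?_).mono (le_of_eq (by ring))
    obtain ⟨i', h3, h4, h5, h6⟩ := exists_lv_cl hY h1 h2
    exact ⟨(dv_sm hG i j).contDiffAt, fun m hm => (hJ i' _ h3 h4 m hm i j).trans (hε.nb l i' h5 h6)⟩

theorem dv_sub (G k : MetricField 4) (i j : Fin 4) :
    dv (fun z => G z - k z) i j = fun x => dv G i j x - k x i j := funext fun x => by
  simp only [dv, Matrix.sub_apply]; ring

theorem Hy.sub (h : Hy K G ε) (hk : Ad ε K k) (i j : Fin 4) :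
    WD 3 (fun l => (6 + K) * ε l) (dv (fun z => G z - k z) i j) := fun l y h1 h2 => by
  rw [dv_sub]
  exact ((h.ck i j l y h1 h2).sub (hk.wd i j l y h1 h2)).mono (le_of_eq (by ring))

theorem Hy.nr (h : Hy K G ε) (hk : Ad ε K k) : Nr fun z => G z - k z := fun x => by
  obtain ⟨l, h1, h2⟩ := exists_shell x
  refine ⟨fun a b => ?_, fun a b => (h.sub hk a b l x h1 h2).bdd.trans (h.le l)⟩
  simp only [Matrix.sub_apply, g_sy h.riem (mem_univ x) a b, (hk.sy x).apply a b]

theorem Hy.six (h : Hy K G ε) (l : ℕ) : 6 * ε l ≤ 1 / 100 :=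
  (mul_le_mul_of_nonneg_right (le_add_of_nonneg_right h.K0) (h.nn l)).trans (h.le l)

theorem Hy.nr0 (h : Hy K G ε) : Nr G := fun x => by
  obtain ⟨l, h1, h2⟩ := exists_shell x
  exact ⟨g_sy h.riem (mem_univ x), fun a b => (h.ck a b l x h1 h2).bdd.trans (h.six l)⟩

theorem Hy.riem' (h : Hy K G ε) (hk : Ad ε K k) (hs : SmM k) :
    IsRiemannianOn (fun z => G z - k z) univ :=
  (h.nr hk).riem fun a b => (sm_of h.riem a b).sub (hs a b)

theorem c2_of (hG : IsRiemannianOn G univ) (i j : Fin 4) : ContDiff ℝ 2 fun y => G y i j :=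
  (sm_of hG i j).of_le (kle 2)

theorem div_sq {a s : ℝ} {l : ℕ} (ha : 0 ≤ a) (h : 2 ^ l ≤ s) : a / s ^ 2 ≤ a / 4 ^ l := by
  rw [show (4 : ℝ) ^ l = (2 ^ l) ^ 2 by rw [← pow_mul, mul_comm, pow_mul]; norm_num]
  gcongr

theorem ss_zero (χ : E4 → ℝ) (G : MetricField 4) (i j : Fin 4) : (fun x => SS χ G 0 x i j) =
    fun x => χ x * (-2 * (up 1 2 x * ricci G x i j)) := funext fun x => by
  simp [SS]

theorem zero_est (hC : ∀ k, 0 < C k) (hu : ∀ k y, CK k (C k) (up 1 2) y) : ∃ c : ℝ, 0 < c ∧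
    ∀ (K : ℝ) (G : MetricField 4) (ε : ℕ → ℝ) (n : ℕ) (χ : E4 → ℝ), Hy K G ε → Chi C n χ →
      WM 1 (fun l => c * ε l / 4 ^ l) (SS χ G 0) := by
  obtain ⟨R, hR, h⟩ := ric_ck 1 1
  have h1 := hC 1
  refine ⟨192 * C 1 ^ 2 * R, by positivity, fun K G ε n χ hG hχ i j l y h2 h3 => ?_⟩
  have h4 := hG.nn l
  rw [ss_zero]
  refine ((hχ.ck 1 y).mul (((hu 1 y).mul (h G y _ ((hG.six l).trans (by norm_num)) hG.nr0
    (c2_of hG.riem) (fun a b => hG.ck a b l y h2 h3) i j)).const_mul (-2))).mono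
      (le_trans (le_of_eq ?_) (div_sq (by positivity) h2))
  rw [abs_neg, abs_two]
  ring

theorem lip0 (m : ℕ) : ∃ C : ℝ, 0 < C ∧ ∀ (g g' : MetricField 4) (y : E4) (η d : ℝ),
    η ≤ 1 → Nr g → Nr g' → (∀ i j, CK (m + 2) η (dv g i j) y) →
    (∀ i j, CK (m + 2) η (dv g' i j) y) → (∀ i j, CK (m + 2) d (fun x => g x i j - g' x i j) y) →
    ∀ i j, CK m (C * η * d / (‖y‖ + 1) ^ 2) (fun x => PP g i j x - PP g' i j x) y := by
  obtain ⟨C, hC, h⟩ := lip m 2
  refine ⟨C, hC, fun g g' y η d h1 h2 h3 h4 h5 h6 i j =>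
    cka_of_forall (N := C * d / (‖y‖ + 1) ^ 2) fun t ht0 ht1 => ?_⟩
  have h0 := (h4 0 0).nonneg
  exact (h g g' y (η + t) d (by linarith) (by linarith) h2 h3
    (fun i j => (h4 i j).mono (by linarith)) (fun i j => (h5 i j).mono (by linarith)) h6 i j).mono
    (le_of_eq (by ring))

theorem lip_est (hC : ∀ k, 0 < C k) : ∃ L : ℝ, 0 < L ∧ ∀ (K : ℝ) (G : MetricField 4) (ε : ℕ → ℝ)
    (n : ℕ) (χ : E4 → ℝ), Hy K G ε → Chi C n χ → ∀ m ≤ 1, ∀ k k', Ad ε K k → Ad ε K k' →
    ∀ (l : ℕ) (y : E4) (d : ℝ), 2 ^ l ≤ ‖y‖ + 1 → ‖y‖ + 1 ≤ 2 ^ (l + 1) →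
    (∀ i j, CK (m + 2) d (fun z => k z i j - k' z i j) y) → ∀ i j,
      CK m (L * (6 + K) * ε l * d / 4 ^ l) (fun z => SS χ G k z i j - SS χ G k' z i j) y := by
  choose R hR h using lip0
  have hp : ∀ m, 0 < 2 ^ (m + 1) * (C m * R m) := fun m => by
    have := hC m; have := hR m; positivity
  refine ⟨∑ m ∈ Finset.range 2, 2 ^ (m + 1) * (C m * R m),
    Finset.sum_pos (fun m _ => hp m) ⟨0, by simp⟩,
    fun K G ε n χ hG hχ m hm k k' hk hk' l y d h1 h2 hd i j => ?_⟩
  have h3 := Finset.single_le_sum (f := fun m => 2 ^ (m + 1) * (C m * R m))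
    (fun m _ => (hp m).le) (Finset.mem_range.2 (show m < 2 by omega))
  have h4 := hG.nn l
  have h5 := (hd 0 0).nonneg
  have h6 := hG.K0
  have h7 := hp m
  refine (((hχ.ck m y).mul (h m _ _ y _ d ((hG.le l).trans (by norm_num)) (hG.nr hk') (hG.nr hk)
    (fun a b => (hG.sub hk' a b l y h1 h2).of_le (by omega))
    (fun a b => (hG.sub hk a b l y h1 h2).of_le (by omega))
    (fun a b => (hd a b).congr fun z _ => by simp only [Matrix.sub_apply]; ring) i j)).congr
      fun z _ => by simp only [SS, Matrix.of_apply]; ring).mono ?_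
  calc _ = 2 ^ (m + 1) * (C m * R m) * (6 + K) * ε l * d / (‖y‖ + 1) ^ 2 := by ring
    _ ≤ 2 ^ (m + 1) * (C m * R m) * (6 + K) * ε l * d / 4 ^ l := div_sq (by positivity) h1
    _ ≤ _ := by gcongr

/-- the principal coefficients of the bootstrap -/
def tau (χ : E4 → ℝ) (G k : MetricField 4) : MetricField 4 := fun x => Matrix.of fun a b =>
  (1 : Matrix (Fin 4) (Fin 4) ℝ) a b - χ x * hd (fun z => G z - k z) a b x

/-- the lower order terms of the bootstrap -/
def FF (χ : E4 → ℝ) (G k : MetricField 4) : MetricField 4 := fun x => Matrix.of fun i j =>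
  χ x * (∑ a, ∑ b, (hd G a b x - hd (fun z => G z - k z) a b x) * jet2 G x a b i j +
    (QQ G i j x - QQ (fun z => G z - k z) i j x) - 2 * (up 1 2 x * ricci G x i j))

theorem boot_est (hC : ∀ k, 0 < C k) (hu : ∀ k y, CK k (C k) (up 1 2) y) (Cs : ℕ → ℝ) (m : ℕ)
    (B : ℝ) : ∃ M : ℝ, ∀ (K : ℝ) (G : MetricField 4) (ε : ℕ → ℝ) (n : ℕ) (χ : E4 → ℝ)
    (k : MetricField 4), Hy K G ε → Chi C n χ → All Cs G → Ad ε K k → WM (m + 1) (fun _ => B) k →
      WM m (fun _ => M) (tau χ G k) ∧ WM m (fun l => M / 4 ^ l) (FF χ G k) := by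
  set A := ∑ j ∈ Finset.range (m + 4), |Cs j| with hA
  have hA0 : 0 ≤ A := Finset.sum_nonneg fun _ _ => abs_nonneg _
  obtain ⟨C1, hC1, h1⟩ := bdd m (2 * A + |B|)
  obtain ⟨C2, hC2, h2⟩ := ric_ck m (2 * A)
  have h3 := hC m
  set X := 2 ^ (m + 1) * (C m * (16 * (2 ^ (m + 1) * (2 * C1 * (16 * (2 * A)))) + 2 * C1 +
    2 * (2 ^ (m + 1) * (C m * (C2 * (2 * A)))))) with hX
  have hX0 : 0 ≤ X := by positivity
  refine ⟨1 + 2 ^ (m + 1) * (C m * C1) + X, fun K G ε n χ k hG hχ hCs hk hB => ?_⟩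
  have h4 : ∀ y i j, CK (m + 2) (2 * A) (dv G i j) y := fun y i j =>
    ck_of_jb fun Y _ => ⟨(dv_sm hG.riem i j).contDiffAt, fun r hr => (hCs _ r i j).trans (by
      rw [mul_one]
      exact (le_abs_self _).trans (Finset.single_le_sum (f := fun j => |Cs j|)
        (fun _ _ => abs_nonneg _) (Finset.mem_range.2 (by omega))))⟩
  have h5 := fun y => h1 G y hG.nr0 fun i j =>
    ((h4 y i j).of_le (Nat.le_succ _)).mono (le_add_of_nonneg_right (abs_nonneg B))
  have h6 := fun (l : ℕ) y (e1 : 2 ^ l ≤ ‖y‖ + 1) e2 => h1 _ y (hG.nr hk) fun i j => by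
    rw [dv_sub]
    exact (((h4 y i j).of_le (Nat.le_succ _)).sub (hB i j l y e1 e2)).mono
      (by linarith [le_abs_self B])
  refine ⟨fun a b l y e1 e2 => ((CK.const ((1 : Matrix (Fin 4) (Fin 4) ℝ) a b)).sub
    ((hχ.ck m y).mul ((h6 l y e1 e2 a b).1.of_le (Nat.le_succ _)))).mono ?_,
    fun i j l y e1 e2 => ?_⟩
  · have : ‖(1 : Matrix (Fin 4) (Fin 4) ℝ) a b‖ ≤ 1 := by
      rw [Matrix.one_apply]; split_ifs <;> simp
    show _ ≤ 1 + 2 ^ (m + 1) * (C m * C1) + X
    linarith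
  have h7 : ∀ a b, CK m (4 / (‖y‖ + 1) * (4 / (‖y‖ + 1) * (2 * A)))
      (fun x => jet2 G x a b i j) y := fun a b => by
    have := ((h4 y i j).pderiv b).pderiv a
    rwa [← TR.pd_dv] at this
  refine ((hχ.ck m y).mul (((CK.sum_le fun a => CK.sum_le fun b =>
    (((h5 y a b).1.of_le (Nat.le_succ _)).sub ((h6 l y e1 e2 a b).1.of_le (Nat.le_succ _))).mul
      (h7 a b)).add ((h5 y i j).2.sub (h6 l y e1 e2 i j).2)).sub (((hu m y).mul
        (h2 G y _ le_rfl hG.nr0 (c2_of hG.riem) (h4 y) i j)).const_mul 2))).mono ?_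
  have hs := Hc.sc_pos y
  calc _ = X / (‖y‖ + 1) ^ 2 := by
        rw [hX, abs_two, Fintype.card_fin]
        push_cast
        field_simp
        ring
    _ ≤ X / 4 ^ l := div_sq hX0 e1
    _ ≤ _ := by
        show _ ≤ (1 + 2 ^ (m + 1) * (C m * C1) + X) / 4 ^ l
        gcongr
        exact le_add_of_nonneg_left (by positivity)

theorem sum_dn {a : ℕ → ℝ} {e : ℝ} (h : ∀ m, ∑ l ∈ Finset.range m, a l ≤ e) (m : ℕ) :
    ∑ l ∈ Finset.range m, a (l - 1) ≤ 2 * e := by
  have h0 := h 0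
  have h1 := h 1
  rw [Finset.sum_range_zero] at h0
  rw [Finset.sum_range_one] at h1
  rcases m with _ | m
  · rw [Finset.sum_range_zero]; linarith
  · rw [Finset.sum_range_succ']
    simp only [Nat.add_sub_cancel, Nat.zero_sub]
    linarith [h m]

theorem ricb_est (hC : ∀ k, 0 < C k) (hu : ∀ k y, CK k (C k) (up 1 2) y)
    (hG : IsRiemannianOn G univ) (hχ : Chi C n χ) {e : ℝ} (h : RicB G e) : ∃ J : ℕ → ℝ,
    (∀ m, ∑ l ∈ Finset.range m, J l ≤ 4096 * (C 0 * C 1) * e) ∧ WM 0 J (SS χ G 0) := by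
  obtain ⟨J, h0, h1, h2⟩ := h
  have c0 := hC 0
  have c1 := hC 1
  refine ⟨fun l => 512 * (C 0 * C 1) * (J (l - 1 - 1) + J (l - 1) + J l + J (l + 1)), fun m => ?_,
    fun i j l y e1 e2 => ?_⟩
  · have h3 := h1 (m + 1)
    rw [Finset.sum_range_succ'] at h3
    have h4 : ∑ l ∈ Finset.range m, (J (l - 1 - 1) + J (l - 1) + J l + J (l + 1)) ≤ 8 * e := by
      simp only [Finset.sum_add_distrib]
      linarith [sum_dn h1 m, sum_dn (a := fun l => J (l - 1)) (sum_dn h1) m, h1 m, h0 0]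
    rw [← Finset.mul_sum]
    exact (mul_le_mul_of_nonneg_left h4 (by positivity)).trans (le_of_eq (by ring))
  have hJ : 0 ≤ J (l - 1 - 1) + J (l - 1) + J l + J (l + 1) := by
    linarith [h0 (l - 1 - 1), h0 (l - 1), h0 l, h0 (l + 1)]
  have h3 : CK 0 (2 * (2 ^ 1 * (16 ^ 1 * C 1 * (2 ^ 1 * (J (l - 1 - 1) + J (l - 1) + J l +
      J (l + 1)))))) (fun x => up 1 2 x * ricci G x i j) y := ck_of_jb fun Y hY => by
    obtain ⟨h4, h5⟩ := cl_norm (y := y) hY
    rcases lt_or_ge ‖cl y Y‖ 1 with h6 | h6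
    · refine (JB.const (0 : ℝ) (by rw [norm_zero]; positivity)).congr ?_
      filter_upwards [(isOpen_lt continuous_norm continuous_const).mem_nhds h6] with z hz
      rw [up_eq_zero one_pos one_lt_two (le_of_lt hz), zero_mul]
    obtain ⟨r, h7, h8⟩ := exists_nat_pow_near h6 one_lt_two
    have h9 : r < l + 2 := pow_lt_imp (by rw [pow_succ _ (l + 1)]; linarith [Hc.sc_pos y])
    have h10 : l < r + 3 := pow_lt_imp (by
      rw [pow_succ _ (r + 2), pow_succ _ (r + 1)]; linarith)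
    have h11 : J r ≤ J (l - 1 - 1) + J (l - 1) + J l + J (l + 1) := by
      rcases (by omega : r = l - 1 - 1 ∨ r = l - 1 ∨ r = l ∨ r = l + 1) with e | e | e | e <;>
        rw [e] <;> linarith [h0 (l - 1 - 1), h0 (l - 1), h0 l, h0 (l + 1)]
    exact (jb_of_ck (up_smooth _ _).contDiffAt (hu 1 _)).mul (Hc.sc_pos _).le
      ((JB.mk (m := 1) (ric_sm hG i j).contDiffAt fun q hq =>
        (h2 r _ h7 h8.le q hq i j).trans h11).scale (norm_nonneg _) (Hc.sc_pos _).le one_le_two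
          (by linarith))
  rw [ss_zero]
  refine ((hχ.ck 0 y).mul (h3.const_mul (-2))).mono (le_of_eq ?_)
  rw [abs_neg, abs_two]
  ring

/-- the source map of the Picard iteration -/
theorem src : SRCStmt := by
  obtain ⟨C, hC, hu, hχ⟩ := exists_chi
  obtain ⟨c, hc, h0⟩ := zero_est hC hu
  obtain ⟨L, hL, h1⟩ := lip_est hC
  have c0 := hC 0
  have c1 := hC 1
  refine ⟨c + 4096 * (C 0 * C 1), by positivity, fun K hK => ⟨L * (6 + K), 1 / (100 * (6 + K)),
    by positivity, by positivity, fun Cs => ?_⟩⟩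
  choose M hM using boot_est hC hu Cs
  refine ⟨M, fun Γ G ε δ n hF hI hA hε hδ hJ _ => ?_⟩
  obtain ⟨χ, hχ⟩ := hχ n
  have hG := hy_of hK hF.riem hε hδ hJ
  refine ⟨SS χ G, ⟨fun k y hy => ?_, fun k hk hs => ⟨ss_sm hχ.sm hG.riem (hG.riem' hk hs),
    ss_sy hG.riem (hG.riem' hk hs), ss_inv hχ.iso hG.riem (hG.riem' hk hs) hI⟩,
    fun i j => (h0 K G ε n χ hG hχ i j).mono fun l => ?_, h1 K G ε n χ hG hχ,
    fun m B k hk hB => ⟨tau χ G k, FF χ G k, fun x => ell_tau (hG.nr hk) (hχ.abs x) x,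
      (hM m B K G ε n χ k hG hχ hA hk hB).1, (hM m B K G ε n χ k hG hχ hA hk hB).2,
      ss_split (c2_of hG.riem) fun i j => (hk.wd i j).contDiff.of_le (by norm_cast)⟩⟩,
    fun k U hs hk hU he y hy i j =>
      ss_eqn hG.riem (hG.riem' hk hs) hs hU (hχ.one y hy) (he y i j), fun e he => ?_⟩
  · ext i j
    simp only [SS, Matrix.of_apply, hχ.out y hy, zero_mul, Matrix.zero_apply]
  · have := hε.nn l
    gcongr
    exact le_add_of_nonneg_right (by positivity)
  · obtain ⟨J, h2, h3⟩ := ricb_est hC hu hG.riem hχ he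
    obtain ⟨_, -, h4, -⟩ := he
    have h5 := h4 0
    rw [Finset.sum_range_zero] at h5
    exact ⟨J, fun m => (h2 m).trans (by gcongr; exact le_add_of_nonneg_left hc.le), h3⟩

end Crest.Agent.N207.Ph.Ey

end
end

-- ▼ part N207/Ph/Exa
section

/-!
# Row 207, block PHI (helper6): envelopes and `EXA` from the abstract iteration
-/

set_option autoImplicit false

open scoped ContDiff Topology
open Set Metric Finset
open Crest.GeometryTopology.CoordMetric Crest.GeometryTopology.ChartCurvature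

noncomputable section

namespace Crest.Agent.N207.Ph.Ez

open Sk

theorem geo_dist {q : ℝ} (h0 : 0 ≤ q) (h1 : q < 1) (j m : ℕ) :
    ∑ l ∈ range m, q ^ Nat.dist j l ≤ (1 + q) / (1 - q) := by
  have hq : 0 < 1 - q := by linarith
  have g : ∀ n, ∑ l ∈ range n, q ^ l ≤ 1 / (1 - q) := fun n => by
    rw [one_div, ← tsum_geometric_of_lt_one h0 h1]
    exact (summable_geometric_of_lt_one h0 h1).sum_le_tsum _ fun i _ => by positivity
  calc _ ≤ ∑ l ∈ range (j + 1 + m), q ^ Nat.dist j l :=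
        sum_le_sum_of_subset_of_nonneg (range_subset_range.2 (by omega)) fun i _ _ => by positivity
    _ = ∑ l ∈ range (j + 1), q ^ l + q * ∑ l ∈ range m, q ^ l := by
        rw [sum_range_add, mul_sum, ← sum_range_reflect (fun l => q ^ l) (j + 1)]
        congr 1
        · refine sum_congr rfl fun l hl => ?_
          have := mem_range.1 hl
          congr 1
          unfold Nat.dist; omega
        · refine sum_congr rfl fun l _ => ?_
          rw [← pow_succ']
          congr 1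
          unfold Nat.dist; omega
    _ ≤ 1 / (1 - q) + q * (1 / (1 - q)) := by gcongr <;> exact g _
    _ = _ := by field_simp

theorem wE_eq (j l : ℕ) : wE j l = (1 / 4) ^ Nat.dist j l := by
  unfold wE
  rcases le_total j l with h | h
  · obtain ⟨d, rfl⟩ := Nat.exists_eq_add_of_le h
    have e : Nat.dist j (j + d) = d := by unfold Nat.dist; omega
    have h1 : (1 : ℝ) ≤ 4 ^ d := one_le_pow₀ (by norm_num)
    rw [e, pow_add, min_eq_right]
    · rw [one_div, inv_pow]; field_simp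
    · rw [div_le_div_iff₀ (by positivity) (by positivity)]
      have : (0 : ℝ) < 4 ^ j := by positivity
      have h2 : (1 : ℝ) ≤ 4 ^ d * 4 ^ d := one_le_mul_of_one_le_of_one_le h1 h1
      nlinarith [mul_pos this this]
  · obtain ⟨d, rfl⟩ := Nat.exists_eq_add_of_le h
    have e : Nat.dist (l + d) l = d := by unfold Nat.dist; omega
    have h1 : (1 : ℝ) ≤ 4 ^ d := one_le_pow₀ (by norm_num)
    rw [e, pow_add, min_eq_left]
    · rw [one_div, inv_pow]; field_simp
    · rw [div_le_div_iff₀ (by positivity) (by positivity)]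
      have : (0 : ℝ) < 4 ^ l := by positivity
      have h2 : (1 : ℝ) ≤ 4 ^ d * 4 ^ d := one_le_mul_of_one_le_of_one_le h1 h1
      nlinarith [mul_pos this this]

/-- the envelope of a finite sequence -/
def env (a : ℕ → ℝ) (N j : ℕ) : ℝ := ∑ p ∈ range N, (1 / 3) ^ Nat.dist j p * a p

theorem env_shift {a : ℕ → ℝ} (ha : ∀ l, 0 ≤ a l) (N i j : ℕ) :
    env a N i ≤ 3 ^ Nat.dist j i * env a N j := by
  unfold env
  rw [mul_sum]
  refine sum_le_sum fun p _ => ?_
  rw [← mul_assoc]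
  refine mul_le_mul_of_nonneg_right ?_ (ha p)
  obtain ⟨d, hd⟩ : ∃ d, Nat.dist j i + Nat.dist i p = Nat.dist j p + d :=
    Nat.exists_eq_add_of_le (Nat.dist.triangle_inequality j i p)
  have e : ((1 : ℝ) / 3) ^ Nat.dist i p =
      3 ^ Nat.dist j i * ((1 / 3) ^ Nat.dist j p * (1 / 3) ^ d) := by
    rw [← pow_add, ← hd, pow_add, ← mul_assoc, ← mul_pow]
    norm_num
  rw [e]
  gcongr
  exact mul_le_of_le_one_right (by positivity) (pow_le_one₀ (by norm_num) (by norm_num))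

theorem env_nn {a : ℕ → ℝ} (ha : ∀ l, 0 ≤ a l) (N j : ℕ) : 0 ≤ env a N j :=
  sum_nonneg fun p _ => mul_nonneg (by positivity) (ha p)

theorem env_env {a : ℕ → ℝ} {δ : ℝ} (ha : ∀ l, 0 ≤ a l) (N : ℕ)
    (hs : ∑ l ∈ range N, a l ≤ δ) : Env (env a N) (2 * δ) where
  nn := env_nn ha N
  sum n := by
    unfold env
    rw [sum_comm]
    calc _ ≤ ∑ p ∈ range N, 2 * a p := sum_le_sum fun p _ => by
          rw [← sum_mul]
          refine mul_le_mul_of_nonneg_right ?_ (ha p)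
          have := geo_dist (q := 1 / 3) (by norm_num) (by norm_num) p n
          simp only [Nat.dist_comm p] at this
          exact this.trans (by norm_num)
      _ ≤ 2 * δ := by rw [← mul_sum]; gcongr
  nb j i h1 h2 := by
    refine (env_shift ha N i j).trans (mul_le_mul_of_nonneg_right ?_ (env_nn ha N j))
    calc (3 : ℝ) ^ Nat.dist j i ≤ 3 ^ 1 :=
          pow_le_pow_right₀ (by norm_num) (by unfold Nat.dist; omega)
      _ = 3 := by norm_num
  cv j m := by
    calc _ ≤ ∑ l ∈ range m, (3 / 4) ^ Nat.dist j l * env a N j := sum_le_sum fun l _ => by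
          rw [wE_eq]
          calc _ ≤ (1 / 4) ^ Nat.dist j l * (3 ^ Nat.dist j l * env a N j) := by
                gcongr; exact env_shift ha N l j
            _ = _ := by rw [← mul_assoc, ← mul_pow]; norm_num
      _ ≤ 7 * env a N j := by
          rw [← sum_mul]
          refine mul_le_mul_of_nonneg_right ?_ (env_nn ha N j)
          exact (geo_dist (q := 3 / 4) (by norm_num) (by norm_num) j m).trans (by norm_num)

theorem le_env {a : ℕ → ℝ} (ha : ∀ l, 0 ≤ a l) {N j : ℕ} (hj : j < N) : a j ≤ env a N j := by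
  have := single_le_sum (f := fun p => (1 / 3 : ℝ) ^ Nat.dist j p * a p)
    (fun p _ => mul_nonneg (by positivity) (ha p)) (mem_range.2 hj)
  simpa [env] using this

theorem env_dec {a : ℕ → ℝ} {δ : ℝ} (ha : ∀ l, 0 ≤ a l) (N : ℕ)
    (hs : ∑ l ∈ range N, a l ≤ δ) (j : ℕ) : env a N j ≤ 3 ^ N * δ / 3 ^ j := by
  calc _ ≤ ∑ p ∈ range N, 3 ^ N / 3 ^ j * a p := sum_le_sum fun p hp => by
        refine mul_le_mul_of_nonneg_right ?_ (ha p)
        have := mem_range.1 hp
        rw [one_div, inv_pow, inv_eq_one_div, div_le_div_iff₀ (by positivity) (by positivity),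
          one_mul, ← pow_add]
        exact pow_le_pow_right₀ (by norm_num) (by unfold Nat.dist; omega)
    _ ≤ 3 ^ N / 3 ^ j * δ := by rw [← mul_sum]; gcongr
    _ = _ := by ring

theorem jg_out {G : MetricField 4} {R : ℝ} (hR : ∀ x : E4, R ≤ ‖x‖ → G x = 1) {y : E4}
    (hy : R < ‖y‖) (m : ℕ) (s : ℝ) {c : ℝ} (hc : 0 ≤ c) : JG m G y s c := by
  intro k _ i j
  have e : dv G i j =ᶠ[𝓝 y] fun _ => 0 := by
    filter_upwards [(isOpen_lt continuous_const continuous_norm).mem_nhds hy] with z hz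
    simp [dv, hR z (le_of_lt hz)]
  refine Cm.j1_congr ?_ e
  simp [J1, hc]

theorem exa_of (hP : PICStmt) (hS : SRCStmt) : EXAStmt := by
  obtain ⟨θ, C, hθ, hC, hP⟩ := hP
  obtain ⟨c, hc, hS⟩ := hS
  have hK : 0 < C * c := by positivity
  obtain ⟨L1, δ1, hL1, hδ1, hS⟩ := hS (C * c) hK.le
  refine ⟨min (δ1 / 2) (min (1 / (2 * c)) (θ / (2 * (L1 + 1)))), 2 ^ 20 * (C * c),
    by positivity, by positivity, fun Cs => ?_⟩
  obtain ⟨M, hS⟩ := hS Cs
  obtain ⟨Cs', hP⟩ := hP M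
  refine ⟨fun m => 16 ^ m * Cs' m, fun Γ G δ hG hI hδ ⟨a, ha, hs, hJ⟩ hA => ?_⟩
  have hδ0 : 0 ≤ δ := by simpa using hs 0
  obtain ⟨R, hR⟩ := hG.flat
  obtain ⟨N, hN⟩ := pow_unbounded_of_one_lt (R + 1) (one_lt_two (α := ℝ))
  have hE := env_env ha N (hs N)
  have h1 : 2 * δ ≤ δ1 := by linarith [hδ.trans (min_le_left _ _)]
  have h2 : c * (2 * δ) ≤ 1 := by
    have := (hδ.trans (min_le_right _ _)).trans (min_le_left _ _)
    rw [le_div_iff₀ (by positivity)] at this
    linarith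
  have h3 : L1 * (2 * δ) ≤ θ := by
    have := (hδ.trans (min_le_right _ _)).trans (min_le_right _ _)
    rw [le_div_iff₀ (by positivity)] at this
    nlinarith
  have hJ' : ∀ (l : ℕ) (y : E4), 2 ^ l ≤ ‖y‖ + 1 → ‖y‖ + 1 ≤ 2 ^ (l + 1) →
      JG 4 G y (‖y‖ + 1) (env a N l) := fun l y q1 q2 => by
    rcases lt_or_ge l N with h | h
    · exact fun k hk i j => (hJ l y q1 q2 k hk i j).trans (le_env ha h)
    · refine jg_out hR ?_ _ _ (env_nn ha N l)
      have : (2 : ℝ) ^ N ≤ 2 ^ l := pow_le_pow_right₀ (by norm_num) h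
      linarith
  refine ⟨fun l => 4096 * (C * c) * env a N l, 4096 * (C * c) * (3 ^ N * δ), N + 2,
    fun l => mul_nonneg (by positivity) (env_nn ha N l), fun n => ?_, fun l => ?_, fun n hn => ?_⟩
  · rw [← mul_sum]
    calc _ ≤ 4096 * (C * c) * (2 * δ) := by gcongr; exact hE.sum n
      _ ≤ _ := by nlinarith [mul_nonneg hK.le hδ0]
  · rw [mul_div_assoc]
    exact mul_le_mul_of_nonneg_left (env_dec ha N (hs N) l) (by positivity)
  obtain ⟨S, hSrc, hEq, hRB⟩ := hS Γ G _ _ n hG hI hA hE h1 hJ' fun y hy => hR y (by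
    have : (2 : ℝ) ^ (N + 2) ≤ 2 ^ n := pow_le_pow_right₀ (by norm_num) hn
    rw [pow_add] at this
    linarith)
  obtain ⟨k, ksm, kad, kinv, kall, keq, kU, kimp⟩ := hP Γ n S _ c L1 _ hE hc.le hL1 h2 h3 hSrc
  obtain ⟨Ssm, -, Sinv⟩ := hSrc.sm k kad ksm
  refine ⟨k, UU n (S k), ⟨ksm, kad.sy, kinv, (la.1 n _).1, (la.1 n _).2,
    UU_inv n (fun i j => (Ssm i j).continuous) (Sinv kinv), hEq k _ ksm kad (la.1 n _).1 keq,
    fun l y q1 q2 => ⟨fun m hm i j => ?_, fun i j => ?_⟩⟩, fun y m i j => ?_,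
    fun e he y hy m hm i j => ?_⟩
  · refine ((kad.wd i j l y q1 q2).j1 hm).trans ?_
    have : (16 : ℝ) ^ m ≤ 16 ^ 3 := pow_le_pow_right₀ (by norm_num) hm
    have h0 := mul_nonneg hK.le (env_nn ha N l)
    nlinarith
  · refine (kU i j l y q1 q2).bdd.trans ?_
    have h0 := mul_nonneg hK.le (env_nn ha N l)
    rw [div_le_div_iff_of_pos_right (by positivity)]
    nlinarith
  · obtain ⟨l, q1, q2⟩ := exists_lv y
    exact (kall m i j l y q1 q2.le).j1 le_rfl
  · obtain ⟨J, hJs, hJw⟩ := hRB e he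
    obtain ⟨l, q1, q2⟩ := exists_lv y
    have hl : l < 7 := pow_lt_imp (by linarith)
    have he0 : 0 ≤ e := by obtain ⟨J, -, h, -⟩ := he; simpa using h 0
    refine Cm.j1_anti (((kimp J _ hJs hJw i j l y q1 q2.le).j1 hm).trans ?_) zero_le_one
      (by linarith [norm_nonneg y])
    have q3 : (16 : ℝ) ^ m ≤ 16 ^ 2 := pow_le_pow_right₀ (by norm_num) hm
    have q4 : (4 : ℝ) ^ l ≤ 4 ^ 6 := pow_le_pow_right₀ (by norm_num) (by omega)
    calc (16 : ℝ) ^ m * (C * 4 ^ l * (c * e)) ≤ 16 ^ 2 * (C * 4 ^ 6 * (c * e)) := by gcongr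
      _ = _ := by ring

end Crest.Agent.N207.Ph.Ez

namespace Crest.Agent.N207.Ph

theorem exa : EXAStmt := Ez.exa_of Ez.pic Ey.src

end Crest.Agent.N207.Ph

end
end

-- ▼ part N207/Ph/Fin

/-!
# Row 207, block PHI (helper85): `PHI'`
-/

set_option autoImplicit false

open scoped ContDiff Manifold

namespace Crest.Agent.N207.Ph

open Sk

variable {M : Type*} [TopologicalSpace M] [ChartedSpace E4 M] [IsManifold 𝓘(ℝ, E4) ∞ M]
  [CompactSpace M] [T3Space M] [ConnectedSpace M] [MeasurableSpace M] [BorelSpace M]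

theorem phiF {F : Flow M} (hB : Base F) : PHI' F :=
  phi_of hB exa exb (sw (TR.trans M) (cmS M) (rg en qu hc))

end Crest.Agent.N207.Ph
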