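import Mathlib
import Crest.Agent.R240.Lin1
import Crest.Agent.R240.PotFS
import Crest.Agent.N207.Tens
import Crest.Agent.N207.Ph.Defs
import Crest.Agent.NLib.Ell.SchAll

-- ▼ part R240/FrPar
section

/-!
Row 240, Lemma P (frozen at x0; helper849): parametric integrals against locally integrable kernels.
-/

set_option autoImplicit false
open scoped ContDiff Topology
open MeasureTheory Set Filter

namespace Crest.Agent.R240.Fr

noncomputable section

variable {P : Type*} [NormedAddCommGroup P] [NormedSpace ℝ P] [FiniteDimensional ℝ P]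
  {G : Type*} [NormedAddCommGroup G] [NormedSpace ℝ G] [FiniteDimensional ℝ G]
  [MeasurableSpace G] [BorelSpace G] {μ : Measure G} [μ.IsAddHaarMeasure]
  {F : Type*} [NormedAddCommGroup F] [NormedSpace ℝ F]

/-- locally uniformly compact support in the second variable -/
def LocSupp (g : P → G → F) : Prop :=
  ∀ q0 : P, ∃ s : Set P, IsOpen s ∧ q0 ∈ s ∧ ∃ K : Set G, IsCompact K ∧
    ∀ q ∈ s, ∀ t, t ∉ K → g q t = 0

theorem param_contDiff {k : G → ℝ} (hk : LocallyIntegrable k μ) {g : P → G → F}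
    (hg : ContDiff ℝ ∞ (fun z : P × G => g z.1 z.2)) (hs : LocSupp g) :
    ContDiff ℝ ∞ (fun q => ∫ t, k t • g q t ∂μ) := by
  rw [contDiff_iff_contDiffAt]
  intro q0
  obtain ⟨s, hso, hq0, K, hK, hgs⟩ := hs q0
  have hg' : ContDiffOn ℝ ∞ (↿(fun (p : P) (x : G) => g p (-x))) (s ×ˢ univ) := by
    have : ContDiff ℝ ∞ (fun z : P × G => g z.1 (-z.2)) :=
      hg.comp (contDiff_fst.prodMk contDiff_snd.neg)
    exact this.contDiffOn
  have h := contDiffOn_convolution_right_with_param (μ := μ) (n := ⊤)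
    (ContinuousLinearMap.lsmul ℝ ℝ : ℝ →L[ℝ] F →L[ℝ] F) (f := k)
    (g := fun (p : P) (x : G) => g p (-x)) (k := -K) hso hK.neg
    (fun p x hp hx => hgs p hp (-x) (by simpa using hx)) hk hg'
  have h2 : ContDiffAt ℝ ∞ (fun q : P × G =>
      (convolution k (fun x : G => g q.1 (-x)) (ContinuousLinearMap.lsmul ℝ ℝ) μ) q.2) (q0, 0) :=
    h.contDiffAt ((hso.prod isOpen_univ).mem_nhds ⟨hq0, mem_univ _⟩)
  have h3 := h2.comp q0 (contDiffAt_id.prodMk contDiffAt_const : ContDiffAt ℝ ∞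
    (fun q : P => ((q, (0 : G)) : P × G)) q0)
  refine h3.congr_of_eventuallyEq (Eventually.of_forall fun q => ?_)
  simp [convolution]

theorem param_integrable {k : G → ℝ} (hk : LocallyIntegrable k μ) {g : G → F}
    (hg : Continuous g) {K : Set G} (hK : IsCompact K) (hs : ∀ t, t ∉ K → g t = 0) :
    Integrable (fun t => k t • g t) μ := by
  have h1 : IntegrableOn (fun t => k t • g t) K μ :=
    (hk.integrableOn_isCompact hK).smul_continuousOn hg.continuousOn hK
  rw [← integrableOn_iff_integrable_of_support_subset (s := K)]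
  · exact h1
  · intro t ht
    by_contra hcon
    exact ht (by simp [hs t hcon])

theorem param_hasFDerivAt {k : G → ℝ} (hk : LocallyIntegrable k μ) {g : P → G → F}
    (hg : ContDiff ℝ ∞ (fun z : P × G => g z.1 z.2)) (hs : LocSupp g) (q0 : P) :
    HasFDerivAt (fun q => ∫ t, k t • g q t ∂μ)
      (∫ t, k t • fderiv ℝ (fun q => g q t) q0 ∂μ) q0 := by
  obtain ⟨s, hso, hq0, K, hK, hgs⟩ := hs q0
  obtain ⟨r, hr, hrs⟩ := Metric.nhds_basis_closedBall.mem_iff.1 (hso.mem_nhds hq0)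
  have hgt : ∀ t, ContDiff ℝ ∞ (fun q => g q t) := fun t =>
    hg.comp (contDiff_id.prodMk contDiff_const)
  have hgq : ∀ q, Continuous (g q) := fun q =>
    hg.continuous.comp (continuous_const.prodMk continuous_id)
  -- joint continuity of the derivative in q
  have hD : ContDiff ℝ ∞ (fun z : P × G => fderiv ℝ (fun q => g q z.2) z.1) := by
    have h1 : ContDiff ℝ ∞ (fun w : (P × G) × P => g w.2 w.1.2) :=
      hg.comp (contDiff_snd.prodMk (contDiff_snd.comp contDiff_fst))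
    exact ContDiff.fderiv (f := fun (z : P × G) (q : P) => g q z.2) (n := ∞) (m := ∞)
      h1 contDiff_fst (by simp)
  have hDK : ∃ C, ∀ z ∈ (Metric.closedBall q0 r) ×ˢ K, ‖fderiv ℝ (fun q => g q z.2) z.1‖ ≤ C :=
    ((isCompact_closedBall q0 r).prod hK).exists_bound_of_continuousOn hD.continuous.continuousOn
  obtain ⟨C, hC⟩ := hDK
  have hDzero : ∀ q ∈ s, ∀ t, t ∉ K → fderiv ℝ (fun q => g q t) q = 0 := by
    intro q hq t ht
    have : (fun q => g q t) =ᶠ[𝓝 q] (fun _ => (0 : F)) := by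
      filter_upwards [hso.mem_nhds hq] with q' hq'
      exact hgs q' hq' t ht
    rw [this.fderiv_eq]; simp
  have hDc : ∀ q, Continuous (fun t => fderiv ℝ (fun q => g q t) q) := fun q =>
    hD.continuous.comp (continuous_const.prodMk continuous_id)
  refine hasFDerivAt_integral_of_dominated_of_fderiv_le (s := Metric.ball q0 r)
    (bound := fun t => ‖k t‖ * (K.indicator (fun _ => C) t)) (Metric.ball_mem_nhds q0 hr)
    (F' := fun q t => k t • fderiv ℝ (fun q => g q t) q) ?_ ?_ ?_ ?_ ?_ ?_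
  · filter_upwards [hso.mem_nhds hq0] with q hq
    exact (param_integrable hk (hgq q) hK (hgs q hq)).aestronglyMeasurable
  · exact param_integrable hk (hgq q0) hK (hgs q0 hq0)
  · exact (param_integrable hk (hDc q0) hK (hDzero q0 hq0)).aestronglyMeasurable
  · refine Eventually.of_forall fun t q hq => ?_
    rw [norm_smul]
    refine mul_le_mul_of_nonneg_left ?_ (norm_nonneg _)
    by_cases ht : t ∈ K
    · rw [indicator_of_mem ht]
      exact hC (q, t) ⟨Metric.ball_subset_closedBall hq, ht⟩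
    · rw [indicator_of_notMem ht, hDzero q (hrs (Metric.ball_subset_closedBall hq)) t ht]
      simp
  · have h1 : IntegrableOn (fun t => ‖k t‖ * C) K μ :=
      (hk.integrableOn_isCompact hK).norm.mul_const C
    have h2 : (fun t => ‖k t‖ * (K.indicator (fun _ => C) t)) =
        K.indicator (fun t => ‖k t‖ * C) := by
      ext t
      by_cases ht : t ∈ K <;> simp [ht]
    rw [h2]
    exact (integrable_indicator_iff hK.measurableSet).2 h1
  · refine Eventually.of_forall fun t q _ => ?_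
    exact (((hgt t).differentiable (by simp)).differentiableAt.hasFDerivAt).const_smul (k t)

end

end Crest.Agent.R240.Fr
end

-- ▼ part R240/FrFrame
section

/-!
Row 240, Lemma P (helper849): smooth orthonormal frames by Gram-Schmidt.
-/

set_option autoImplicit false
open scoped ContDiff Topology

namespace Crest.Agent.R240.Fr

noncomputable section






/-- smooth frame of a metric: `A x` maps the standard orthonormal basis to a `g x`-orthonormal one,
`B x` is its inverse. -/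
structure Frame (g : E4 → Bil) (A B : E4 → E4 →L[ℝ] E4) : Prop where
  smA : ContDiff ℝ ∞ A
  smB : ContDiff ℝ ∞ B
  BA : ∀ x u, B x (A x u) = u
  AB : ∀ x u, A x (B x u) = u
  iso : ∀ x u v, g x (A x u) (A x v) = inner ℝ u v


end

end Crest.Agent.R240.Fr
end

-- ▼ part R240/FrOp
section

/-!
Row 240, Lemma P (helper849): frozen convolution operators
`T A k f x0 x = ∫ k η • f (x - A x0 η) dη`.
-/

set_option autoImplicit false
open scoped ContDiff Topology
open MeasureTheory Set Filter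

namespace Crest.Agent.R240.Fr

noncomputable section

variable {F : Type*} [NormedAddCommGroup F] [NormedSpace ℝ F]


theorem contDiffOn_normsq_inv (m : ℕ) : ContDiffOn ℝ ∞ (fun η : E4 => ((‖η‖ ^ 2) ^ m)⁻¹) {0}ᶜ := by
  refine ContDiffOn.inv ((contDiff_norm_sq ℝ).pow m).contDiffOn fun η hη => ?_
  have : 0 < ‖η‖ := norm_pos_iff.2 hη
  positivity

/-- the derivative of the Newton kernel in the direction `i` -/
def NKi (i : Fin 4) (η : E4) : ℝ := 2 * cN * η i * ((‖η‖ ^ 2) ^ 2)⁻¹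

theorem hasFDerivAt_normsq_inv (m : ℕ) {η : E4} (hη : η ≠ 0) :
    HasFDerivAt (fun η : E4 => ((‖η‖ ^ 2) ^ m)⁻¹)
      ((-(((‖η‖ ^ 2) ^ m) ^ 2)⁻¹ * (m * (‖η‖ ^ 2) ^ (m - 1)) * 2) • innerSL ℝ η) η := by
  have hη' : 0 < ‖η‖ := norm_pos_iff.2 hη
  have h1 : HasFDerivAt (fun η : E4 => ‖η‖ ^ 2) (2 • innerSL ℝ η) η :=
    (hasStrictFDerivAt_norm_sq η).hasFDerivAt
  have h2 := (hasDerivAt_inv (x := (‖η‖ ^ 2) ^ m) (by positivity)).comp_hasFDerivAt η (h1.pow m)
  refine h2.congr_fderiv ?_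
  ext v
  simp only [smul_apply, smul_eq_mul, nsmul_eq_mul]
  push_cast
  ring

theorem norm_proj_le (i : Fin 4) : ‖(EuclideanSpace.proj (𝕜 := ℝ) i : E4 →L[ℝ] ℝ)‖ ≤ 1 := by
  refine ContinuousLinearMap.opNorm_le_bound _ zero_le_one fun v => ?_
  rw [one_mul]
  exact PiLp.norm_apply_le v i

theorem coord_le (η : E4) (i : Fin 4) : |η i| ≤ ‖η‖ := by
  have := PiLp.norm_apply_le η i
  rwa [Real.norm_eq_abs] at this

theorem ker_NK : Ker 2 (2 * cN) NK := by
  refine ⟨?_, fun η hη => ?_, fun η hη => ?_⟩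
  · have h1 := (contDiffOn_const (c := -cN)).mul (contDiffOn_normsq_inv 1)
    refine (h1.of_le (by simp : (1 : WithTop ℕ∞) ≤ ∞)).congr fun η _ => ?_
    simp [NK]
  · have hη' : 0 < ‖η‖ := norm_pos_iff.2 hη
    have := cN_pos
    unfold NK
    rw [abs_mul, abs_neg, abs_of_pos cN_pos, abs_of_pos (by positivity)]
    gcongr
    linarith
  · have hη' : 0 < ‖η‖ := norm_pos_iff.2 hη
    have hc := cN_pos
    have h1 := ((hasFDerivAt_normsq_inv 1 hη).const_mul (-cN)).fderiv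
    have h2 : NK = fun η : E4 => (-cN) * ((‖η‖ ^ 2) ^ 1)⁻¹ := by
      funext η; simp [NK]
    rw [h2, h1, norm_smul, norm_smul, innerSL_apply_norm]
    rw [Real.norm_eq_abs, Real.norm_eq_abs, abs_neg, abs_of_pos hc]
    have h3 : |(-(((‖η‖ ^ 2) ^ 1) ^ 2)⁻¹ * (((1 : ℕ) : ℝ) * (‖η‖ ^ 2) ^ (1 - 1)) * 2)| =
        2 * (‖η‖ ^ 4)⁻¹ := by
      rw [abs_mul, abs_mul, abs_neg]
      rw [abs_of_pos (by positivity), abs_of_pos (by positivity), abs_of_pos (by positivity)]
      simp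
      ring
    rw [h3]
    apply le_of_eq
    field_simp


theorem ker_NKi (i : Fin 4) : Ker 3 (10 * cN) (NKi i) := by
  have hc := cN_pos
  refine ⟨?_, fun η hη => ?_, fun η hη => ?_⟩
  · have h1 := ((contDiff_const (c := 2 * cN)).mul (contDiff_coord i)).contDiffOn.mul
      (contDiffOn_normsq_inv 2)
    exact (h1.of_le (by simp : (1 : WithTop ℕ∞) ≤ ∞))
  · have hη' : 0 < ‖η‖ := norm_pos_iff.2 hη
    unfold NKi
    rw [abs_mul, abs_mul, abs_of_pos (by positivity : 0 < 2 * cN),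
      abs_of_pos (by positivity : 0 < ((‖η‖ ^ 2) ^ 2)⁻¹)]
    calc 2 * cN * |η i| * ((‖η‖ ^ 2) ^ 2)⁻¹ ≤ 2 * cN * ‖η‖ * ((‖η‖ ^ 2) ^ 2)⁻¹ := by
          gcongr
          exact coord_le η i
      _ = 2 * cN * (‖η‖ ^ 3)⁻¹ := by field_simp
      _ ≤ 10 * cN * (‖η‖ ^ 3)⁻¹ := by gcongr; norm_num
  · have hη' : 0 < ‖η‖ := norm_pos_iff.2 hη
    have h0 : HasFDerivAt (fun η : E4 => η i) (EuclideanSpace.proj (𝕜 := ℝ) i : E4 →L[ℝ] ℝ) η :=
      (EuclideanSpace.proj (𝕜 := ℝ) i : E4 →L[ℝ] ℝ).hasFDerivAt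
    have h1 := ((h0.const_mul (2 * cN)).mul (hasFDerivAt_normsq_inv 2 hη)).fderiv
    have h2 : NKi i = (fun η : E4 => 2 * cN * η i) * fun η : E4 => ((‖η‖ ^ 2) ^ 2)⁻¹ := rfl
    rw [h2, h1]
    refine (norm_add_le _ _).trans ?_
    rw [norm_smul, norm_smul, norm_smul, norm_smul, innerSL_apply_norm]
    simp only [Real.norm_eq_abs]
    have h3 : |(-(((‖η‖ ^ 2) ^ 2) ^ 2)⁻¹ * (((2 : ℕ) : ℝ) * (‖η‖ ^ 2) ^ (2 - 1)) * 2)| =
        4 * (‖η‖ ^ 6)⁻¹ := by
      rw [abs_mul, abs_mul, abs_neg]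
      rw [abs_of_pos (by positivity), abs_of_pos (by positivity), abs_of_pos (by positivity)]
      field_simp
      norm_num
      ring
    rw [h3, abs_mul, abs_of_pos (by positivity : 0 < 2 * cN),
      abs_of_pos (by positivity : 0 < ((‖η‖ ^ 2) ^ 2)⁻¹)]
    calc 2 * cN * |η i| * (4 * (‖η‖ ^ 6)⁻¹ * ‖η‖) +
        ((‖η‖ ^ 2) ^ 2)⁻¹ * (2 * cN * ‖(EuclideanSpace.proj (𝕜 := ℝ) i : E4 →L[ℝ] ℝ)‖)
        ≤ 2 * cN * ‖η‖ * (4 * (‖η‖ ^ 6)⁻¹ * ‖η‖) + ((‖η‖ ^ 2) ^ 2)⁻¹ * (2 * cN * 1) := by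
          gcongr
          · exact coord_le η i
          · exact norm_proj_le i
      _ = 10 * cN * (‖η‖ ^ (3 + 1))⁻¹ := by field_simp; ring

/-! ### the operators -/

/-- frozen convolution operator -/
def T (A : E4 → E4 →L[ℝ] E4) (k : E4 → ℝ) (f : E4 → F) (x0 x : E4) : F :=
  ∫ η, k η • f (x - A x0 η)

variable {g : E4 → Bil} {A B : E4 → E4 →L[ℝ] E4}















end

end Crest.Agent.R240.Fr
namespace Crest.Agent.R240.Fr.Ker
end Crest.Agent.R240.Fr.Ker
namespace Crest.Agent.R240.Fr.Frame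
end Crest.Agent.R240.Fr.Frame
end

-- ▼ part N207/Ph/Nw1
section

/-!
# Row 207, block PHI (helper48): the Newton potential on `ℝ⁴`, part 1 (algebra)

`Cv k f x = ∫ k η • f (x - η)`, `Nw = Cv NK`; `lap (Nw f) = f`, `Nw (lap u) = u`, linearity,
derivatives, equivariance under isometries, dilations and translations.
-/

set_option autoImplicit false
set_option linter.unusedSectionVars false

open scoped ContDiff Topology
open MeasureTheory Set Filter

noncomputable section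

namespace Crest.Agent.N207.Ph

open Crest.Agent.R240 (ee)
open Crest.Agent.R240.Fr (NK cN lap cN_pos ker_NK newton LocSupp param_contDiff
  param_hasFDerivAt ae_ne_zero fderiv_apply_contDiff)

variable {F : Type*} [NormedAddCommGroup F] [NormedSpace ℝ F]
  {F' : Type*} [NormedAddCommGroup F'] [NormedSpace ℝ F']

/-- convolution with the kernel `k` -/
def Cv (k : E4 → ℝ) (f : E4 → F) (x : E4) : F := ∫ η, k η • f (x - η)

/-- the Newton potential -/
def Nw (f : E4 → F) : E4 → F := Cv NK f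

theorem locInt_NK : LocallyIntegrable NK := ker_NK.locInt (by norm_num)

theorem abs_NK (η : E4) : |NK η| = cN * (‖η‖ ^ 2)⁻¹ := by
  unfold NK
  rw [abs_mul, abs_neg, abs_of_pos cN_pos, abs_of_nonneg (by positivity)]

theorem locSupp_sub {f : E4 → F} (hfs : HasCompactSupport f) :
    LocSupp (fun (x : E4) (η : E4) => f (x - η)) := by
  obtain ⟨ρ, hρ⟩ := hfs.isCompact.isBounded.subset_closedBall 0
  intro x0
  refine ⟨Metric.ball x0 1, Metric.isOpen_ball, Metric.mem_ball_self one_pos,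
    Metric.closedBall 0 (‖x0‖ + 1 + ρ), isCompact_closedBall _ _, fun q hq t ht => ?_⟩
  by_contra hne
  have h1 := hρ (subset_tsupport _ hne)
  rw [mem_closedBall_zero_iff] at h1 ht
  rw [mem_ball_iff_norm] at hq
  have h2 : t = (q - x0) + x0 - (q - t) := by abel
  have h3 : ‖t‖ ≤ ‖q - x0‖ + ‖x0‖ + ‖q - t‖ := by
    conv_lhs => rw [h2]
    exact (norm_sub_le _ _).trans (add_le_add_left (norm_add_le _ _) _)
  exact ht (by linarith)

theorem hcs_sub {f : E4 → F} (hfs : HasCompactSupport f) (x : E4) :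
    HasCompactSupport (fun η : E4 => f (x - η)) :=
  hfs.comp_homeomorph (Homeomorph.subLeft x)

section cv

variable {k : E4 → ℝ}

theorem Cv_integrable (hk : LocallyIntegrable k) {f : E4 → F} (hf : Continuous f)
    (hfs : HasCompactSupport f) (x : E4) : Integrable (fun η => k η • f (x - η)) :=
  hk.integrable_smul_right_of_hasCompactSupport (hf.comp (continuous_const.sub continuous_id))
    (hcs_sub hfs x)

theorem Cv_contDiff (hk : LocallyIntegrable k) {f : E4 → F} (hf : ContDiff ℝ ∞ f)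
    (hfs : HasCompactSupport f) : ContDiff ℝ ∞ (Cv k f) :=
  param_contDiff (μ := (volume : Measure E4)) hk (g := fun x η => f (x - η))
    (hf.comp (contDiff_fst.sub contDiff_snd)) (locSupp_sub hfs)

theorem Cv_hasFDerivAt (hk : LocallyIntegrable k) {f : E4 → F} (hf : ContDiff ℝ ∞ f)
    (hfs : HasCompactSupport f) (x : E4) :
    HasFDerivAt (Cv k f) (Cv k (fderiv ℝ f) x) x := by
  have h := param_hasFDerivAt (μ := (volume : Measure E4)) hk (g := fun x η => f (x - η))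
    (hf.comp (contDiff_fst.sub contDiff_snd)) (locSupp_sub hfs) x
  refine h.congr_fderiv ?_
  unfold Cv
  refine integral_congr_ae (Eventually.of_forall fun η => ?_)
  simp only []
  congr 1
  have h2 := ((hf.differentiable (by simp)) (x - η)).hasFDerivAt.comp x
    ((hasFDerivAt_id x).sub_const η)
  exact h2.fderiv

theorem Cv_clm [CompleteSpace F] [CompleteSpace F'] (hk : LocallyIntegrable k) (L : F →L[ℝ] F')
    {f : E4 → F} (hf : Continuous f) (hfs : HasCompactSupport f) (x : E4) :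
    Cv k (fun y => L (f y)) x = L (Cv k f x) := by
  unfold Cv
  rw [← L.integral_comp_comm (Cv_integrable hk hf hfs x)]
  simp only [map_smul]

theorem Cv_fderiv [CompleteSpace F] (hk : LocallyIntegrable k) {f : E4 → F}
    (hf : ContDiff ℝ ∞ f) (hfs : HasCompactSupport f) (x v : E4) :
    fderiv ℝ (Cv k f) x v = Cv k (fun y => fderiv ℝ f y v) x := by
  rw [(Cv_hasFDerivAt hk hf hfs x).fderiv]
  exact (Cv_clm hk (ContinuousLinearMap.apply ℝ F v) (hf.continuous_fderiv (by simp))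
    (hfs.fderiv (𝕜 := ℝ)) x).symm


theorem Cv_sub (hk : LocallyIntegrable k) {f g : E4 → F} (hf : Continuous f)
    (hfs : HasCompactSupport f) (hg : Continuous g) (hgs : HasCompactSupport g) (x : E4) :
    Cv k (fun y => f y - g y) x = Cv k f x - Cv k g x := by
  unfold Cv
  rw [← integral_sub (Cv_integrable hk hf hfs x) (Cv_integrable hk hg hgs x)]
  simp only [smul_sub]

theorem Cv_smul (c : ℝ) (f : E4 → F) (x : E4) : Cv k (fun y => c • f y) x = c • Cv k f x := by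
  unfold Cv
  rw [← integral_smul]
  simp only [smul_comm c]



theorem Cv_sum (hk : LocallyIntegrable k) {ι : Type*} (t : Finset ι) {f : ι → E4 → F}
    (hf : ∀ i ∈ t, Continuous (f i)) (hfs : ∀ i ∈ t, HasCompactSupport (f i)) (x : E4) :
    Cv k (fun y => ∑ i ∈ t, f i y) x = ∑ i ∈ t, Cv k (f i) x := by
  unfold Cv
  rw [← integral_finsetSum _ fun i hi => Cv_integrable hk (hf i hi) (hfs i hi) x]
  simp only [Finset.smul_sum]

/-- the other form of the convolution -/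
theorem Cv_eq (f : E4 → F) (x : E4) : Cv k f x = ∫ y, k (x - y) • f y := by
  unfold Cv
  rw [← integral_sub_left_eq_self (fun y => k (x - y) • f y) volume x]
  simp only [sub_sub_cancel]

theorem Cv_integrable' (hk : LocallyIntegrable k) {f : E4 → F} (hf : Continuous f)
    (hfs : HasCompactSupport f) (x : E4) : Integrable (fun y => k (x - y) • f y) := by
  have h := (Cv_integrable hk hf hfs x).comp_sub_left x
  simpa only [sub_sub_cancel] using h


end cv

theorem hcs_fderiv_apply {f : E4 → F} (hfs : HasCompactSupport f) (v : E4) :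
    HasCompactSupport (fun y => fderiv ℝ f y v) :=
  (hfs.fderiv (𝕜 := ℝ)).comp_left (g := fun L : E4 →L[ℝ] F => L v) rfl

theorem lap_contDiff {f : E4 → F} (hf : ContDiff ℝ ∞ f) : ContDiff ℝ ∞ (lap f) := by
  unfold lap
  exact ContDiff.sum fun i _ => fderiv_apply_contDiff (fderiv_apply_contDiff hf (ee i)) _

theorem lap_Cv [CompleteSpace F] {k : E4 → ℝ} (hk : LocallyIntegrable k) {f : E4 → F}
    (hf : ContDiff ℝ ∞ f) (hfs : HasCompactSupport f) (x : E4) :
    lap (Cv k f) x = Cv k (lap f) x := by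
  unfold lap
  rw [Cv_sum hk _ (fun i _ => (fderiv_apply_contDiff (fderiv_apply_contDiff hf _) _).continuous)
    (fun i _ => hcs_fderiv_apply (hcs_fderiv_apply hfs _) _)]
  refine Finset.sum_congr rfl fun i _ => ?_
  have e : (fun z => fderiv ℝ (Cv k f) z (ee i)) = Cv k (fun y => fderiv ℝ f y (ee i)) :=
    funext fun z => Cv_fderiv hk hf hfs z _
  rw [e, Cv_fderiv hk (fderiv_apply_contDiff hf _) (hcs_fderiv_apply hfs _)]

theorem fderiv_sub_left {f : E4 → F} (hf : Differentiable ℝ f) (x η v : E4) :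
    fderiv ℝ (fun z => f (x - z)) η v = -fderiv ℝ f (x - η) v := by
  have h2 : HasFDerivAt (fun z => f (x - z)) _ η :=
    (hf (x - η)).hasFDerivAt.comp η ((hasFDerivAt_id η).const_sub x)
  rw [h2.fderiv]
  simp

theorem lap_sub_left {f : E4 → F} (hf : ContDiff ℝ ∞ f) (x η : E4) :
    lap (fun z => f (x - z)) η = lap f (x - η) := by
  unfold lap
  refine Finset.sum_congr rfl fun i _ => ?_
  have e : (fun z => fderiv ℝ (fun z => f (x - z)) z (ee i)) =
      fun z => (fun y => -fderiv ℝ f y (ee i)) (x - z) :=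
    funext fun z => fderiv_sub_left (hf.differentiable (by simp)) x z _
  have hd : Differentiable ℝ fun y => fderiv ℝ f y (ee i) :=
    (fderiv_apply_contDiff hf _).differentiable (by simp)
  rw [e, fderiv_sub_left hd.fun_neg, fderiv_fun_neg]
  simp

theorem Nw_def (f : E4 → F) (x : E4) : Nw f x = ∫ η, NK η • f (x - η) := rfl

theorem Nw_eq (f : E4 → F) (x : E4) : Nw f x = ∫ y, NK (x - y) • f y := Cv_eq f x

theorem Nw_contDiff {f : E4 → F} (hf : ContDiff ℝ ∞ f) (hfs : HasCompactSupport f) :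
    ContDiff ℝ ∞ (Nw f) := Cv_contDiff locInt_NK hf hfs


/-- `N Δ u = u` -/
theorem Nw_lap [CompleteSpace F] {u : E4 → F} (hu : ContDiff ℝ ∞ u) (hus : HasCompactSupport u)
    (x : E4) : Nw (lap u) x = u x := by
  have h := newton (f := fun z => u (x - z)) (hu.comp (contDiff_const.sub contDiff_id))
    (hcs_sub hus x)
  simp only [lap_sub_left hu, sub_zero] at h
  exact h

/-- `Δ N f = f` -/
theorem lap_Nw [CompleteSpace F] {f : E4 → F} (hf : ContDiff ℝ ∞ f) (hfs : HasCompactSupport f)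
    (x : E4) : lap (Nw f) x = f x :=
  (lap_Cv locInt_NK hf hfs x).trans (Nw_lap hf hfs x)


theorem Nw_sub {f g : E4 → F} (hf : Continuous f) (hfs : HasCompactSupport f)
    (hg : Continuous g) (hgs : HasCompactSupport g) (x : E4) :
    Nw (fun y => f y - g y) x = Nw f x - Nw g x := Cv_sub locInt_NK hf hfs hg hgs x

theorem Nw_smul (c : ℝ) (f : E4 → F) (x : E4) : Nw (fun y => c • f y) x = c • Nw f x :=
  Cv_smul c f x

theorem Nw_sum {ι : Type*} (t : Finset ι) {f : ι → E4 → F} (hf : ∀ i ∈ t, Continuous (f i))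
    (hfs : ∀ i ∈ t, HasCompactSupport (f i)) (x : E4) :
    Nw (fun y => ∑ i ∈ t, f i y) x = ∑ i ∈ t, Nw (f i) x := Cv_sum locInt_NK t hf hfs x

theorem Nw_clm [CompleteSpace F] [CompleteSpace F'] (L : F →L[ℝ] F') {f : E4 → F}
    (hf : Continuous f) (hfs : HasCompactSupport f) (x : E4) :
    Nw (fun y => L (f y)) x = L (Nw f x) := Cv_clm locInt_NK L hf hfs x


/-- equivariance under linear isometries -/
theorem Nw_isom (A : E4 ≃ₗᵢ[ℝ] E4) (f : E4 → F) (x : E4) :
    Nw (fun y => f (A y)) x = Nw f (A x) := by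
  rw [Nw_def, Nw_def]
  have h := A.measurePreserving.integral_comp A.toHomeomorph.measurableEmbedding
    (fun η => NK η • f (A x - η))
  rw [← h]
  refine integral_congr_ae (Eventually.of_forall fun η => ?_)
  simp only [NK, LinearIsometryEquiv.norm_map, map_sub]


end Crest.Agent.N207.Ph

end
end

-- ▼ part N207/Ph/NwDefs

/-!
# Row 207, block PHI (helper48): Newton kit, definitions and statements (FROZEN)
-/

set_option autoImplicit false
set_option linter.unusedSectionVars false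

open scoped ContDiff Topology
open MeasureTheory Set Filter Metric
open Crest.GeometryTopology.CoordMetric Crest.GeometryTopology.ChartCurvature

noncomputable section

namespace Crest.Agent.N207.Ph

open Crest.Agent.R240.Fr (NK NKi lap)
open Crest.Agent.NLib.Ell (CKA)
open Crest.Agent.R238 (Ell)

section
variable {F : Type} [NormedAddCommGroup F] [NormedSpace ℝ F]

/-- the cell at `y` -/
def cl (y Y : E4) : E4 := y + ((‖y‖ + 1) / 4) • Y

/-- `C^{k,1/2}` bound on the rescaled cell at `y` -/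
def CK (k : ℕ) (M : ℝ) (f : E4 → F) (y : E4) : Prop :=
  CKA (1 / 2) (ball (0 : E4) 1) k M fun Y => f (cl y Y)

/-- dyadic `C^{k,1/2}` bounds -/
def WD (k : ℕ) (a : ℕ → ℝ) (f : E4 → F) : Prop :=
  ∀ (l : ℕ) (y : E4), 2 ^ l ≤ ‖y‖ + 1 → ‖y‖ + 1 ≤ 2 ^ (l + 1) → CK k (a l) f y

/-- dyadic sup bounds -/
def WS (a : ℕ → ℝ) (f : E4 → F) : Prop :=
  ∀ (l : ℕ) (y : E4), 2 ^ l ≤ ‖y‖ + 1 → ‖y‖ + 1 ≤ 2 ^ (l + 1) → ‖f y‖ ≤ a l

end

/-- `b j` dominates the neighbours `a (j-1), a j, a (j+1)` -/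
def Nb (a b : ℕ → ℝ) : Prop := ∀ j i : ℕ, i ≤ j + 1 → j ≤ i + 1 → a i ≤ b j

/-- `1` for `j ≤ l`, `8 ^ (l - j)` for `l < j` -/
def wH (j l : ℕ) : ℝ := min 1 (8 ^ l / 8 ^ j)

/-- `4 ^ (-|j - l|)` -/
def wE (j l : ℕ) : ℝ := min (4 ^ l / 4 ^ j) (4 ^ j / 4 ^ l)

/-- the dyadic shells (a partition of `ℝ⁴`) -/
def Sh (l : ℕ) : Set E4 := {y | 2 ^ l ≤ ‖y‖ + 1 ∧ ‖y‖ + 1 < 2 ^ (l + 1)}

/-- value at `0` of the potential of `f 1_{Sh l}` -/
def p0 (l : ℕ) (f : MetricField 4) (i j : Fin 4) : ℝ := ∫ y in Sh l, NK y * f y i j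

/-- first derivatives at `0` of the potential of `f 1_{Sh l}` -/
def p1 (l : ℕ) (f : MetricField 4) (i j c : Fin 4) : ℝ := -∫ y in Sh l, NKi c y * f y i j

/-- the linear plus quadratic field with `L_X δ = p0 + p1 x` -/
def Xg (l : ℕ) (f : MetricField 4) (m : Fin 4) (x : E4) : ℝ :=
  ∑ a, p0 l f m a / 2 * x a + ∑ a, ∑ b, (p1 l f m a b / 2 - p1 l f a b m / 4) * (x a * x b)

/-- `1` on `|x| ≤ 2 ^ l / 16`, `0` on `2 ^ l / 8 ≤ |x|` -/
def zt (l : ℕ) (x : E4) : ℝ := 1 - up (1 / 16) (1 / 8) (((2 : ℝ) ^ l)⁻¹ • x)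

/-- the gauge field -/
def Wg (n : ℕ) (f : MetricField 4) : Tn 4 1 :=
  fun x I => ∑ l ∈ Finset.range n, zt l x * Xg l f (I 0) x

/-- `∂ᵢ Vⱼ + ∂ⱼ Vᵢ` -/
def symd (V : Tn 4 1) : MetricField 4 := fun x => Matrix.of fun i j =>
  pderiv i (fun y => V y ![j]) x + pderiv j (fun y => V y ![i]) x

/-- the Newton potential with the dyadic gauge cut -/
def KK (n : ℕ) (f : MetricField 4) : MetricField 4 := fun x => Matrix.of fun i j =>
  Nw (fun y => f y i j) x - symd (Wg n f) x i j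

/-- the gauge term: `Δ (KK n f) + symd (UU n f) = f` -/
def UU (n : ℕ) (f : MetricField 4) : Tn 4 1 := fun x I => lap (fun y => Wg n f y I) x

/-- (REC) half cells give cells -/
def RECStmt : Prop :=
  ∀ k : ℕ, ∃ C : ℝ, 0 < C ∧ ∀ (F : Type) [NormedAddCommGroup F] [NormedSpace ℝ F] (f : E4 → F)
    (a b : ℕ → ℝ), Nb a b → (∀ (l : ℕ) (y : E4), 2 ^ l ≤ ‖y‖ + 1 → ‖y‖ + 1 ≤ 2 ^ (l + 1) →
      CKA (1 / 2) (ball (0 : E4) (1 / 2)) k (a l) fun Y => f (cl y Y)) → WD k (fun l => C * b l) f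

/-- (SW) weighted Schauder estimate: `τ^{ij} ∂ᵢ∂ⱼ u + βⁱ ∂ᵢ u + c u = f` -/
def NSWStmt : Prop :=
  ∀ (k : ℕ) (lo hi M : ℝ), 0 < lo → lo ≤ hi → ∃ C : ℝ, 0 < C ∧
    ∀ (τ : E4 → Matrix (Fin 4) (Fin 4) ℝ) (β : Fin 4 → E4 → ℝ) (c u f : E4 → ℝ) (N S b : ℕ → ℝ),
    (∀ x, Ell lo hi (τ x)) → (∀ i j, WD k (fun _ => M) fun x => τ x i j) →
    (∀ i, WD k (fun l => M / 2 ^ l) (β i)) → WD k (fun l => M / 4 ^ l) c →
    WD k (fun l => N l / 4 ^ l) f → (∀ y, ∃ V, CK 2 V u y) → WS S u →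
    (∀ x, ∑ i, ∑ j, τ x i j * pderiv i (pderiv j u) x + ∑ i, β i x * pderiv i u x + c x * u x =
      f x) → (∀ j i : ℕ, i ≤ j + 2 → j ≤ i + 2 → N i + S i ≤ b j) →
    WD (k + 2) (fun l => C * b l) u

/-- (LH) potentials of equivariant vector fields; `a` sup bounds, `a'` Hölder bounds -/
def LHStmt : Prop :=
  ∀ k : ℕ, ∃ C : ℝ, 0 < C ∧ ∀ (Γ : Subgroup Iso) (f : E4 → E4) (a a' b : ℕ → ℝ), Sk.Grp Γ →
    ContDiff ℝ ∞ f → HasCompactSupport f → Eqv Γ f → WS (fun l => a l / 2 ^ l) f →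
    WD k (fun l => a' l / 2 ^ l) f → (∀ j n, ∑ l ∈ Finset.range n, wH j l * a l ≤ b j) →
    Nb a' b → WD (k + 2) (fun j => C * 2 ^ j * b j) (Nw f)

/-- (LE) the estimate of `KK`; `a` sup bounds, `a'` Hölder bounds -/
def LEStmt : Prop :=
  ∀ k : ℕ, ∃ C : ℝ, 0 < C ∧ ∀ (n : ℕ) (f : MetricField 4) (a a' b : ℕ → ℝ),
    (∀ i j, ContDiff ℝ ∞ fun y => f y i j) → (∀ y, (f y).IsSymm) →
    (∀ y : E4, 2 ^ n ≤ ‖y‖ + 1 → f y = 0) → (∀ i j, WS (fun l => a l / 4 ^ l) fun y => f y i j) →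
    (∀ i j, WD k (fun l => a' l / 4 ^ l) fun y => f y i j) →
    (∀ j m, ∑ l ∈ Finset.range m, wE j l * a l ≤ b j) → Nb a' b →
    ∀ i j, WD (k + 2) (fun l => C * b l) fun y => KK n f y i j

/-- (LU) the estimates of the gauge term (sup bounds of `f` only) -/
def LUStmt : Prop :=
  ∀ k : ℕ, ∃ C : ℝ, 0 < C ∧ ∀ (n : ℕ) (f : MetricField 4) (a : ℕ → ℝ),
    (∀ i j, WS (fun l => a l / 4 ^ l) fun y => f y i j) →
    (∀ b : ℕ → ℝ, (∀ j m, ∑ l ∈ Finset.range m, wE j l * a l ≤ b j) →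
      ∀ i j, WD k (fun l => C * b l / 4 ^ l) fun y => symd (UU n f) y i j) ∧
    ∀ B : ℝ, (∀ l, a l ≤ B) → ∀ I, WD k (fun l => C * B / 2 ^ l) fun y => UU n f y I

/-- (LA) the algebra of `KK` and `UU` -/
def LAStmt : Prop :=
  (∀ (n : ℕ) (f : MetricField 4), SmT (UU n f) univ ∧ ∀ x : E4, 2 ^ n ≤ ‖x‖ → UU n f x = 0) ∧
  (∀ (n : ℕ) (f : MetricField 4), (∀ i j, ContDiff ℝ ∞ fun y => f y i j) →
    (∀ y : E4, 2 ^ n ≤ ‖y‖ + 1 → f y = 0) →
    (∀ i j, ContDiff ℝ ∞ fun y => KK n f y i j) ∧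
    ((∀ y, (f y).IsSymm) → ∀ y, (KK n f y).IsSymm) ∧
    (∀ x i j, lap (fun y => KK n f y i j) x + symd (UU n f) x i j = f x i j) ∧
    ∀ A : Iso, KK n (pbm A f) = pbm A (KK n f)) ∧
  (∀ (n : ℕ) (f g : MetricField 4), (∀ i j, Continuous fun y => f y i j) →
    (∀ i j, Continuous fun y => g y i j) →
    UU n (fun y => f y - g y) = (fun y => UU n f y - UU n g y) ∧
    ((∀ y : E4, 2 ^ n ≤ ‖y‖ + 1 → f y = 0) → (∀ y : E4, 2 ^ n ≤ ‖y‖ + 1 → g y = 0) →
      KK n (fun y => f y - g y) = fun y => KK n f y - KK n g y)) ∧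
  ∀ (n : ℕ) (f : MetricField 4) (A : Iso), (∀ i j, Continuous fun y => f y i j) →
    UU n (pbm A f) = pullT A (UU n f)

end Crest.Agent.N207.Ph

end
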