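import Crest.Agent.N207.Ph.Defs
import Crest.Agent.N207.Ph.Kit
import Crest.Agent.N207.A.Co1
import Crest.Agent.R236.Poinc
import Crest.Agent.N207.U.JG
import Crest.Agent.N207.AI.Nat
import Crest.Agent.N207.Ph.Pb2
import Crest.Agent.N207.I.Rig

-- ▼ part N207/Ph/RgD
section

/-!
# Row 207, block PHI, leaf RG (helper55): definitions and sub-leaves
-/

set_option autoImplicit false
set_option linter.unusedSectionVars false

open scoped ContDiff Topology
open Set MeasureTheory Filter Metric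
open Crest.GeometryTopology.CoordMetric

noncomputable section

namespace Crest.Agent.N207.Ph.Rg

open Sk

/-- smooth and `δ`-close to the identity in `C³` -/
structure Nr (P : E4 → E4) (δ : ℝ) : Prop where
  sm : ContDiff ℝ ∞ P
  jet : ∀ y : E4, ∀ k ≤ 3, J1 k (fun z => P z - z) y (‖y‖ + 1) (δ * (‖y‖ + 1))

/-- the ball of radius `3/2` -/
def B : Set E4 := ball 0 (3 / 2)

/-- `|u|²` -/
def q0 (u : Fin 4 → E4 → ℝ) (y : E4) : ℝ := ∑ j, u j y ^ 2

/-- `|∂u|²` -/
def q1 (u : Fin 4 → E4 → ℝ) (y : E4) : ℝ := ∑ i, ∑ j, pderiv i (u j) y ^ 2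

/-- `|∂²u|²` -/
def q2 (u : Fin 4 → E4 → ℝ) (y : E4) : ℝ := ∑ c, ∑ i, ∑ j, pderiv c (pderiv i (u j)) y ^ 2

/-- `k - 2 sym ∂u` -/
def rem (u : Fin 4 → E4 → ℝ) (k : Fin 4 → Fin 4 → E4 → ℝ) (i j : Fin 4) (y : E4) : ℝ :=
  k i j y - pderiv i (u j) y - pderiv j (u i) y

/-- (KORN) a vector field with mean zero and with symmetric mean derivative is controlled by its
symmetrised derivative -/
def KornStmt : Prop :=
  ∃ ε0 C : ℝ, 0 < ε0 ∧ 0 < C ∧ ∀ (u : Fin 4 → E4 → ℝ) (k : Fin 4 → Fin 4 → E4 → ℝ),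
    (∀ j, ContDiff ℝ ∞ (u j)) → (∀ i j, ContDiff ℝ ∞ (k i j)) →
    (∀ i j, HasCompactSupport (k i j)) → (∀ j, ∫ y in B, u j y = 0) →
    (∀ i j, ∫ y in B, pderiv i (u j) y = ∫ y in B, pderiv j (u i) y) →
    (∀ y ∈ B, ∀ i j, rem u k i j y ^ 2 ≤ ε0 * (q0 u y + q1 u y)) →
    (∀ y ∈ B, ∀ c i j, pderiv c (rem u k i j) y ^ 2 ≤ ε0 * (q0 u y + q1 u y + q2 u y)) →
    ∫ y in B, (q0 u y + q1 u y + q2 u y) ≤ C * ∫ y, ∑ c, ∑ i, ∑ j, pderiv c (k i j) y ^ 2

/-- (NID) maps close to the identity are diffeomorphisms -/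
def NidStmt : Prop :=
  ∀ (P : E4 → E4) (δ : ℝ), δ ≤ 1 / 2 → Nr P δ → (∃ R : ℝ, ∀ x : E4, R ≤ ‖x‖ → P x = x) →
    P 0 = 0 → ∃ ψ : E4 ≃ₜ E4, (ψ : E4 → E4) = P ∧ Nid 3 ψ δ

/-- (POL) the polar factor of the mean derivative; rotations -/
def PolStmt : Prop :=
  (∀ (P : E4 → E4) (δ : ℝ), δ ≤ 1 / 100 → Nr P δ → ∃ R : Iso, (∀ x, ‖R x - x‖ ≤ 30 * δ * ‖x‖) ∧
    ∀ i j, ∫ y in B, pderiv i (fun z => P (R z) j) y = ∫ y in B, pderiv j (fun z => P (R z) i) y) ∧
  (∀ (P : E4 → E4) (δ ε : ℝ) (R : Iso), Nr P δ → 0 ≤ ε → (∀ x, ‖R x - x‖ ≤ ε * ‖x‖) →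
    Nr (fun z => P (R z)) (δ + ε)) ∧
  ∀ (P : E4 → E4) (γ R : Iso), Continuous P → (∀ x, γ x = x → x = 0) → (∀ x, P (γ x) = γ (P x)) →
    ∀ j, ∫ y in B, P (R y) j = 0

end Crest.Agent.N207.Ph.Rg

end
end

-- ▼ part N207/Ph/RgK
section

/-!
# Row 207, block PHI, leaf RG (helper45): the Korn type inequality
-/

set_option autoImplicit false
set_option linter.unusedSectionVars false

open scoped ContDiff Topology ENNReal
open Set MeasureTheory Filter Metric
open Crest.GeometryTopology.CoordMetric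

noncomputable section

namespace Crest.Agent.N207.Ph.Rg

open Hd

theorem sq_lint_le {f : ℝ → ℝ≥0∞} (hf : AEMeasurable f (volume.restrict (Icc (0 : ℝ) 1))) :
    (∫⁻ t in Icc (0 : ℝ) 1, f t) ^ 2 ≤ ∫⁻ t in Icc (0 : ℝ) 1, f t ^ 2 := by
  have h := ENNReal.lintegral_mul_le_Lp_mul_Lq (volume.restrict (Icc (0 : ℝ) 1))
    Real.HolderConjugate.two_two hf (aemeasurable_const (b := (1 : ℝ≥0∞)))
  simp only [Pi.mul_apply, mul_one, lintegral_const, Measure.restrict_apply,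
    MeasurableSet.univ, univ_inter, Real.volume_Icc, sub_zero, ENNReal.ofReal_one,
    ENNReal.rpow_ofNat, one_pow, ENNReal.one_rpow] at h
  calc (∫⁻ t in Icc (0 : ℝ) 1, f t) ^ 2
      ≤ ((∫⁻ t in Icc (0 : ℝ) 1, f t ^ 2) ^ (1 / 2 : ℝ)) ^ 2 := by gcongr
    _ = _ := by
      rw [← ENNReal.rpow_natCast, ← ENNReal.rpow_mul]
      norm_num

/-- `L²` Poincaré inequality on a convex set (as in `N346.An.Mor.poinc2`) -/
theorem poinc2 {S : Set E4} (hS : MeasurableSet S) (hc : Convex ℝ S) {f : E4 → ℝ}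
    (hf : ContDiff ℝ 1 f) {d : ℝ} (hd : ∀ x ∈ S, ∀ y ∈ S, dist x y ≤ d) :
    ∫⁻ y in S, ∫⁻ x in S, ‖f y - f x‖ₑ ^ 2
      ≤ ENNReal.ofReal d ^ 2 * (2 ^ 4 * volume S * ∫⁻ z in S, ‖fderiv ℝ f z‖ₑ ^ 2) := by
  have hF : Measurable (fun z => ‖fderiv ℝ f z‖ₑ ^ 2) := (measurable_fderiv ℝ f).enorm.pow_const 2
  have hle : ∀ y ∈ S, ∀ x ∈ S, ‖f y - f x‖ₑ ^ 2 ≤ ENNReal.ofReal d ^ 2 *
      ∫⁻ t in Icc (0 : ℝ) 1, ‖fderiv ℝ f ((1 - t) • x + t • y)‖ₑ ^ 2 := by
    intro y hy x hx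
    have h1 := R236.Poinc.diff_le isOpen_univ convex_univ hf.contDiffOn (mem_univ x) (mem_univ y)
      (hd x hx y hy)
    have h2 : AEMeasurable (fun t : ℝ => ‖fderiv ℝ f ((1 - t) • x + t • y)‖ₑ)
        (volume.restrict (Icc (0 : ℝ) 1)) :=
      Measurable.aemeasurable ((measurable_fderiv ℝ f).enorm.comp (by fun_prop))
    calc ‖f y - f x‖ₑ ^ 2 ≤ (ENNReal.ofReal d *
          ∫⁻ t in Icc (0 : ℝ) 1, ‖fderiv ℝ f ((1 - t) • x + t • y)‖ₑ) ^ 2 := by gcongr
      _ = ENNReal.ofReal d ^ 2 *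
          (∫⁻ t in Icc (0 : ℝ) 1, ‖fderiv ℝ f ((1 - t) • x + t • y)‖ₑ) ^ 2 := by rw [mul_pow]
      _ ≤ _ := by
        gcongr
        exact sq_lint_le h2
  have hne : ENNReal.ofReal d ^ 2 ≠ ⊤ := ENNReal.pow_ne_top ENNReal.ofReal_ne_top
  calc ∫⁻ y in S, ∫⁻ x in S, ‖f y - f x‖ₑ ^ 2
      ≤ ∫⁻ y in S, ∫⁻ x in S, ENNReal.ofReal d ^ 2 *
          ∫⁻ t in Icc (0 : ℝ) 1, ‖fderiv ℝ f ((1 - t) • x + t • y)‖ₑ ^ 2 :=
        setLIntegral_mono' hS fun y hy => setLIntegral_mono' hS fun x hx => hle y hy x hx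
    _ = ENNReal.ofReal d ^ 2 * ∫⁻ y in S, ∫⁻ x in S,
          ∫⁻ t in Icc (0 : ℝ) 1, ‖fderiv ℝ f ((1 - t) • x + t • y)‖ₑ ^ 2 := by
        rw [← lintegral_const_mul' _ _ hne]
        refine lintegral_congr fun y => ?_
        rw [← lintegral_const_mul' _ _ hne]
    _ ≤ _ := by
        gcongr
        exact R236.Poinc.seg hS hc hF

theorem intB {f : E4 → ℝ} (hf : Continuous f) : IntegrableOn f B :=
  (hf.continuousOn.integrableOn_compact (isCompact_closedBall 0 (3 / 2))).mono_set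
    ball_subset_closedBall

theorem measB : MeasurableSet B := measurableSet_ball

theorem monoB {f g : E4 → ℝ} (hf : Continuous f) (hg : Continuous g) (h : ∀ y ∈ B, f y ≤ g y) :
    ∫ y in B, f y ≤ ∫ y in B, g y := setIntegral_mono_on (intB hf) (intB hg) measB h

/-- Poincaré inequality for functions of mean zero on `B` -/
theorem poincB {f : E4 → ℝ} (hf : ContDiff ℝ 1 f) (h0 : ∫ y in B, f y = 0) :
    ∫ y in B, f y ^ 2 ≤ 144 * ∫ y in B, g2 f y := by
  have hc := hf.continuous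
  have v0 : volume B ≠ 0 := (measure_ball_pos volume (0 : E4) (by norm_num)).ne'
  have v1 : volume B ≠ ⊤ := measure_ball_lt_top.ne
  have e : ∀ t : ℝ, ‖t‖ₑ ^ 2 = ENNReal.ofReal (t ^ 2) := fun t => by
    rw [Real.enorm_eq_ofReal_abs, ← ENNReal.ofReal_pow (abs_nonneg _), sq_abs]
  have h1 : ∀ y, volume B * ENNReal.ofReal (f y ^ 2) ≤ ∫⁻ x in B, ‖f y - f x‖ₑ ^ 2 := fun y => by
    simp only [e]
    rw [← ofReal_integral_eq_lintegral_ofReal (intB (by fun_prop)) (ae_of_all _ fun x => sq_nonneg _),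
      ← ENNReal.ofReal_toReal v1, ← ENNReal.ofReal_mul ENNReal.toReal_nonneg]
    refine ENNReal.ofReal_le_ofReal (le_trans (le_of_eq ?_)
      (monoB (f := fun x => f y ^ 2 - 2 * f y * f x) (by fun_prop) (by fun_prop)
        fun x _ => by nlinarith [sq_nonneg (f x)]))
    rw [integral_sub (intB continuous_const) (intB (by fun_prop)), integral_const_mul, h0]
    simp [Measure.real]
  have h2 := (lintegral_mono h1).trans (poinc2 measB (convex_ball _ _) hf (d := 3) fun x hx y hy => by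
    linarith [dist_triangle_right x y 0, mem_ball.1 hx, mem_ball.1 hy])
  have h3 : ∫⁻ z in B, ‖fderiv ℝ f z‖ₑ ^ 2 ≤ ENNReal.ofReal (∫ y in B, g2 f y) := by
    rw [ofReal_integral_eq_lintegral_ofReal (intB (cont_g2 hf)) (ae_of_all _ (g2_nonneg f))]
    refine lintegral_mono fun z => ?_
    rw [← ofReal_norm, ← ENNReal.ofReal_pow (norm_nonneg _)]
    refine ENNReal.ofReal_le_ofReal ?_
    rw [← Real.le_sqrt (norm_nonneg _) (g2_nonneg f z)]
    refine ContinuousLinearMap.opNorm_le_bound _ (Real.sqrt_nonneg _) fun v => ?_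
    rw [← Real.sqrt_sq (norm_nonneg v), ← Real.sqrt_mul (g2_nonneg f z), Real.norm_eq_abs, mul_comm]
    exact Real.abs_le_sqrt (fderiv_sq_le f z v)
  rw [lintegral_const_mul' _ _ v1, ← ofReal_integral_eq_lintegral_ofReal (intB (by fun_prop))
    (ae_of_all _ fun x => sq_nonneg _)] at h2
  have h4 : volume B * ENNReal.ofReal (∫ y in B, f y ^ 2) ≤
      volume B * ENNReal.ofReal (144 * ∫ y in B, g2 f y) := by
    refine h2.trans ?_
    calc _ ≤ ENNReal.ofReal 3 ^ 2 * (2 ^ 4 * volume B * ENNReal.ofReal (∫ y in B, g2 f y)) := by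
          gcongr
      _ = _ := by
          rw [ENNReal.ofReal_mul (by norm_num), ENNReal.ofReal_ofNat, ENNReal.ofReal_ofNat]; ring
  exact (ENNReal.ofReal_le_ofReal_iff (mul_nonneg (by norm_num)
    (integral_nonneg (g2_nonneg f)))).1 ((ENNReal.mul_le_mul_iff_right v0 v1).1 h4)

theorem hardyB {f : E4 → ℝ} (hf : ContDiff ℝ 1 f) (hc : HasCompactSupport f) :
    ∫ y in B, f y ^ 2 ≤ 4 * ∫ y, g2 f y := by
  have c1 : Continuous fun x : E4 => f x ^ 2 / (‖x‖ ^ 2 + 1) :=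
    (hf.continuous.pow 2).div (by fun_prop) fun x => by positivity
  have i1 : Integrable fun x : E4 => f x ^ 2 / (‖x‖ ^ 2 + 1) :=
    integrable_of_supp hc c1 fun x hx => by simp [image_eq_zero_of_notMem_tsupport hx]
  calc _ ≤ ∫ y in B, 4 * (f y ^ 2 / (‖y‖ ^ 2 + 1)) := by
        refine monoB (hf.continuous.pow 2) (continuous_const.mul c1) fun y hy => ?_
        rw [← mul_div_assoc, le_div_iff₀ (by positivity)]
        have h1 : ‖y‖ ^ 2 + 1 ≤ 4 := by nlinarith [mem_ball_zero_iff.1 hy, norm_nonneg y]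
        nlinarith [sq_nonneg (f y)]
    _ ≤ 4 * ∫ y, f y ^ 2 / (‖y‖ ^ 2 + 1) := by
        rw [integral_const_mul]
        exact mul_le_mul_of_nonneg_left
          (setIntegral_le_integral i1 (ae_of_all _ fun x => by positivity)) (by norm_num)
    _ ≤ _ := mul_le_mul_of_nonneg_left (hardy_k hf hc one_pos) (by norm_num)

/-- **(KORN)** -/
theorem korn : KornStmt := by
  refine ⟨1 / 10 ^ 8, 500000, by norm_num, by norm_num, fun u k hu hk hc h0 h1 r0 r1 => ?_⟩
  have o1 : (1 : WithTop ℕ∞) ≤ ((⊤ : ℕ∞) : WithTop ℕ∞) := by exact_mod_cast le_top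
  have o2 : (2 : WithTop ℕ∞) ≤ ((⊤ : ℕ∞) : WithTop ℕ∞) := WithTop.coe_le_coe.2 le_top
  have u1 := fun i j => sm_pderiv (hu j) i
  have cu := fun j => (hu j).continuous
  have cu1 := fun i j => (u1 i j).continuous
  have cu2 := fun c i j => (sm_pderiv (u1 i j) c).continuous
  have ck := fun i j => (hk i j).continuous
  have ck1 := fun c i j => (sm_pderiv (hk i j) c).continuous
  have d1 := fun i j y => (u1 i j).differentiable (by simp) y
  have c0 : Continuous (q0 u) := by unfold q0; fun_prop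
  have c1 : Continuous (q1 u) := by unfold q1; fun_prop
  have c2 : Continuous (q2 u) := by unfold q2; fun_prop
  have n0 : ∀ y, 0 ≤ q0 u y := fun y => by unfold q0; positivity
  have n1 : ∀ y, 0 ≤ q1 u y := fun y => by unfold q1; positivity
  have n2 : ∀ y, 0 ≤ q2 u y := fun y => by unfold q2; positivity
  set K : E4 → ℝ := fun y => ∑ c, ∑ i, ∑ j, pderiv c (k i j) y ^ 2 with hK
  have cK : Continuous K := by fun_prop
  have eK : K = fun y => ∑ i, ∑ j, g2 (k i j) y := funext fun y => by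
    simp only [hK, g2, Fin.sum_univ_four]; ring
  have ig := fun i j => integrable_g2 ((hk i j).of_le o1) (hc i j)
  have iK : Integrable K := by
    rw [eK]; exact integrable_finsetSum _ fun i _ => integrable_finsetSum _ fun j _ => ig i j
  have kB : ∫ y in B, K y ≤ ∫ y, K y :=
    setIntegral_le_integral iK (ae_of_all _ fun y => by simp only [hK]; positivity)
  -- the three estimates
  have a0 : ∫ y in B, q0 u y ≤ 144 * ∫ y in B, q1 u y := by
    have e : q1 u = fun y => ∑ j, g2 (u j) y := funext fun y => Finset.sum_comm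
    unfold q0
    rw [e, integral_finsetSum _ fun j _ => intB (by fun_prop),
      integral_finsetSum _ fun j _ => intB (cont_g2 ((hu j).of_le o1)), Finset.mul_sum]
    exact Finset.sum_le_sum fun j _ => poincB ((hu j).of_le o1) (h0 j)
  have aK : ∫ y in B, ∑ i, ∑ j, k i j y ^ 2 ≤ 4 * ∫ y, K y := by
    rw [eK, integral_finsetSum _ fun i _ => intB (by fun_prop), integral_finsetSum _ fun i _ =>
      integrable_finsetSum _ fun j _ => ig i j, Finset.mul_sum]
    refine Finset.sum_le_sum fun i _ => ?_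
    rw [integral_finsetSum _ fun j _ => intB (by fun_prop), integral_finsetSum _ fun j _ => ig i j,
      Finset.mul_sum]
    exact Finset.sum_le_sum fun j _ => hardyB ((hk i j).of_le o1) (hc i j)
  set w : Fin 4 → Fin 4 → E4 → ℝ := fun i j y => pderiv i (u j) y - pderiv j (u i) y with hw
  have sw : ∀ i j, ContDiff ℝ 1 (w i j) := fun i j => ((u1 i j).sub (u1 j i)).of_le o1
  have cw := fun i j => (sw i j).continuous
  have cgw := fun i j => cont_g2 (sw i j)
  have aw : ∫ y in B, ∑ i, ∑ j, w i j y ^ 2 ≤ 576 * ∫ y in B, q2 u y := by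
    have b1 : ∫ y in B, ∑ i, ∑ j, w i j y ^ 2 ≤ 144 * ∫ y in B, ∑ i, ∑ j, g2 (w i j) y := by
      rw [integral_finsetSum _ fun i _ => intB (by fun_prop),
        integral_finsetSum _ fun i _ => intB (by fun_prop), Finset.mul_sum]
      refine Finset.sum_le_sum fun i _ => ?_
      rw [integral_finsetSum _ fun j _ => intB (by fun_prop),
        integral_finsetSum _ fun j _ => intB (cgw i j), Finset.mul_sum]
      refine Finset.sum_le_sum fun j _ => poincB (sw i j) ?_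
      rw [hw, integral_sub (intB (cu1 i j)) (intB (cu1 j i)), h1, sub_self]
    have b2 : ∫ y in B, ∑ i, ∑ j, g2 (w i j) y ≤ ∫ y in B, 4 * q2 u y := by
      refine monoB (by fun_prop) (by fun_prop) fun y _ => ?_
      calc _ ≤ ∑ i, ∑ j, ∑ c, (2 * pderiv c (pderiv i (u j)) y ^ 2 +
            2 * pderiv c (pderiv j (u i)) y ^ 2) := by
            refine Finset.sum_le_sum fun i _ => Finset.sum_le_sum fun j _ =>
              Finset.sum_le_sum fun c _ => ?_
            rw [hw, pd_sub c (d1 i j y) (d1 j i y)]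
            nlinarith [sq_nonneg (pderiv c (pderiv i (u j)) y + pderiv c (pderiv j (u i)) y)]
        _ = _ := by simp only [q2, Fin.sum_univ_four]; ring
    rw [integral_const_mul] at b2
    linarith
  have a1 : ∫ y in B, q1 u y ≤ ∫ y in B, ((∑ i, ∑ j, k i j y ^ 2) + 16 / 10 ^ 8 * (q0 u y + q1 u y) +
      1 / 2 * ∑ i, ∑ j, w i j y ^ 2) := by
    refine monoB c1 (by fun_prop) fun y hy => ?_
    calc _ ≤ ∑ i, ∑ j, (k i j y ^ 2 + 1 / 10 ^ 8 * (q0 u y + q1 u y) + 1 / 2 * w i j y ^ 2) := by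
          refine Finset.sum_le_sum fun i _ => Finset.sum_le_sum fun j _ => ?_
          have := r0 y hy i j
          have e : pderiv i (u j) y = (k i j y - rem u k i j y + w i j y) / 2 := by
            simp only [rem, hw]; ring
          rw [e]
          nlinarith [sq_nonneg (k i j y + rem u k i j y),
            sq_nonneg (k i j y - rem u k i j y - w i j y)]
      _ = _ := by simp only [Fin.sum_univ_four]; ring
  have a2 : ∫ y in B, q2 u y ≤
      ∫ y in B, (9 / 2 * K y + 288 / 10 ^ 8 * (q0 u y + q1 u y + q2 u y)) := by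
    refine monoB c2 (by fun_prop) fun y hy => ?_
    have s : ∀ c i j, pderiv c (pderiv i (u j)) y + pderiv c (pderiv j (u i)) y =
        pderiv c (k i j) y - pderiv c (rem u k i j) y := fun c i j => by
      have dk := (hk i j).differentiable (by simp) y
      unfold rem
      rw [pd_sub c (dk.fun_sub (d1 i j y)) (d1 j i y), pd_sub c dk (d1 i j y)]; ring
    have sq : ∀ c i j, (pderiv c (pderiv i (u j)) y + pderiv c (pderiv j (u i)) y) ^ 2 ≤
        2 * pderiv c (k i j) y ^ 2 + 2 / 10 ^ 8 * (q0 u y + q1 u y + q2 u y) := fun c i j => by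
      rw [s]
      nlinarith [r1 y hy c i j, sq_nonneg (pderiv c (k i j) y + pderiv c (rem u k i j) y)]
    calc _ ≤ ∑ c, ∑ i, ∑ j, (3 / 2 * (pderiv c (k i j) y ^ 2 + pderiv i (k c j) y ^ 2 +
            pderiv j (k c i) y ^ 2) + 9 / 2 / 10 ^ 8 * (q0 u y + q1 u y + q2 u y)) := by
          refine Finset.sum_le_sum fun c _ => Finset.sum_le_sum fun i _ =>
            Finset.sum_le_sum fun j _ => ?_
          have s1 := sq c i j
          have s2 := sq i c j
          have s3 := sq j c i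
          rw [pd_comm i c ((hu j).contDiffAt.of_le o2)] at s2
          rw [pd_comm j c ((hu i).contDiffAt.of_le o2), pd_comm j i ((hu c).contDiffAt.of_le o2)] at s3
          generalize pderiv c (pderiv i (u j)) y = X at s1 s2 s3 ⊢
          generalize pderiv c (pderiv j (u i)) y = Y at s1 s2 s3 ⊢
          generalize pderiv i (pderiv j (u c)) y = Z at s1 s2 s3 ⊢
          nlinarith [sq_nonneg ((X + Y) - (X + Z)), sq_nonneg ((X + Y) + (Y + Z)),
            sq_nonneg ((X + Z) + (Y + Z))]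
      _ = _ := by simp only [hK, Fin.sum_univ_four]; ring
  rw [integral_add (intB (by fun_prop)) (intB (by fun_prop)),
    integral_add (intB (by fun_prop)) (intB (by fun_prop)), integral_const_mul, integral_const_mul,
    integral_add (intB c0) (intB c1)] at a1
  rw [integral_add (intB (by fun_prop)) (intB (by fun_prop)), integral_const_mul,
    integral_const_mul] at a2
  rw [integral_add (intB (by fun_prop)) (intB c2), integral_add (intB c0) (intB c1)] at a2 ⊢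
  have p0 : 0 ≤ ∫ y in B, q0 u y := integral_nonneg n0
  have p1 : 0 ≤ ∫ y in B, q1 u y := integral_nonneg n1
  have p2 : 0 ≤ ∫ y in B, q2 u y := integral_nonneg n2
  linarith

end Crest.Agent.N207.Ph.Rg

end
end

-- ▼ part N207/Ph/Rg1
section

/-!
# Row 207, block PHI, leaf RG (helper55): differences of pull-backs, family calculus
-/

set_option autoImplicit false
set_option linter.unusedSectionVars false

open scoped ContDiff Topology
open Set MeasureTheory Filter Metric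
open Crest.GeometryTopology.CoordMetric Crest.GeometryTopology.ChartCurvature

noncomputable section

namespace Crest.Agent.N207.Ph.Rg

open Sk U

/-- the entries of the derivative -/
def dP (P : E4 → E4) (j a : Fin 4) : E4 → ℝ := pderiv j fun z => P z a

/-- pull-back of a `2`-tensor, in components -/
def pl (P : E4 → E4) (T : Fin 4 → Fin 4 → E4 → ℝ) (i j : Fin 4) (y : E4) : ℝ :=
  ∑ a, ∑ b, T a b (P y) * dP P i a y * dP P j b y

/-- Kronecker -/
abbrev kr (a b : Fin 4) : ℝ := (1 : Matrix (Fin 4) (Fin 4) ℝ) a b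

theorem cd_comp {P : E4 → E4} (h : ContDiff ℝ ∞ P) (a : Fin 4) : ContDiff ℝ ∞ fun z => P z a :=
  (EuclideanSpace.proj a : E4 →L[ℝ] ℝ).contDiff.comp h

theorem cd_pd {f : E4 → ℝ} (h : ContDiff ℝ ∞ f) (j : Fin 4) : ContDiff ℝ ∞ (pderiv j f) :=
  contDiff_iff_contDiffAt.2 fun _ => cda_pd h.contDiffAt j

theorem dif {Y : Type*} [NormedAddCommGroup Y] [NormedSpace ℝ Y] {f : E4 → Y}
    (h : ContDiff ℝ ∞ f) : Differentiable ℝ f := h.differentiable (by simp)

theorem dP_eq {P : E4 → E4} {y : E4} (h : DifferentiableAt ℝ P y) (j a : Fin 4) :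
    fderiv ℝ P y (EuclideanSpace.single j 1) a = dP P j a y := by
  have := ((EuclideanSpace.proj a : E4 →L[ℝ] ℝ).hasFDerivAt.comp y h.hasFDerivAt).fderiv
  simp only [dP, pderiv]
  rw [show (fun z => P z a) = (EuclideanSpace.proj a : E4 →L[ℝ] ℝ) ∘ P from rfl, this]
  rfl

theorem pd_comp {T : E4 → ℝ} {P : E4 → E4} {y : E4} (hT : DifferentiableAt ℝ T (P y))
    (hP : DifferentiableAt ℝ P y) (j : Fin 4) :
    pderiv j (fun z => T (P z)) y = ∑ a, pderiv a T (P y) * dP P j a y := by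
  have h : fderiv ℝ (fun z => T (P z)) y = (fderiv ℝ T (P y)).comp (fderiv ℝ P y) :=
    fderiv_comp y hT hP
  rw [pderiv, h, ContinuousLinearMap.comp_apply, fderiv_eq_sum]
  exact Finset.sum_congr rfl fun a _ => by rw [dP_eq hP, mul_comm]

theorem pd_sub {f g : E4 → ℝ} {y : E4} (hf : DifferentiableAt ℝ f y) (hg : DifferentiableAt ℝ g y)
    (j : Fin 4) : pderiv j (fun z => f z - g z) y = pderiv j f y - pderiv j g y := by
  simp only [pderiv, fderiv_fun_sub hf hg, sub_apply]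

theorem pd_coord (j a : Fin 4) (y : E4) : pderiv j (fun z : E4 => z a) y = kr j a := by
  have : fderiv ℝ (fun z : E4 => z a) y = (EuclideanSpace.proj a : E4 →L[ℝ] ℝ) :=
    (EuclideanSpace.proj a : E4 →L[ℝ] ℝ).hasFDerivAt.fderiv
  simp [pderiv, this, Matrix.one_apply, eq_comm]

theorem pbm_fd (P : E4 → E4) (G : MetricField 4) (y : E4) (i j : Fin 4) :
    pbm P G y i j = ∑ a, ∑ b, G (P y) a b * (fderiv ℝ P y (EuclideanSpace.single i 1)) a *
      (fderiv ℝ P y (EuclideanSpace.single j 1)) b := by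
  simp only [pbm, Matrix.of_apply, pullT, AI.evT_two, matT, Matrix.cons_val_zero,
    Matrix.cons_val_one]
  exact Finset.sum_congr rfl fun a _ => Finset.sum_congr rfl fun b _ => by ring

theorem pbm_eq {P : E4 → E4} (h : ContDiff ℝ ∞ P) (G : MetricField 4) (y : E4) (i j : Fin 4) :
    pbm P G y i j = pl P (fun a b z => G z a b) i j y := by
  simp only [pbm_fd, pl, dP_eq (dif h y)]

theorem ric_pbm {P : E4 → E4} (h : ContDiff ℝ ∞ P)
    (hi : ∀ y, Function.Injective (fderiv ℝ P y)) {G : MetricField 4}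
    (hG : IsRiemannianOn G univ) (y : E4) (i j : Fin 4) :
    ricci (pbm P G) y i j = pl P (fun a b z => ricci G z a b) i j y := by
  have p : R202.Tens.Pull (pbm P G) G P univ univ :=
    ⟨isOpen_univ, hG, fun _ _ => mem_univ _, h.contDiffOn, fun y _ i j => pbm_fd P G y i j,
      fun y _ => hi y⟩
  have := p.ricci_pull (mem_univ y) (EuclideanSpace.single i 1) (EuclideanSpace.single j 1)
  simpa [pl, dP_eq (dif h y), Pi.single_apply] using this

variable {ι : Type*} {x : ι → E4} {w N δ : ι → ℝ} {m : ℕ} {T : ι → E4 → ℝ} {P Q : ι → E4 → E4}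

/-- unit scale -/
abbrev PU (x : ι → E4) (m : ℕ) (φ : ι → ℝ) (f : ι → E4 → ℝ) : Prop := PB x (fun _ => 1) m φ f

theorem PU.pd {φ : ι → ℝ} {f : ι → E4 → ℝ} (h : PU x (m + 1) φ f) (j : Fin 4) :
    PU x m φ fun i => pderiv j (f i) :=
  (PB.pd (fun _ => one_pos) h j).wte fun _ => div_one _

theorem PU.of_pd {φ : ι → ℝ} {f : ι → E4 → ℝ} (h0 : PU x 0 φ f)
    (h : ∀ j, PU x m φ fun i => pderiv j (f i)) : PU x (m + 1) φ f :=
  PB.of_pd (fun _ => one_pos) h0 fun j => (h j).wte fun _ => (div_one _).symm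

/-- bounds on the closed ball of radius `2` -/
structure BT (m : ℕ) (w : ι → ℝ) (T : ι → E4 → ℝ) : Prop where
  sm : ∀ i, ContDiff ℝ ∞ (T i)
  bd : ∃ C, 0 ≤ C ∧ ∀ i, ∀ k ≤ m, ∀ z : E4, ‖z‖ ≤ 2 → ‖iteratedFDeriv ℝ k (T i) z‖ ≤ C * w i

theorem BT.pred (h : BT (m + 1) w T) : BT m w T :=
  ⟨h.sm, h.bd.imp fun _ hC => ⟨hC.1, fun i k hk => hC.2 i k (hk.trans (Nat.le_succ m))⟩⟩

theorem BT.pd (h : BT (m + 1) w T) (a : Fin 4) : BT m w fun i => pderiv a (T i) :=
  ⟨fun i => cd_pd (h.sm i) a, h.bd.imp fun _ hC => ⟨hC.1, fun i k hk z hz =>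
    (norm_itd_pd_le (h.sm i).contDiffAt a k).trans (hC.2 i (k + 1) (by omega) z hz)⟩⟩

/-- maps with bounded derivatives -/
structure Mp (x : ι → E4) (m : ℕ) (P : ι → E4 → E4) : Prop where
  sm : ∀ i, ContDiff ℝ ∞ (P i)
  mem : ∀ i, ‖P i (x i)‖ ≤ 2
  d : ∀ j a, PU x m (fun _ => 1) fun i => dP (P i) j a

theorem Mp.pred (h : Mp x (m + 1) P) : Mp x m P := ⟨h.sm, h.mem, fun j a => (h.d j a).pred⟩

theorem BT.comp (h : BT m w T) (hP : Mp x m P) : PU x m w fun i y => T i (P i y) := by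
  have h0 : ∀ {m : ℕ} {T : ι → E4 → ℝ}, BT m w T → PU x 0 w fun i y => T i (P i y) := fun h =>
    ⟨fun i => ((h.sm i).comp (hP.sm i)).contDiffAt, h.bd.imp fun _ hC => ⟨hC.1, fun i => by
      simpa [norm_iteratedFDeriv_zero] using hC.2 i 0 (Nat.zero_le _) _ (hP.mem i)⟩⟩
  induction m generalizing T with
  | zero => exact h0 h
  | succ m ih =>
    refine PU.of_pd (h0 h) fun j => (PB.sum Finset.univ fun a _ =>
      (ih (h.pd a) hP.pred).mulb (hP.pred.d j a)).congr' fun i y => ?_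
    exact pd_comp (dif (h.sm i) _) (dif (hP.sm i) _) j

theorem norm_le_sum (v : E4) : ‖v‖ ≤ ∑ a, |v a| := by
  conv_lhs => rw [show v = ∑ j, v j • EuclideanSpace.single j (1 : ℝ) from by
    ext k; simp [Pi.single_apply]]
  exact (norm_sum_le _ _).trans_eq (Finset.sum_congr rfl fun a _ => by simp [norm_smul])

theorem dP_sub (hP : Mp x m P) (hQ : Mp x m Q) (j a : Fin 4) (i : ι) (y : E4) :
    dP (P i) j a y - dP (Q i) j a y = pderiv j (fun z => P i z a - Q i z a) y :=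
  (pd_sub (dif (cd_comp (hP.sm i) a) y) (dif (cd_comp (hQ.sm i) a) y) j).symm

theorem BT.diff (h : BT (m + 1) w T) (hP : Mp x m P) (hQ : Mp x m Q)
    (hD : ∀ a, PU x m N fun i y => P i y a - Q i y a) :
    PU x m (fun i => w i * N i) fun i y => T i (P i y) - T i (Q i y) := by
  have h0 : ∀ {m : ℕ} {T : ι → E4 → ℝ}, BT (m + 1) w T →
      PU x 0 (fun i => w i * N i) fun i y => T i (P i y) - T i (Q i y) := fun {m T} h => by
    refine ⟨fun i => (((h.sm i).comp (hP.sm i)).sub ((h.sm i).comp (hQ.sm i))).contDiffAt, ?_⟩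
    obtain ⟨C, hC, h1⟩ := h.bd
    choose D hD0 hD1 using fun a => (hD a).val
    refine ⟨C * ∑ a, D a, mul_nonneg hC (Finset.sum_nonneg fun a _ => hD0 a), fun i => ?_⟩
    have h2 := (convex_closedBall (0 : E4) 2).norm_image_sub_le_of_norm_fderiv_le (𝕜 := ℝ)
      (f := T i) (C := C * w i) (fun z _ => dif (h.sm i) z) (fun z hz => by
        simpa [norm_iteratedFDeriv_one] using h1 i 1 (by omega) z (mem_closedBall_zero_iff.1 hz))
      (mem_closedBall_zero_iff.2 (hQ.mem i)) (mem_closedBall_zero_iff.2 (hP.mem i))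
    have h3 : ‖P i (x i) - Q i (x i)‖ ≤ (∑ a, D a) * N i := by
      rw [Finset.sum_mul]
      exact (norm_le_sum _).trans (Finset.sum_le_sum fun a _ => hD1 a i)
    have h4 : 0 ≤ C * w i := (norm_nonneg _).trans (h1 i 0 (Nat.zero_le _) 0 (by simp))
    exact (h2.trans (mul_le_mul_of_nonneg_left h3 h4)).trans_eq (by ring)
  induction m generalizing T with
  | zero => exact h0 h
  | succ m ih =>
    refine PU.of_pd (h0 h) fun j => (PB.sum Finset.univ fun a _ =>
      ((ih (h.pd a) hP.pred hQ.pred (fun a => (hD a).pred)).mulb (hP.pred.d j a)).add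
        (((h.pd a).pred.comp hQ.pred).mul ((hD a).pd j))).congr' fun i y => ?_
    rw [pd_sub (f := fun z => T i (P i z)) (g := fun z => T i (Q i z))
      (dif ((h.sm i).comp (hP.sm i)) y) (dif ((h.sm i).comp (hQ.sm i)) y),
      pd_comp (dif (h.sm i) _) (dif (hP.sm i) _), pd_comp (dif (h.sm i) _) (dif (hQ.sm i) _),
      ← Finset.sum_sub_distrib]
    refine Finset.sum_congr rfl fun a _ => ?_
    rw [← dP_sub hP hQ]
    ring

theorem pl_diff {S : ι → Fin 4 → Fin 4 → E4 → ℝ} (h : ∀ a b, BT (m + 1) w fun i => S i a b)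
    (hP : Mp x m P) (hQ : Mp x m Q) (hD : ∀ a, PU x (m + 1) N fun i y => P i y a - Q i y a)
    (j l : Fin 4) :
    PU x m (fun i => w i * N i) fun i y => pl (P i) (S i) j l y - pl (Q i) (S i) j l y := by
  refine (PB.sum Finset.univ fun a _ => PB.sum Finset.univ fun b _ =>
    ((((h a b).diff hP hQ (fun a => (hD a).pred)).mulb (hP.d j a)).mulb (hP.d l b)).add
      (((h a b).pred.comp hQ).mul ((((hD a).pd j).mulb (hP.d l b)).add
        ((hQ.d j a).bmul ((hD b).pd l))))).congr' fun i y => ?_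
  simp only [pl, ← Finset.sum_sub_distrib, ← dP_sub hP hQ]
  exact Finset.sum_congr rfl fun a _ => Finset.sum_congr rfl fun b _ => by ring

theorem sum_kr (f : Fin 4 → ℝ) (a : Fin 4) : ∑ b, kr a b * f b = f a := by
  simp [Matrix.one_apply]

theorem rem_pu {G : ι → MetricField 4} (h : ∀ a b, BT (m + 1) δ fun i => dv (G i) a b)
    (hP : Mp x m P) (hQ : Mp x m Q) (hp : ∀ j a, PU x m δ fun i y => dP (P i) j a y - kr j a)
    (hq : ∀ j a, PU x m δ fun i y => dP (Q i) j a y - kr j a)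
    (hD : ∀ a, PU x (m + 1) N fun i y => P i y a - Q i y a) (j l : Fin 4) :
    PU x m (fun i => δ i * N i) fun i => rem (fun a z => P i z a - Q i z a)
      (fun a b z => pbm (P i) (G i) z a b - pbm (Q i) (G i) z a b) j l := by
  refine ((pl_diff h hP hQ hD j l).add (PB.sum Finset.univ fun a _ =>
    ((hp l a).mul ((hD a).pd j)).add ((hq j a).mul ((hD a).pd l)))).congr' fun i y => ?_
  have e : ∀ R : E4 → E4, pl R (fun a b z => G i z a b) j l y =
      pl R (dv (G i)) j l y + ∑ a, dP R j a y * dP R l a y := fun R => by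
    simp only [pl, Sk.dv, ← Finset.sum_add_distrib]
    refine Finset.sum_congr rfl fun a _ => ?_
    rw [← sum_kr (fun b => dP R j a y * dP R l b y) a, ← Finset.sum_add_distrib]
    exact Finset.sum_congr rfl fun b _ => by simp only [kr]; ring
  simp only [rem, pbm_eq (hP.sm i), pbm_eq (hQ.sm i), e, ← dP_sub hP hQ]
  rw [← sum_kr (fun a => dP (P i) j a y - dP (Q i) j a y) l,
    ← sum_kr (fun a => dP (P i) l a y - dP (Q i) l a y) j]
  simp only [Fin.sum_univ_four]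
  ring

end Crest.Agent.N207.Ph.Rg

end
end

-- ▼ part N207/Ph/Rg2
section

/-!
# Row 207, block PHI, leaf RG (helper55): the pointwise estimates
-/

set_option autoImplicit false
set_option linter.unusedSectionVars false

open scoped ContDiff Topology
open Set MeasureTheory Filter Metric
open Crest.GeometryTopology.CoordMetric Crest.GeometryTopology.ChartCurvature

noncomputable section

namespace Crest.Agent.N207.Ph.Rg

open Sk U G

/-- `P` inside, `Q` outside -/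
def gm (P Q : E4 → E4) (z : E4) : E4 := P z + up (6 / 5) (7 / 5) z • (Q z - P z)

/-- components of `P - Q` -/
def du (P Q : E4 → E4) : Fin 4 → E4 → ℝ := fun a z => P z a - Q z a

/-- components of `G₁ - G₂` -/
def dk (G1 G2 : MetricField 4) : Fin 4 → Fin 4 → E4 → ℝ := fun a b z => G1 z a b - G2 z a b

theorem ric_jg : ∃ C : ℝ, 0 < C ∧ ∀ (G : MetricField 4) (x : E4) (s ε : ℝ),
    IsRiemannianOn G univ → 0 < s → ε ≤ 1 / 8 → JG 3 G x s ε →
    ∀ k ≤ 1, ∀ a b, J1 k (fun y => ricci G y a b) x s (C * (ε / s ^ 2)) := by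
  have h := Dat.mw 3 (fun _ => 1) (1 / 8)
  have hψ : ∀ d : Dat 3 (fun _ => 1) (1 / 8), 0 ≤ d.w / d.s ^ 2 := fun d =>
    div_nonneg d.nn (sq_nonneg _)
  obtain ⟨C, hC, h1⟩ := unif (κ := Fin 4 × Fin 4) (ι := Dat 3 (fun _ => 1) (1 / 8))
    (P := fun p d C => ∀ k ≤ 1, J1 k (fun y => ricci d.G y p.1 p.2) d.x d.s (C * (d.w / d.s ^ 2)))
    (fun p d C D hCD hP k hk => le_trans (hP k hk) (mul_le_mul_of_nonneg_right hCD (hψ d)))
    fun p => by
      obtain ⟨C, -, h2⟩ := (MW.ricci (m := 1) h p.1 p.2).itd h.pos hψ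
      exact ⟨C, fun d k hk => h2 k hk d⟩
  exact ⟨C, hC, fun G x s ε hG hs hε hJ k hk a b => h1 (a, b) ⟨G, univ, x, s, ε, hG, mem_univ _, hs,
    jg_nonneg hJ, hε, U.jg_mono hJ (Nat.zero_le _) hε, fun k hk i j => by
      simpa using hJ k hk i j⟩ k hk⟩

variable {P Q : E4 → E4} {δ : ℝ}

theorem Nr.jb (h : Nr P δ) (y : E4) : JB 3 (fun z => P z - z) y (‖y‖ + 1) (δ * (‖y‖ + 1)) :=
  ⟨(h.sm.sub contDiff_id).contDiffAt, h.jet y⟩

theorem Nr.val (h : Nr P δ) (y : E4) : ‖P y - y‖ ≤ δ * (‖y‖ + 1) := (h.jb y).val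

theorem Nr.nonneg (h : Nr P δ) : 0 ≤ δ := by simpa using (h.jb 0).nonneg

theorem Nr.mono (h : Nr P δ) {δ' : ℝ} (hδ : δ ≤ δ') : Nr P δ' :=
  ⟨h.sm, fun y => ((h.jb y).mono (by gcongr)).bd⟩

theorem Nr.of_nid {ψ : E4 ≃ₜ E4} (h : Nid 3 ψ δ) : Nr ψ δ := ⟨h.sm, h.jet⟩

theorem Nr.norm_le (h : Nr P δ) (hδ : δ ≤ 1 / 8) {y : E4} (hy : ‖y‖ ≤ 3 / 2) : ‖P y‖ < 2 := by
  have h1 := h.val y
  have h2 := norm_sub_norm_le (P y) y
  nlinarith [norm_nonneg y]

theorem Nr.inj (h : Nr P δ) (hδ : δ ≤ 1 / 2) (y : E4) : Function.Injective (fderiv ℝ P y) := by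
  have h1 : ‖fderiv ℝ (fun z => P z - z) y‖ ≤ δ := ((h.jb y).fderiv (by positivity)).val
  rw [injective_iff_map_eq_zero]
  intro v hv
  rw [fderiv_eq_add h.sm] at hv
  have h2 : v = -fderiv ℝ (fun z => P z - z) y v := eq_neg_of_add_eq_zero_left hv
  have h3 := (fderiv ℝ (fun z => P z - z) y).le_opNorm v
  rw [← norm_neg, ← h2] at h3
  have : ‖v‖ ≤ 0 := by nlinarith [norm_nonneg v]
  exact norm_le_zero_iff.1 this

theorem Nr.itd (h : Nr P δ) {y : E4} (hy : ‖y‖ ≤ 3 / 2) (a : Fin 4) :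
    JB 3 (fun z => P z a - z a) y 1 (5 / 2 * δ) := by
  have h1 := (h.jb y).clm (EuclideanSpace.proj a : E4 →L[ℝ] ℝ) (by positivity) (l := 1)
    (ContinuousLinearMap.opNorm_le_bound _ zero_le_one fun v => by
      simpa using PiLp.norm_apply_le v a)
  have h2 := h1.scale (s' := 1) (l := 1) (by positivity) zero_le_one le_rfl
    (by linarith [norm_nonneg y])
  refine h2.mono ?_
  nlinarith [h.nonneg]

theorem nr_gm : ∃ C : ℝ, 1 ≤ C ∧ ∀ (P Q : E4 → E4) (δ : ℝ), Nr P δ → Nr Q δ → Nr (gm P Q) (C * δ) := by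
  obtain ⟨C, hC, h⟩ := jb_up 3 7
  have hu : ∀ y : E4, JB 3 (up (6 / 5) (7 / 5)) y (‖y‖ + 1) (2 ^ 3 * C) := fun y => by
    by_cases hy : ‖y‖ ≤ 7 / 5
    · exact (h _ _ (by norm_num) (by norm_num) (by norm_num) y hy).scale (by norm_num)
        (by positivity) one_le_two (by linarith)
    · refine (JB.const (1 : ℝ) (by simp; linarith)).congr ?_
      filter_upwards [(isOpen_lt continuous_const continuous_norm).mem_nhds (not_le.1 hy)] with z hz
      exact up_eq_one (by norm_num) (by norm_num) (le_of_lt hz)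
  refine ⟨1 + 128 * C, by linarith, fun P Q δ hP hQ => ⟨hP.sm.add ((up_smooth _ _).smul
    (hQ.sm.sub hP.sm)), fun y => ?_⟩⟩
  have hs : 0 ≤ ‖y‖ + 1 := by positivity
  have h1 := (hP.jb y).clm (-ContinuousLinearMap.id ℝ E4) hs (l := 1)
    (by rw [norm_neg]; exact ContinuousLinearMap.norm_id_le)
  have h2 := (hP.jb y).add hs ((hu y).smul hs ((hQ.jb y).add hs h1))
  refine ((h2.congr (Eventually.of_forall fun z => ?_)).mono (le_of_eq (by ring))).bd
  simp only [gm, neg_apply, ContinuousLinearMap.id_apply]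
  module

section fam

variable {ι : Type*} {x : ι → E4} {δ : ι → ℝ} {P Q : ι → E4 → E4} {G : ι → MetricField 4}

theorem nr_pu (h : ∀ i, Nr (P i) (δ i)) (hx : ∀ i, ‖x i‖ ≤ 3 / 2) (j a : Fin 4) :
    PU x 2 δ fun i y => dP (P i) j a y - kr j a := by
  have h1 : PU x 3 δ fun i z => P i z a - z a :=
    PB.of_itd (fun _ => one_pos) (fun i => ((h i).itd (hx i) a).sm) fun k hk =>
      ⟨5 / 2, by norm_num, fun i => ((h i).itd (hx i) a).bd k hk⟩
  refine (h1.pd j).congr' fun i y => ?_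
  rw [pd_sub (g := fun z : E4 => z a) (dif (cd_comp (h i).sm a) y)
    (dif (cd_comp contDiff_id a) y), pd_coord]
  rfl

theorem nr_mp (h : ∀ i, Nr (P i) (δ i)) (hx : ∀ i, ‖x i‖ ≤ 3 / 2) (hδ : ∀ i, δ i ≤ 1 / 8) :
    Mp x 2 P :=
  ⟨fun i => (h i).sm, fun i => ((h i).norm_le (hδ i) (hx i)).le, fun j a =>
    (((nr_pu h hx j a).wt' fun i => (hδ i).trans (by norm_num)).add (PB.const (kr j a))).congr'
      fun _ _ => by ring⟩

theorem le_of_j1 {Y : Type*} [NormedAddCommGroup Y] [NormedSpace ℝ Y] {k : ℕ} {f : E4 → Y} {z : E4}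
    {c : ℝ} (h : J1 k f z (‖z‖ + 1) c) : ‖iteratedFDeriv ℝ k f z‖ ≤ c :=
  (le_mul_of_one_le_right (norm_nonneg _) (one_le_pow₀ (by linarith [norm_nonneg z]))).trans h

theorem bt_dv (hG : ∀ i, IsRiemannianOn (G i) univ) (h : ∀ i, Sml 3 (G i) (δ i)) (a b : Fin 4) :
    BT 3 δ fun i => dv (G i) a b :=
  ⟨fun i => (contDiffOn_univ.1 ((hG i).contDiffOn a b)).sub contDiff_const, 1, zero_le_one,
    fun i k hk z _ => by simpa using le_of_j1 (h i z k hk a b)⟩

theorem bt_ric (hG : ∀ i, IsRiemannianOn (G i) univ) (h : ∀ i, Sml 3 (G i) (δ i))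
    (hδ : ∀ i, δ i ≤ 1 / 8) (a b : Fin 4) : BT 1 δ fun i y => ricci (G i) y a b := by
  obtain ⟨C, hC, h1⟩ := ric_jg
  refine ⟨fun i => contDiffOn_univ.1 (AI.smT_ricT (hG i) ![a, b]), C, hC.le, fun i k hk z _ =>
    (le_of_j1 (h1 _ z _ _ (hG i) (by positivity) (hδ i) (h i z) k hk a b)).trans ?_⟩
  exact mul_le_mul_of_nonneg_left (div_le_self (jg_nonneg (h i z))
    (one_le_pow₀ (by linarith [norm_nonneg z]))) hC.le

variable {u : ι → Fin 4 → E4 → ℝ}

theorem q0_nn (u : Fin 4 → E4 → ℝ) (y : E4) : 0 ≤ q0 u y := by unfold q0; positivity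
theorem q1_nn (u : Fin 4 → E4 → ℝ) (y : E4) : 0 ≤ q1 u y := by unfold q1; positivity
theorem q2_nn (u : Fin 4 → E4 → ℝ) (y : E4) : 0 ≤ q2 u y := by unfold q2; positivity

theorem le_q0 (u : Fin 4 → E4 → ℝ) (y : E4) (a : Fin 4) : u a y ^ 2 ≤ q0 u y :=
  Finset.single_le_sum (f := fun j => u j y ^ 2) (fun _ _ => sq_nonneg _) (Finset.mem_univ a)

theorem le_q1 (u : Fin 4 → E4 → ℝ) (y : E4) (j a : Fin 4) : pderiv j (u a) y ^ 2 ≤ q1 u y :=
  (Finset.single_le_sum (f := fun a => pderiv j (u a) y ^ 2) (fun _ _ => sq_nonneg _)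
    (Finset.mem_univ a)).trans (Finset.single_le_sum (f := fun j => ∑ a, pderiv j (u a) y ^ 2)
      (fun _ _ => by positivity) (Finset.mem_univ j))

theorem le_q2 (u : Fin 4 → E4 → ℝ) (y : E4) (c j a : Fin 4) :
    pderiv c (pderiv j (u a)) y ^ 2 ≤ q2 u y :=
  (le_q1 (fun a => pderiv j (u a)) y c a).trans' le_rfl |>.trans' le_rfl |>.trans (by
    unfold q1 q2
    exact Finset.sum_le_sum fun c _ => Finset.single_le_sum
      (f := fun j => ∑ a, pderiv c (pderiv j (u a)) y ^ 2) (fun _ _ => by positivity)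
      (Finset.mem_univ j))

theorem pu_zero {f : ι → E4 → ℝ} {S : ι → ℝ} (hf : ∀ i, ContDiff ℝ ∞ (f i))
    (h : ∀ i, f i (x i) ^ 2 ≤ S i) : PU x 0 (fun i => √(S i)) f :=
  ⟨fun i => (hf i).contDiffAt, 1, zero_le_one, fun i => by
    simpa using Real.abs_le_sqrt (h i)⟩

theorem pu_one (hu : ∀ i a, ContDiff ℝ ∞ (u i a)) (a : Fin 4) :
    PU x 1 (fun i => √(q0 (u i) (x i) + q1 (u i) (x i))) fun i => u i a :=
  PU.of_pd (pu_zero (fun i => hu i a) fun i => by linarith [le_q0 (u i) (x i) a, q1_nn (u i) (x i)])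
    fun j => pu_zero (fun i => cd_pd (hu i a) j) fun i => by
      linarith [le_q1 (u i) (x i) j a, q0_nn (u i) (x i)]

theorem pu_two (hu : ∀ i a, ContDiff ℝ ∞ (u i a)) (a : Fin 4) :
    PU x 2 (fun i => √(q0 (u i) (x i) + q1 (u i) (x i) + q2 (u i) (x i))) fun i => u i a :=
  PU.of_pd (pu_zero (fun i => hu i a) fun i => by
      linarith [le_q0 (u i) (x i) a, q1_nn (u i) (x i), q2_nn (u i) (x i)])
    fun j => PU.of_pd (pu_zero (fun i => cd_pd (hu i a) j) fun i => by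
      linarith [le_q1 (u i) (x i) j a, q0_nn (u i) (x i), q2_nn (u i) (x i)])
    fun c => pu_zero (fun i => cd_pd (cd_pd (hu i a) j) c) fun i => by
      linarith [le_q2 (u i) (x i) c j a, q0_nn (u i) (x i), q1_nn (u i) (x i)]

theorem sq_unif {κ : Type*} [Finite κ] {f : κ → ι → E4 → ℝ} {S : ι → ℝ} (hS : ∀ i, 0 ≤ S i)
    (h : ∀ a, PU x 0 (fun i => δ i * √(S i)) (f a)) :
    ∃ C, 0 < C ∧ ∀ a i, f a i (x i) ^ 2 ≤ C * (δ i ^ 2 * S i) := by
  refine unif (P := fun a i C => f a i (x i) ^ 2 ≤ C * (δ i ^ 2 * S i)) (fun a i C D hCD hP =>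
    hP.trans (mul_le_mul_of_nonneg_right hCD (mul_nonneg (sq_nonneg _) (hS i)))) fun a => ?_
  obtain ⟨C, -, h1⟩ := (h a).val
  refine ⟨C ^ 2, fun i => ?_⟩
  rw [← sq_abs]
  refine (pow_le_pow_left₀ (abs_nonneg _) (h1 i) 2).trans_eq ?_
  rw [mul_pow, mul_pow, Real.sq_sqrt (hS i)]

end fam

/-- the data of the pointwise estimates -/
structure Dt where
  G : MetricField 4
  P : E4 → E4
  Q : E4 → E4
  δ : ℝ
  y : E4
  riem : IsRiemannianOn G univ
  sml : Sml 3 G δ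
  nP : Nr P δ
  nQ : Nr Q δ
  nG : Nr (gm P Q) δ
  le : δ ≤ 1 / 8
  mem : ‖y‖ ≤ 3 / 2

theorem du_sm (hP : ContDiff ℝ ∞ P) (hQ : ContDiff ℝ ∞ Q) (a : Fin 4) : ContDiff ℝ ∞ (du P Q a) :=
  (cd_comp hP a).sub (cd_comp hQ a)

theorem pw : ∃ C : ℝ, 0 < C ∧ ∀ d : Dt,
    (∀ i j, rem (du d.P d.Q) (dk (pbm d.P d.G) (pbm d.Q d.G)) i j d.y ^ 2 ≤
      C * (d.δ ^ 2 * (q0 (du d.P d.Q) d.y + q1 (du d.P d.Q) d.y))) ∧
    (∀ c i j, pderiv c (rem (du d.P d.Q) (dk (pbm d.P d.G) (pbm d.Q d.G)) i j) d.y ^ 2 ≤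
      C * (d.δ ^ 2 * (q0 (du d.P d.Q) d.y + q1 (du d.P d.Q) d.y + q2 (du d.P d.Q) d.y))) ∧
    (∀ i j, (ricci (pbm d.P d.G) d.y i j - ricci (pbm d.Q d.G) d.y i j) ^ 2 ≤
      C * (d.δ ^ 2 * (q0 (du d.P d.Q) d.y + q1 (du d.P d.Q) d.y))) ∧
    ∀ c i j, pderiv c (dk (pbm (gm d.P d.Q) d.G) (pbm d.Q d.G) i j) d.y ^ 2 ≤
      C * (q0 (du d.P d.Q) d.y + q1 (du d.P d.Q) d.y + q2 (du d.P d.Q) d.y) := by
  have hP := nr_mp (ι := Dt) (fun d => d.nP) (fun d => d.mem) fun d => d.le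
  have hQ := nr_mp (ι := Dt) (fun d => d.nQ) (fun d => d.mem) fun d => d.le
  have hR := nr_mp (ι := Dt) (fun d => d.nG) (fun d => d.mem) fun d => d.le
  have hp := nr_pu (ι := Dt) (fun d => d.nP) fun d => d.mem
  have hq := nr_pu (ι := Dt) (fun d => d.nQ) fun d => d.mem
  have hr := nr_pu (ι := Dt) (fun d => d.nG) fun d => d.mem
  have hg := bt_dv (ι := Dt) (fun d => d.riem) fun d => d.sml
  have hc := bt_ric (ι := Dt) (fun d => d.riem) (fun d => d.sml) fun d => d.le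
  have hu : ∀ (d : Dt) a, ContDiff ℝ ∞ (du d.P d.Q a) := fun d => du_sm d.nP.sm d.nQ.sm
  have u1 := pu_one (x := fun d : Dt => d.y) hu
  have u2 := pu_two (x := fun d : Dt => d.y) hu
  have s1 : ∀ d : Dt, 0 ≤ q0 (du d.P d.Q) d.y + q1 (du d.P d.Q) d.y := fun d =>
    add_nonneg (q0_nn _ _) (q1_nn _ _)
  have s2 : ∀ d : Dt, 0 ≤ q0 (du d.P d.Q) d.y + q1 (du d.P d.Q) d.y + q2 (du d.P d.Q) d.y :=
    fun d => add_nonneg (s1 d) (q2_nn _ _)
  obtain ⟨C1, p1, h1⟩ := sq_unif (κ := Fin 4 × Fin 4) s1 fun p => rem_pu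
    (fun a b => (hg a b).pred.pred) hP.pred.pred hQ.pred.pred (fun j a => (hp j a).pred.pred)
    (fun j a => (hq j a).pred.pred) u1 p.1 p.2
  obtain ⟨C2, p2, h2⟩ := sq_unif (κ := Fin 4 × Fin 4 × Fin 4) s2 fun p => (rem_pu
    (fun a b => (hg a b).pred) hP.pred hQ.pred (fun j a => (hp j a).pred)
    (fun j a => (hq j a).pred) u2 p.2.1 p.2.2).pd p.1
  obtain ⟨C3, p3, h3⟩ := sq_unif (κ := Fin 4 × Fin 4) s1 fun p =>
    pl_diff (S := fun (d : Dt) a b y => ricci d.G y a b) hc hP.pred.pred hQ.pred.pred u1 p.1 p.2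
  obtain ⟨Cu, hCu, hup⟩ := exists_jb_fixed (up_smooth (6 / 5) (7 / 5)) 2 (3 / 2)
  have w1 : PU (fun d : Dt => d.y) 2 (fun _ => 1) fun _ => up (6 / 5) (7 / 5) :=
    PB.of_itd (fun _ => one_pos) (fun _ => (up_smooth _ _).contDiffAt) fun k hk =>
      ⟨Cu, by linarith, fun d => by simpa using (hup 1 one_pos d.y (by simpa using d.mem)).bd k hk⟩
  have u3 : ∀ a, PU (fun d : Dt => d.y) 2 _ fun d y => gm d.P d.Q y a - d.Q y a := fun a =>
    (((PB.const 1).sub w1).bmul (u2 a)).congr' fun d y => by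
      simp only [gm, du, PiLp.add_apply, PiLp.smul_apply, PiLp.sub_apply, smul_eq_mul]; ring
  obtain ⟨C4, p4, h4⟩ := sq_unif (κ := Fin 4 × Fin 4 × Fin 4) (δ := fun _ => 1) (x := Dt.y) s2
    (f := fun p d => pderiv p.1 (dk (pbm (gm d.P d.Q) d.G) (pbm d.Q d.G) p.2.1 p.2.2)) fun p => by
    refine PU.pd (PB.wte ?_ fun _ => (one_mul _).symm) p.1
    refine ((((rem_pu (fun a b => (hg a b).pred) hR.pred hQ.pred (fun j a => (hr j a).pred)
      (fun j a => (hq j a).pred) u3 p.2.1 p.2.2).wt' fun d => ?_).add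
      ((u3 p.2.2).pd p.2.1)).add ((u3 p.2.1).pd p.2.2)).congr' fun d y => ?_
    · exact mul_le_of_le_one_left (Real.sqrt_nonneg _) (d.le.trans (by norm_num))
    · simp only [rem, dk]; ring
  refine ⟨C1 + C2 + C3 + C4, by positivity, fun d => ⟨fun i j => ?_, fun c i j => ?_, fun i j => ?_,
    fun c i j => ?_⟩⟩
  · exact (h1 (i, j) d).trans (mul_le_mul_of_nonneg_right (by linarith)
      (mul_nonneg (sq_nonneg _) (s1 d)))
  · exact (h2 (c, i, j) d).trans (mul_le_mul_of_nonneg_right (by linarith)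
      (mul_nonneg (sq_nonneg _) (s2 d)))
  · rw [ric_pbm d.nP.sm (d.nP.inj (d.le.trans (by norm_num))) d.riem,
      ric_pbm d.nQ.sm (d.nQ.inj (d.le.trans (by norm_num))) d.riem]
    exact (h3 (i, j) d).trans (mul_le_mul_of_nonneg_right (by linarith)
      (mul_nonneg (sq_nonneg _) (s1 d)))
  · have := h4 (c, i, j) d
    rw [one_pow, one_mul] at this
    exact this.trans (mul_le_mul_of_nonneg_right (by linarith) (s2 d))

end Crest.Agent.N207.Ph.Rg

end
end

-- ▼ part N207/Ph/Rg3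
section

/-!
# Row 207, block PHI, leaf RG (helper55): the integrated estimates
-/

set_option autoImplicit false
set_option linter.unusedSectionVars false

open scoped ContDiff Topology
open Set MeasureTheory Filter Metric
open Crest.GeometryTopology.CoordMetric Crest.GeometryTopology.ChartCurvature

noncomputable section

namespace Crest.Agent.N207.Ph.Rg

open Sk U G

variable {G G1 G2 G3 : MetricField 4} {P Q : E4 → E4} {δ : ℝ}

theorem sml_mono {m l : ℕ} {δ' : ℝ} (h : Sml m G δ) (hl : l ≤ m) (hδ : δ ≤ δ') : Sml l G δ' :=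
  fun y => U.jg_mono (h y) hl hδ

theorem ent_sm (h : Fl G) (i j : Fin 4) : ContDiff ℝ ∞ fun z => G z i j :=
  contDiffOn_univ.1 (h.riem.contDiffOn i j)

theorem dk_sm (h1 : Fl G1) (h2 : Fl G2) (i j : Fin 4) : ContDiff ℝ ∞ (dk G1 G2 i j) :=
  (ent_sm h1 i j).sub (ent_sm h2 i j)

theorem dk_out (h1 : Fl G1) (h2 : Fl G2) :
    ∃ R : ℝ, ∀ i j, ∀ x : E4, R < ‖x‖ → dk G1 G2 i j x = 0 := by
  obtain ⟨R1, a⟩ := h1.flat
  obtain ⟨R2, b⟩ := h2.flat
  exact ⟨max R1 R2, fun i j x hx => by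
    simp [dk, a x ((le_max_left _ _).trans hx.le), b x ((le_max_right _ _).trans hx.le)]⟩

/-- the integrand of `H1 G₂ G₁` -/
def hh (G1 G2 : MetricField 4) (x : E4) : ℝ := ∑ c, ∑ i, ∑ j, pderiv c (dk G1 G2 i j) x ^ 2

theorem H1_eq (G1 G2 : MetricField 4) : H1 G2 G1 = ∫ x, hh G1 G2 x := rfl

theorem hh_nn (G1 G2 : MetricField 4) (x : E4) : 0 ≤ hh G1 G2 x := by unfold hh; positivity

theorem hh_int (h1 : Fl G1) (h2 : Fl G2) : Integrable (hh G1 G2) := by
  obtain ⟨R, hR⟩ := dk_out h1 h2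
  refine integrable_of_ball R (continuous_finsetSum _ fun c _ => continuous_finsetSum _ fun i _ =>
    continuous_finsetSum _ fun j _ => (cd_pd (dk_sm h1 h2 i j) c).continuous.pow 2) fun x hx => ?_
  simp [hh, pderiv_zero_out (hR _ _) _ x hx]

theorem H1_tri (h1 : Fl G1) (h2 : Fl G2) (h3 : Fl G3) : H1 G1 G3 ≤ 2 * H1 G2 G1 + 2 * H1 G2 G3 := by
  rw [H1_eq, H1_eq, H1_eq, ← integral_const_mul, ← integral_const_mul,
    ← integral_add ((hh_int h1 h2).const_mul 2) ((hh_int h3 h2).const_mul 2)]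
  refine integral_mono (hh_int h3 h1) (((hh_int h1 h2).const_mul 2).add
    ((hh_int h3 h2).const_mul 2)) fun x => ?_
  simp only [hh, Finset.mul_sum, ← Finset.sum_add_distrib]
  refine Finset.sum_le_sum fun c _ => Finset.sum_le_sum fun i _ => Finset.sum_le_sum fun j _ => ?_
  have e : dk G3 G1 i j = fun z => dk G3 G2 i j z - dk G1 G2 i j z := by
    funext z; simp only [dk]; ring
  rw [e, pd_sub (dif (dk_sm h3 h2 i j) x) (dif (dk_sm h1 h2 i j) x)]
  nlinarith [sq_nonneg (pderiv c (dk G3 G2 i j) x + pderiv c (dk G1 G2 i j) x)]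

/-- `|u|² + |∂u|² + |∂²u|²` -/
def qq (u : Fin 4 → E4 → ℝ) (y : E4) : ℝ := q0 u y + q1 u y + q2 u y

theorem qq_nn (u : Fin 4 → E4 → ℝ) (y : E4) : 0 ≤ qq u y :=
  add_nonneg (add_nonneg (q0_nn _ _) (q1_nn _ _)) (q2_nn _ _)

theorem int_B {f : E4 → ℝ} (h : Continuous f) : IntegrableOn f B :=
  (h.continuousOn.integrableOn_compact (isCompact_closedBall 0 (3 / 2))).mono_set
    ball_subset_closedBall

theorem qq_int {u : Fin 4 → E4 → ℝ} (hu : ∀ a, ContDiff ℝ ∞ (u a)) : IntegrableOn (qq u) B :=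
  int_B (((continuous_finsetSum _ fun j _ => (hu j).continuous.pow 2).add
    (continuous_finsetSum _ fun i _ => continuous_finsetSum _ fun j _ =>
      (cd_pd (hu j) i).continuous.pow 2)).add
    (continuous_finsetSum _ fun c _ => continuous_finsetSum _ fun i _ =>
      continuous_finsetSum _ fun j _ => (cd_pd (cd_pd (hu j) i) c).continuous.pow 2))

theorem mB : MeasurableSet B := measurableSet_ball

theorem mem_B {y : E4} : y ∈ B ↔ ‖y‖ < 3 / 2 := mem_ball_zero_iff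

theorem sum2_le {f : Fin 4 → Fin 4 → ℝ} {c : ℝ} (h : ∀ i j, f i j ≤ c) :
    ∑ i, ∑ j, f i j ≤ 16 * c :=
  (Finset.sum_le_sum fun i _ => Finset.sum_le_sum fun j _ => h i j).trans_eq (by simp; ring)

theorem rd_le (h1 : Fl G1) (h2 : Fl G2) {q : E4 → ℝ} (hq : IntegrableOn q B) (h0 : ∀ y, 0 ≤ q y)
    (h : ∀ y ∈ B, ∀ i j, (ricci G1 y i j - ricci G2 y i j) ^ 2 ≤ q y) :
    RD G2 G1 ≤ 2 * RL G1 (6 / 5) + 2 * RL G2 (6 / 5) + 36 * ∫ y in B, q y := by
  have mS : MeasurableSet {x : E4 | 6 / 5 ≤ ‖x‖} :=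
    (isClosed_le continuous_const continuous_norm).measurableSet
  have i1 := (h1.ric_int.indicator mS).const_mul 2
  have i2 := (h2.ric_int.indicator mS).const_mul 2
  have i3 := ((integrable_indicator_iff mB).2 hq).const_mul 36
  rw [RL, RL, ← integral_indicator mS, ← integral_indicator mS, ← integral_indicator mB,
    ← integral_const_mul, ← integral_const_mul, ← integral_const_mul, ← integral_add' i1 i2,
    ← integral_add' (i1.add i2) i3]
  refine integral_mono_of_nonneg (Eventually.of_forall fun x => by positivity)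
    ((i1.add i2).add i3) (Eventually.of_forall fun x => ?_)
  have n3 : 0 ≤ B.indicator q x := indicator_nonneg (fun y _ => h0 y) x
  by_cases hx : 6 / 5 ≤ ‖x‖
  · have hx' : x ∈ {x : E4 | 6 / 5 ≤ ‖x‖} := hx
    have : ∑ i, ∑ j, (ricci G1 x i j - ricci G2 x i j) ^ 2 ≤
        2 * ∑ i, ∑ j, ricci G1 x i j ^ 2 + 2 * ∑ i, ∑ j, ricci G2 x i j ^ 2 := by
      simp only [Finset.mul_sum, ← Finset.sum_add_distrib]
      exact Finset.sum_le_sum fun i _ => Finset.sum_le_sum fun j _ => by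
        nlinarith [sq_nonneg (ricci G1 x i j + ricci G2 x i j)]
    have := mul_le_mul_of_nonneg_left this (sq_nonneg ‖x‖)
    simp only [Pi.add_apply, indicator_of_mem hx']
    linarith
  · have hx' : x ∉ {x : E4 | 6 / 5 ≤ ‖x‖} := hx
    have hB : x ∈ B := mem_B.2 (by linarith [not_le.1 hx])
    have h3 := sum2_le (h x hB)
    have h4 : ‖x‖ ^ 2 ≤ 9 / 4 := by nlinarith [mem_B.1 hB, norm_nonneg x]
    have h5 := mul_le_mul h4 h3 (by positivity) (by norm_num)
    simp only [Pi.add_apply, indicator_of_notMem hx', indicator_of_mem hB]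
    linarith

theorem pbm_ev {P' : E4 → E4} {y : E4} (h : P =ᶠ[𝓝 y] P') : pbm P G =ᶠ[𝓝 y] pbm P' G :=
  h.eventuallyEq_nhds.mono fun z hz => by
    ext i j
    simp only [pbm_fd, hz.fderiv_eq, hz.eq_of_nhds]

theorem gm_in {y : E4} (hy : ‖y‖ < 6 / 5) : gm P Q =ᶠ[𝓝 y] P := by
  filter_upwards [(isOpen_lt continuous_norm continuous_const).mem_nhds hy] with z hz
  simp [gm, up_eq_zero (a := 6 / 5) (b := 7 / 5) (by norm_num) (by norm_num) (le_of_lt hz)]

theorem gm_eq {z : E4} (hz : 7 / 5 ≤ ‖z‖) : gm P Q z = Q z := by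
  simp [gm, up_eq_one (a := 6 / 5) (b := 7 / 5) (by norm_num) (by norm_num) hz]

theorem gm_out {y : E4} (hy : 7 / 5 < ‖y‖) : gm P Q =ᶠ[𝓝 y] Q := by
  filter_upwards [(isOpen_lt continuous_const continuous_norm).mem_nhds hy] with z hz
  exact gm_eq (le_of_lt hz)

theorem h1_le {q : E4 → ℝ} (hq : IntegrableOn q B)
    (h : ∀ y ∈ B, ∀ c i j, pderiv c (dk (pbm (gm P Q) G) (pbm Q G) i j) y ^ 2 ≤ q y) :
    H1 (pbm Q G) (pbm (gm P Q) G) ≤ 64 * ∫ y in B, q y := by
  rw [H1_eq, ← integral_indicator mB, ← integral_const_mul]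
  refine integral_mono_of_nonneg (Eventually.of_forall (hh_nn _ _))
    (((integrable_indicator_iff mB).2 hq).const_mul 64) (Eventually.of_forall fun x => ?_)
  by_cases hx : x ∈ B
  · simp only [indicator_of_mem hx]
    exact (Finset.sum_le_sum fun c _ => sum2_le (h x hx c)).trans_eq (by simp; ring)
  · have h1 : 7 / 5 < ‖x‖ := by linarith [not_lt.1 (mt mem_B.2 hx)]
    have e : ∀ i j, dk (pbm (gm P Q) G) (pbm Q G) i j =ᶠ[𝓝 x] fun _ => 0 := fun i j =>
      (pbm_ev (G := G) (gm_out (P := P) (Q := Q) h1)).mono fun z hz => by simp [dk, hz]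
    simp [hh, indicator_of_notMem hx, pderiv, (e _ _).fderiv_eq]

theorem ev_lt (a : ℝ) {b : ℝ} (hb : 0 < b) : ∀ᶠ δ in 𝓝[>] (0 : ℝ), a * δ ≤ b := by
  have : ∀ᶠ δ in 𝓝 (0 : ℝ), a * δ < b :=
    (continuous_const.mul continuous_id).continuousAt.eventually_lt continuousAt_const
      (by simpa using hb)
  exact (this.mono fun _ h => h.le).filter_mono nhdsWithin_le_nhds

theorem rl_nn (G : MetricField 4) (c : ℝ) : 0 ≤ RL G c := integral_nonneg fun x => by positivity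

theorem bl_nn (G : MetricField 4) : 0 ≤ BL G := integral_nonneg fun x => by positivity

theorem core (hEN : ENStmt) (hQU : QUStmt) (hK : KornStmt) : ∃ δ C : ℝ, 0 < δ ∧ 0 < C ∧
    ∀ (G G1 : MetricField 4) (P Q : E4 → E4), IsRiemannianOn G univ → Sml 3 G δ → Nr P δ → Nr Q δ →
      Nr (gm P Q) δ → Fl G1 → Fl (pbm Q G) → Fl (pbm (gm P Q) G) → Sml 2 G1 δ → Sml 2 (pbm Q G) δ →
      Sml 2 (pbm (gm P Q) G) δ → EqOn G1 (pbm P G) B → (∀ j, ∫ y in B, du P Q j y = 0) →
      (∀ i j, ∫ y in B, pderiv i (du P Q j) y = ∫ y in B, pderiv j (du P Q i) y) →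
      |EH (pbm (gm P Q) G) - EH G1| ≤
        C * (RL G1 (6 / 5) + RL (pbm Q G) (6 / 5) + BL G1 + BL (pbm Q G)) := by
  obtain ⟨δE, CE, dE, cE, hE⟩ := hEN
  obtain ⟨δQ, CQ, dQ, cQ, hQ⟩ := hQU
  obtain ⟨ε, CK, dK, cK, hK⟩ := hK
  obtain ⟨C, c, hp⟩ := pw
  obtain ⟨δ, ⟨⟨⟨⟨⟨a1, a2⟩, a3⟩, a4⟩, a5⟩, d0⟩⟩ := ((((((ev_lt 1 dE).and (ev_lt 1 dQ)).and
    (ev_lt C dK)).and (ev_lt 1 (by norm_num : (0 : ℝ) < 1 / 8))).and
    (ev_lt (36 * CE * CK * C) (by norm_num : (0 : ℝ) < 1 / 2))).and self_mem_nhdsWithin).exists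
  have d0 : 0 < δ := d0
  rw [one_mul] at a1 a2 a4
  refine ⟨δ, CQ * (4 * CE * (2 + 128 * C * CK) + 1), d0, by positivity,
    fun G G1 P Q hG sG nP nQ nG f1 f2 f3 s1 s2 s3 he m0 m1 => ?_⟩
  have hd := fun y (hy : y ∈ B) => hp ⟨G, P, Q, δ, y, hG, sG, nP, nQ, nG, a4, (mem_B.1 hy).le⟩
  simp only at hd
  have ev : ∀ y ∈ B, G1 =ᶠ[𝓝 y] pbm P G := fun y hy =>
    he.eventuallyEq_of_mem (isOpen_ball.mem_nhds hy)
  have er : ∀ y ∈ B, ∀ i j, rem (du P Q) (dk G1 (pbm Q G)) i j =ᶠ[𝓝 y]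
      rem (du P Q) (dk (pbm P G) (pbm Q G)) i j := fun y hy i j =>
    (ev y hy).mono fun z hz => by simp only [rem, dk, hz]
  have hu := du_sm nP.sm nQ.sm
  have d2 : δ ^ 2 ≤ δ := by nlinarith
  have key : ∀ {a s : ℝ}, 0 ≤ s → a ≤ C * (δ ^ 2 * s) → a ≤ C * δ * s := fun {a s} hs h =>
    h.trans (by rw [mul_assoc]; gcongr)
  have n1 : ∀ y, 0 ≤ q0 (du P Q) y + q1 (du P Q) y := fun y => add_nonneg (q0_nn _ _) (q1_nn _ _)
  obtain ⟨R, hR⟩ := dk_out f1 f2
  have k1 : ∫ y in B, qq (du P Q) y ≤ CK * H1 (pbm Q G) G1 :=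
    hK (du P Q) (dk G1 (pbm Q G)) hu (dk_sm f1 f2) (fun i j => hcs_of_ball R (hR i j)) m0 m1
      (fun y hy i j => by
        rw [(er y hy i j).eq_of_nhds]
        exact (key (n1 y) ((hd y hy).1 i j)).trans (mul_le_mul_of_nonneg_right a3 (n1 y)))
      fun y hy c i j => by
        rw [(ev_pd (er y hy i j) c).eq_of_nhds]
        exact (key (qq_nn _ y) ((hd y hy).2.1 c i j)).trans
          (mul_le_mul_of_nonneg_right a3 (qq_nn _ y))
  have k2 := rd_le f1 f2 ((qq_int hu).const_mul (C * δ))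
    (fun y => mul_nonneg (by positivity) (qq_nn _ y)) fun y hy i j => by
      rw [(AI.ricci_congr (ev y hy)).eq_of_nhds]
      exact (key (n1 y) ((hd y hy).2.2.1 i j)).trans (mul_le_mul_of_nonneg_left
        (le_add_of_nonneg_right (q2_nn _ _)) (by positivity))
  have k3 := h1_le (G := G) ((qq_int hu).const_mul C) fun y hy => (hd y hy).2.2.2
  rw [integral_const_mul] at k2 k3
  have k4 := hE _ _ f2 f1 (sml_mono s2 le_rfl a1) (sml_mono s1 le_rfl a1)
  have k5 := H1_tri f1 f2 f3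
  have k6 := hQ _ _ (6 / 5) f1 f3 (sml_mono s1 le_rfl a2) (sml_mono s3 le_rfl a2) fun y hy => by
    have hy' := mem_ball_zero_iff.1 hy
    rw [he (mem_B.2 (by linarith)), (pbm_ev (G := G) (gm_in (P := P) (Q := Q) hy')).eq_of_nhds]
  have r1 := rl_nn G1 (6 / 5)
  have r2 := rl_nn (pbm Q G) (6 / 5)
  have b1 := bl_nn G1
  have b2 := bl_nn (pbm Q G)
  have x0 : 0 ≤ H1 (pbm Q G) G1 := integral_nonneg (hh_nn _ _)
  generalize H1 (pbm Q G) G1 = X at *
  generalize (∫ y in B, qq (du P Q) y) = A at *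
  set S := RL G1 (6 / 5) + RL (pbm Q G) (6 / 5) + BL G1 + BL (pbm Q G) with hS
  have k7 : X ≤ 4 * CE * S := by
    have e1 : CE * (36 * (C * δ * A)) ≤ 1 / 2 * X :=
      calc CE * (36 * (C * δ * A)) ≤ CE * (36 * (C * δ * (CK * X))) := by gcongr
        _ = 36 * CE * CK * C * δ * X := by ring
        _ ≤ _ := by gcongr
    have e2 : RD (pbm Q G) G1 + BL (pbm Q G) + BL G1 ≤ 2 * S + 36 * (C * δ * A) := by linarith
    nlinarith [mul_le_mul_of_nonneg_left e2 cE.le]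
  have k8 : H1 G1 (pbm (gm P Q) G) ≤ (2 + 128 * C * CK) * X := by
    have : C * A ≤ C * (CK * X) := by gcongr
    linarith
  refine k6.trans ?_
  rw [mul_assoc]
  refine mul_le_mul_of_nonneg_left ?_ cQ.le
  have : (2 + 128 * C * CK) * X ≤ (2 + 128 * C * CK) * (4 * CE * S) := by gcongr
  linarith

end Crest.Agent.N207.Ph.Rg

end
end

-- ▼ part N207/Ph/Rg4
section

/-!
# Row 207, block PHI, leaf RG (helper55): assembly
-/

set_option autoImplicit false
set_option linter.unusedSectionVars false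

open scoped ContDiff Topology
open Set MeasureTheory Filter Metric
open Crest.GeometryTopology.CoordMetric Crest.GeometryTopology.ChartCurvature

noncomputable section

namespace Crest.Agent.N207.Ph.Rg

open Sk U G

variable {G : MetricField 4} {δ : ℝ}

theorem all_of_fl (h : Fl G) : ∃ Cs : ℕ → ℝ, All Cs G := by
  obtain ⟨R, hR⟩ := h.flat
  have key : ∀ (k : ℕ) (p : Fin 4 × Fin 4), ∃ C : ℝ, ∀ y : E4,
      J1 k (dv G p.1 p.2) y (‖y‖ + 1) C := fun k p => by
    have hs : ContDiff ℝ ∞ (dv G p.1 p.2) := (ent_sm h _ _).sub contDiff_const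
    have hc : Continuous fun y : E4 => ‖iteratedFDeriv ℝ k (dv G p.1 p.2) y‖ * (‖y‖ + 1) ^ k :=
      (hs.continuous_iteratedFDeriv (U.kle k)).norm.mul (by fun_prop)
    obtain ⟨C, hC⟩ := hc.bounded_above_of_compact_support (hcs_of_ball R fun x hx => by
      have e : dv G p.1 p.2 =ᶠ[𝓝 x] fun _ => 0 := by
        filter_upwards [(isOpen_lt continuous_const continuous_norm).mem_nhds hx] with z hz
        simp [Sk.dv, hR z (le_of_lt hz)]
      rw [(e.iteratedFDeriv ℝ k).eq_of_nhds]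
      simp)
    exact ⟨C, fun y => (le_abs_self _).trans (hC y)⟩
  choose Cs _ hCs using fun k => unif (P := fun (p : Fin 4 × Fin 4) (y : E4) C =>
    J1 k (dv G p.1 p.2) y (‖y‖ + 1) C) (fun _ _ _ _ hCD hP => le_trans hP hCD) (key k)
  exact ⟨Cs, fun y k i j => by simpa using hCs k (i, j) y⟩

theorem sml_of_ds {m : ℕ} (h : DS m G δ) : Sml m G δ := fun y => by
  obtain ⟨ε, h0, h1, h2⟩ := h
  obtain ⟨l, a, b⟩ := exists_nat_pow_near (x := ‖y‖ + 1) (y := 2)
    (by linarith [norm_nonneg y]) one_lt_two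
  exact U.jg_mono (h2 l y a b.le) le_rfl ((Finset.single_le_sum (fun i _ => h0 i)
    (Finset.self_mem_range_succ l)).trans (h1 _))

theorem nid_mono {m : ℕ} {ψ : E4 ≃ₜ E4} {δ' : ℝ} (h : Nid m ψ δ) (hδ : δ ≤ δ') : Nid m ψ δ' :=
  ⟨h.sm, h.sm', h.out, fun y k hk => le_trans (h.jet y k hk) (by gcongr), h.zero⟩

theorem pbm_rot {ψ : E4 → E4} (h : ContDiff ℝ ∞ ψ) (R : Iso) (G : MetricField 4) :
    pbm (fun z => ψ (R z)) G = pbm R (pbm ψ G) := by
  funext y
  ext i j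
  simp only [pbm, Matrix.of_apply]
  rw [← AI.pullT_comp _ (R.differentiable y) (dif h _), ← matT_pbm]

theorem rot : ∃ δ0 C : ℝ, 0 < δ0 ∧ 0 < C ∧ ∀ (ψ : E4 ≃ₜ E4) (R : Iso) (G : MetricField 4) (δ : ℝ),
    0 ≤ δ → δ ≤ δ0 → Nid 3 ψ δ → Fl G → Sml 2 G δ →
    Fl (pbm (fun z => ψ (R z)) G) ∧ Sml 2 (pbm (fun z => ψ (R z)) G) (C * δ) ∧
      EH (pbm (fun z => ψ (R z)) G) = EH G ∧
      RL (pbm (fun z => ψ (R z)) G) (6 / 5) ≤ C * RL G 1 ∧
      BL (pbm (fun z => ψ (R z)) G) = BL (pbm ψ G) := by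
  obtain ⟨δ0, C, d0, c0, h⟩ := pb
  obtain ⟨D, c1, h'⟩ := pbiso 2
  refine ⟨min δ0 (1 / 20), (D + 4) * C, by positivity, by positivity,
    fun ψ R G δ p0 p1 hψ hG hS => ?_⟩
  obtain ⟨a1, a2, a3, a4, -⟩ := h ψ G δ p0 (p1.trans (min_le_left _ _)) hψ hG hS
  obtain ⟨b1, b2, b3, b4, b5, -⟩ := h' R _ a1
  rw [pbm_rot hψ.sm]
  refine ⟨b1, fun y => U.jg_mono (b5 y _ _ (by positivity) (by
    simpa only [R.norm_map] using a2 (R y))) le_rfl ?_, b2.trans a3, ?_, b4⟩
  · have := mul_nonneg c0.le p0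
    nlinarith
  · have h1 := a4 (6 / 5) 1 one_pos fun x hx => by
      have h2 := hψ.val x
      have h3 := norm_sub_norm_le x (ψ x)
      rw [norm_sub_rev] at h3
      have h4 := p1.trans (min_le_right _ _)
      nlinarith
    have := mul_nonneg (mul_nonneg c1.le c0.le) (rl_nn G 1)
    rw [b3]
    nlinarith

theorem int_sub {f g : E4 → ℝ} (hf : Continuous f) (hg : Continuous g) :
    ∫ y in B, (f y - g y) = (∫ y in B, f y) - ∫ y in B, g y := integral_sub (int_B hf) (int_B hg)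

theorem rg_of (hEN : ENStmt) (hQU : QUStmt) (hHC : HCStmt) (hK : KornStmt) (hN : NidStmt)
    (hP : PolStmt) : RGStmt := by
  obtain ⟨δ, C, d0, c0, hc⟩ := core hEN hQU hK
  obtain ⟨δH, CH, dH, cH, hH⟩ := hHC
  obtain ⟨δR, CR, dR, cR, hR⟩ := rot
  obtain ⟨Cg, cg, hg⟩ := nr_gm
  obtain ⟨pol, nro, mean⟩ := hP
  obtain ⟨δ0, ⟨⟨⟨⟨⟨a1, a2⟩, a3⟩, a4⟩, a5⟩, p0⟩⟩ := ((((((ev_lt 1 dH).and
    (ev_lt (61 * Cg * (CH + 1)) d0)).and (ev_lt (61 * Cg * (CH + 1)) dR)).and
    (ev_lt (CR * (61 * Cg * (CH + 1))) d0)).and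
    (ev_lt (61 * Cg * (CH + 1)) (by norm_num : (0 : ℝ) < 1 / 100))).and self_mem_nhdsWithin).exists
  have p0 : 0 < δ0 := p0
  rw [one_mul] at a1
  rw [mul_assoc] at a2 a3 a4 a5
  rw [mul_assoc (61 * Cg)] at a4
  have b1 : δ0 ≤ (CH + 1) * δ0 := by nlinarith
  have b2 : CH * δ0 ≤ (CH + 1) * δ0 := by nlinarith
  generalize (CH + 1) * δ0 = δ1 at *
  have p1 : 0 < δ1 := p0.trans_le b1
  have b3 : δ1 ≤ Cg * δ1 := le_mul_of_one_le_left p1.le cg
  have b4 : Cg * (δ1 + 30 * δ1) + 30 * δ1 ≤ 61 * Cg * δ1 := by nlinarith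
  have b5 : δ1 + 30 * δ1 ≤ 61 * Cg * δ1 := by nlinarith
  have b6 : Cg * (δ1 + 30 * δ1) ≤ 61 * Cg * δ1 := by nlinarith
  generalize 61 * Cg * δ1 = δ2 at *
  refine ⟨δ0, C * CR, p0, by positivity, fun Γ G1 G2 hΓ f1 f2 i1 i2 s1 s2 he => ?_⟩
  obtain ⟨γ, hγ, fr⟩ := Hd.exists_free hΓ.ne hΓ.free
  have key : ∀ τ : ℝ, 0 < τ → |EH G1 - EH G2| ≤ C * CR * (RL G1 1 + RL G2 1) + 2 * C * τ ^ 2 := by
    intro τ hτ
    have hψ : ∀ G : MetricField 4, Fl G → Inv Γ G → DS 3 G δ0 → ∃ (ψ : E4 ≃ₜ E4) (R : Iso),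
        Nid 3 ψ δ1 ∧ BL (pbm ψ G) ≤ τ ^ 2 ∧ (∀ x, ‖R x - x‖ ≤ 30 * δ1 * ‖x‖) ∧
        (∀ j, ∫ y in B, ψ (R y) j = 0) ∧ ∀ i j, ∫ y in B, pderiv i (fun z => ψ (R z) j) y =
          ∫ y in B, pderiv j (fun z => ψ (R z) i) y := fun G f i s => by
      obtain ⟨Cs, hCs⟩ := all_of_fl f
      obtain ⟨Cp, h⟩ := hH Cs
      obtain ⟨ψ, n, e, b, -⟩ := h Γ G δ0 τ hΓ f i a1 s hCs hτ
      obtain ⟨R, r1, r2⟩ := pol ψ δ1 (by linarith) (Nr.of_nid (nid_mono n b2))
      exact ⟨ψ, R, nid_mono n b2, b, r1, mean ψ γ R ψ.continuous fr (e γ hγ), r2⟩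
    obtain ⟨ψ1, R1, n1, l1, r1, m1, y1⟩ := hψ G1 f1 i1 s1
    obtain ⟨ψ2, R2, n2, l2, r2, m2, y2⟩ := hψ G2 f2 i2 s2
    have t1 := sml_of_ds s1
    have t2 := sml_of_ds s2
    have nP := nro ψ1 δ1 _ R1 (Nr.of_nid n1) (by positivity) r1
    have nQ := nro ψ2 δ1 _ R2 (Nr.of_nid n2) (by positivity) r2
    set P : E4 → E4 := fun z => ψ1 (R1 z) with hPd
    set Q : E4 → E4 := fun z => ψ2 (R2 z) with hQd
    have nG := hg P Q _ nP nQ
    have nS := nro (gm P Q) _ (30 * δ1) R2.symm nG (by positivity) fun x => by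
      have := r2 (R2.symm x)
      rwa [R2.apply_symm_apply, norm_sub_rev, R2.symm.norm_map] at this
    obtain ⟨ψ3, e3, n3⟩ := hN _ δ2 (by linarith) (nS.mono b4) (by
      obtain ⟨R, hR⟩ := n2.out
      refine ⟨max R (7 / 5), fun x hx => ?_⟩
      rw [gm_eq (by rw [R2.symm.norm_map]; exact (le_max_right _ _).trans hx), hQd]
      simp only [R2.apply_symm_apply]
      exact hR x ((le_max_left _ _).trans hx)) (by
      rw [map_zero, (gm_in (by norm_num)).eq_of_nhds, hPd]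
      simp only [map_zero, n1.zero])
    have e4 : (fun z => ψ3 (R2 z)) = gm P Q := by
      funext z; simp only [e3, R2.symm_apply_apply]
    have q2 : δ1 ≤ δ2 := by linarith
    obtain ⟨u1, u2, u3, u4, u5⟩ := hR ψ1 R1 G1 δ2 (by linarith) a3 (nid_mono n1 q2) f1
      (sml_mono t1 (by norm_num) (by linarith))
    obtain ⟨v1, v2, -, v4, v5⟩ := hR ψ2 R2 G2 δ2 (by linarith) a3 (nid_mono n2 q2) f2
      (sml_mono t2 (by norm_num) (by linarith))
    obtain ⟨w1, w2, w3, -⟩ := hR ψ3 R2 G2 δ2 (by linarith) a3 n3 f2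
      (sml_mono t2 (by norm_num) (by linarith))
    rw [e4] at w1 w2 w3
    have cP := fun a => cd_comp nP.sm a
    have cQ := fun a => cd_comp nQ.sm a
    have k := hc G2 (pbm P G1) P Q f2.riem (sml_mono t2 le_rfl (by linarith))
      (nP.mono (by linarith)) (nQ.mono (by linarith)) (nG.mono (by linarith)) u1 v1 w1
      (sml_mono u2 le_rfl a4) (sml_mono v2 le_rfl a4) (sml_mono w2 le_rfl a4)
      (fun y hy => by
        ext i j
        simp only [pbm_fd, he (mem_ball_zero_iff.2 (nP.norm_le (by linarith) (mem_B.1 hy).le))])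
      (fun j => by
        simp only [du]
        rw [int_sub (cP j).continuous (cQ j).continuous, m1, m2, sub_zero])
      fun i j => by
        have e : ∀ i j y, pderiv i (du P Q j) y =
            pderiv i (fun z => P z j) y - pderiv i (fun z => Q z j) y := fun i j y =>
          pd_sub (dif (cP j) y) (dif (cQ j) y) i
        simp only [e]
        rw [int_sub (cd_pd (cP j) i).continuous (cd_pd (cQ j) i).continuous,
          int_sub (cd_pd (cP i) j).continuous (cd_pd (cQ i) j).continuous, y1, y2]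
    rw [w3, u3, u5, v5, abs_sub_comm] at k
    refine k.trans ?_
    have : C * (RL (pbm P G1) (6 / 5) + RL (pbm Q G2) (6 / 5) + BL (pbm ψ1 G1) + BL (pbm ψ2 G2)) ≤
        C * (CR * RL G1 1 + CR * RL G2 1 + τ ^ 2 + τ ^ 2) := by gcongr
    linarith
  refine le_of_forall_pos_le_add fun ε hε => (key √(ε / (2 * C)) (by positivity)).trans_eq ?_
  rw [Real.sq_sqrt (by positivity), mul_div_cancel₀ _ (by positivity)]

end Crest.Agent.N207.Ph.Rg

end
end

-- ▼ part N207/Ph/RgN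
section

/-!
# Row 207, block PHI, leaf RG: maps close to the identity are diffeomorphisms (helper42)
-/

set_option autoImplicit false
set_option linter.unusedSectionVars false

open scoped ContDiff Topology NNReal
open Set MeasureTheory Filter Metric
open Crest.GeometryTopology.CoordMetric

noncomputable section

namespace Crest.Agent.N207.Ph.Rg

open Sk

theorem Nr.sm0 {P : E4 → E4} {δ : ℝ} (h : Nr P δ) : ContDiff ℝ ∞ fun z => P z - z :=
  h.sm.sub contDiff_id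

/-- the derivative of `P - id` is at most `δ` -/
theorem Nr.d1 {P : E4 → E4} {δ : ℝ} (h : Nr P δ) (y : E4) :
    ‖fderiv ℝ (fun z => P z - z) y‖ ≤ δ := by
  have h1 := h.jet y 1 (by norm_num)
  rw [J1, pow_one, norm_iteratedFDeriv_one] at h1
  exact le_of_mul_le_mul_right h1 (by positivity)

theorem Nr.nn {P : E4 → E4} {δ : ℝ} (h : Nr P δ) : 0 ≤ δ := (norm_nonneg _).trans (h.d1 0)

theorem Nr.fd {P : E4 → E4} {δ : ℝ} (h : Nr P δ) (y : E4) :
    fderiv ℝ (fun z => P z - z) y = fderiv ℝ P y - 1 := by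
  have h1 : HasFDerivAt P (fderiv ℝ P y) y := (h.sm.differentiable (by simp) y).hasFDerivAt
  exact (h1.sub (hasFDerivAt_id y)).fderiv

/-- `‖DP - 1‖ ≤ δ` -/
theorem Nr.d1' {P : E4 → E4} {δ : ℝ} (h : Nr P δ) (y : E4) : ‖fderiv ℝ P y - 1‖ ≤ δ := by
  rw [← h.fd]; exact h.d1 y

theorem nid : NidStmt := by
  intro P δ hδ h hout h0
  have hl : LipschitzWith (1 / 2 : ℝ≥0) fun z => P z - z := by
    refine lipschitzWith_of_nnnorm_fderiv_le (𝕜 := ℝ) (h.sm0.differentiable (by simp)) fun y => ?_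
    have := (h.d1 y).trans hδ
    rw [← NNReal.coe_le_coe]
    simpa using this
  have ha : ApproximatesLinearOn P
      ((ContinuousLinearEquiv.refl ℝ E4 : E4 ≃L[ℝ] E4) : E4 →L[ℝ] E4) univ (1 / 2 : ℝ≥0) := by
    intro x _ y _
    have := hl.dist_le_mul x y
    rw [dist_eq_norm, dist_eq_norm] at this
    have e : P x - P y - ((ContinuousLinearEquiv.refl ℝ E4 : E4 ≃L[ℝ] E4) : E4 →L[ℝ] E4) (x - y)
        = P x - x - (P y - y) := by
      show P x - P y - (x - y) = _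
      abel
    rw [e]; exact this
  have hc : (1 / 2 : ℝ≥0) <
      ‖((ContinuousLinearEquiv.refl ℝ E4).symm : E4 →L[ℝ] E4)‖₊⁻¹ := by
    have : ‖((ContinuousLinearEquiv.refl ℝ E4).symm : E4 →L[ℝ] E4)‖₊ = 1 := by
      rw [ContinuousLinearEquiv.refl_symm, ContinuousLinearEquiv.coe_refl]
      exact ContinuousLinearMap.nnnorm_id
    rw [this]; norm_num
  let ψ : E4 ≃ₜ E4 := ha.toHomeomorph P (Or.inr hc)
  have hψ : (ψ : E4 → E4) = P := rfl
  refine ⟨ψ, hψ, ?_, ?_, ?_, ?_, ?_⟩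
  · rw [hψ]; exact h.sm
  · have hu : ∀ a : E4, ‖(1 : E4 →L[ℝ] E4) - fderiv ℝ P a‖ < 1 := fun a => by
      rw [norm_sub_rev]; linarith [h.d1' a]
    refine ψ.contDiff_symm
      (f₀' := fun a => ContinuousLinearEquiv.ofUnit (Units.oneSub _ (hu a))) (fun a => ?_) ?_
    · have h1 : HasFDerivAt P (fderiv ℝ P a) a := (h.sm.differentiable (by simp) a).hasFDerivAt
      have e : ((ContinuousLinearEquiv.ofUnit (Units.oneSub _ (hu a)) : E4 ≃L[ℝ] E4) : E4 →L[ℝ] E4)
          = fderiv ℝ P a := by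
        ext1 v
        show ((1 : E4 →L[ℝ] E4) - (1 - fderiv ℝ P a)) v = _
        rw [sub_sub_cancel]
      rw [hψ, e]
      exact h1
    · rw [hψ]; exact h.sm
  · simpa only [hψ] using hout
  · simpa only [hψ] using h.jet
  · rw [hψ]; exact h0

end Crest.Agent.N207.Ph.Rg

end
end

-- ▼ part N207/Ph/RgP

/-!
# Row 207, block PHI, leaf RG: the polar factor of the mean derivative (helper42)
-/

set_option autoImplicit false
set_option linter.unusedSectionVars false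

open scoped ContDiff Topology NNReal
open Set MeasureTheory Filter Metric
open Crest.GeometryTopology.CoordMetric

noncomputable section

namespace Crest.Agent.N207.Ph.Rg

open Sk

/-- polar decomposition near the identity -/
theorem polar {E : Type*} [NormedAddCommGroup E] [InnerProductSpace ℝ E] [FiniteDimensional ℝ E]
    (A : E →L[ℝ] E) (hA : ‖A - 1‖ ≤ 1 / 10) :
    ∃ O : E ≃ₗᵢ[ℝ] E, ‖I.cl O - 1‖ ≤ 10 * ‖A - 1‖ ∧
      ∀ x y, inner ℝ x (A (O y)) = inner ℝ y (A (O x)) := by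
  haveI := FiniteDimensional.complete ℝ E
  set D := A - 1 with hD
  have hAD : A = 1 + D := by rw [hD]; abel
  set X := A * star A - 1 with hX
  have hXD : X = star D + D + D * star D := by
    rw [hX, hAD]; simp only [star_add, star_one]; noncomm_ring
  have h2 : ‖star D‖ = ‖D‖ := by
    rw [ContinuousLinearMap.star_eq_adjoint]; exact LinearIsometryEquiv.norm_map _ _
  have hXn : ‖X‖ ≤ 5 / 2 * ‖D‖ := by
    have h1 : ‖X‖ ≤ ‖star D‖ + ‖D‖ + ‖D‖ * ‖star D‖ := by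
      rw [hXD]
      exact (norm_add_le _ _).trans (add_le_add (norm_add_le _ _) (norm_mul_le _ _))
    rw [h2] at h1
    nlinarith [norm_nonneg D]
  have hXs : star X = X := by simp [hX]
  obtain ⟨Y, hYs, hYn, hY⟩ := I.sqrt_near X (by linarith) {Y | star Y = Y}
    (isClosed_eq continuous_star continuous_id) (by simp)
    (by
      intro Y h1
      have h1' : star Y = Y := h1
      simp [star_mul, h1', hXs])
  have hYs : star Y = Y := hYs
  have hY4 : ‖Y‖ ≤ 1 / 4 := by linarith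
  let u : (E →L[ℝ] E)ˣ := Units.oneSub (-Y) (by rw [norm_neg]; linarith)
  have hu : (u : E →L[ℝ] E) = 1 + Y := by simp [u]
  set S : E →L[ℝ] E := ↑u⁻¹ with hS
  have hS1 : (1 + Y) * S = 1 := by rw [← hu, hS]; simp
  have hS2 : S * (1 + Y) = 1 := by rw [← hu, hS]; simp
  have hSs : star S * (1 + Y) = 1 := by
    have := congrArg star hS1
    simpa [star_mul, hYs] using this
  have hAA : A * star A = (1 + Y) * (1 + Y) := by rw [hY, hX]; abel
  have hO : star (star A * S) * (star A * S) = 1 := by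
    calc star (star A * S) * (star A * S) = star S * (A * star A) * S := by
          rw [star_mul, star_star]; noncomm_ring
      _ = (star S * (1 + Y)) * ((1 + Y) * S) := by rw [hAA]; noncomm_ring
      _ = 1 := by rw [hSs, hS1, one_mul]
  have hiso : ∀ x, ‖(star A * S) x‖ = ‖x‖ := by
    intro x
    have h1 : inner ℝ ((star A * S) x) ((star A * S) x) = inner ℝ x x := by
      rw [← ContinuousLinearMap.adjoint_inner_right, ← ContinuousLinearMap.star_eq_adjoint]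
      have := congrArg (fun L : E →L[ℝ] E => L x) hO
      simp only [ContinuousLinearMap.mul_apply, ContinuousLinearMap.one_apply] at this ⊢
      rw [this]
    rw [real_inner_self_eq_norm_sq, real_inner_self_eq_norm_sq] at h1
    exact (sq_eq_sq₀ (norm_nonneg _) (norm_nonneg _)).1 h1
  obtain ⟨O, hOe⟩ := I.exists_cl _ hiso
  refine ⟨O, ?_, ?_⟩
  · have e : I.cl O - 1 = star D - I.cl O * Y := by
      have : I.cl O * (1 + Y) = star A := by rw [hOe, mul_assoc, hS2, mul_one]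
      rw [hD, star_sub, star_one, ← this]; noncomm_ring
    have h1 : ‖I.cl O‖ ≤ 1 :=
      ContinuousLinearMap.opNorm_le_bound _ zero_le_one fun x => by simp [I.cl]
    have h3 : ‖I.cl O * Y‖ ≤ ‖Y‖ := (norm_mul_le _ _).trans (by nlinarith [norm_nonneg Y])
    rw [e]
    have := norm_sub_le (star D) (I.cl O * Y)
    nlinarith [norm_nonneg D]
  · have e : A * I.cl O = 1 + Y := by
      rw [hOe, ← mul_assoc, hAA, mul_assoc, hS1, mul_one]
    have hs : star (A * I.cl O) = A * I.cl O := by rw [e, star_add, star_one, hYs]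
    intro x y
    show inner ℝ x ((A * I.cl O) y) = inner ℝ y ((A * I.cl O) x)
    conv_lhs => rw [← hs, ContinuousLinearMap.star_eq_adjoint,
      ContinuousLinearMap.adjoint_inner_right]
    exact real_inner_comm _ _

theorem intBv {Y : Type*} [NormedAddCommGroup Y] {f : E4 → Y} (hf : Continuous f) :
    IntegrableOn f B :=
  (hf.continuousOn.integrableOn_compact (isCompact_closedBall (0 : E4) (3 / 2))).mono_set
    ball_subset_closedBall

/-- rotation invariance of the integral over `B` -/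
theorem rotB {Y : Type*} [NormedAddCommGroup Y] [NormedSpace ℝ Y] (R : Iso) (f : E4 → Y) :
    ∫ y in B, f (R y) = ∫ y in B, f y := by
  have e : (R : E4 → E4) ⁻¹' B = B := by ext x; simp [B]
  have := R.measurePreserving.setIntegral_preimage_emb
    R.toHomeomorph.measurableEmbedding f B
  rwa [e] at this

theorem volB_pos : 0 < volume.real B :=
  ENNReal.toReal_pos (measure_ball_pos volume _ (by norm_num)).ne' measure_ball_lt_top.ne

theorem pol_a (P : E4 → E4) (δ : ℝ) (hδ : δ ≤ 1 / 100) (h : Nr P δ) :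
    ∃ R : Iso, (∀ x, ‖R x - x‖ ≤ 30 * δ * ‖x‖) ∧
    ∀ i j, ∫ y in B, pderiv i (fun z => P (R z) j) y = ∫ y in B, pderiv j (fun z => P (R z) i) y := by
  have hc : Continuous (fderiv ℝ P) := h.sm.continuous_fderiv (by simp)
  have hv := volB_pos
  set v := volume.real B with hvd
  set M : E4 →L[ℝ] E4 := ∫ y in B, fderiv ℝ P y with hM
  have h1 : ‖M - v • (1 : E4 →L[ℝ] E4)‖ ≤ δ * v := by
    have e : M - v • (1 : E4 →L[ℝ] E4) = ∫ y in B, (fderiv ℝ P y - 1) := by
      rw [integral_sub (intBv hc) (intBv continuous_const), setIntegral_const]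
    rw [e]
    exact norm_setIntegral_le_of_norm_le_const measure_ball_lt_top fun y _ => h.d1' y
  set A : E4 →L[ℝ] E4 := v⁻¹ • M with hA
  have hMA : M = v • A := by rw [hA, smul_smul, mul_inv_cancel₀ hv.ne', one_smul]
  have h2 : ‖A - 1‖ ≤ δ := by
    have e : M - v • (1 : E4 →L[ℝ] E4) = v • (A - 1) := by
      rw [hMA]; ext1 x; simp [smul_sub]
    rw [e, norm_smul, Real.norm_of_nonneg hv.le, mul_comm] at h1
    exact le_of_mul_le_mul_right h1 hv
  obtain ⟨R, hR, hs⟩ := polar A (by linarith)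
  refine ⟨R, fun x => ?_, fun i j => ?_⟩
  · have := (I.cl R - 1).le_opNorm x
    have h0 := h.nn
    have e : (I.cl R - 1) x = R x - x := rfl
    rw [e] at this
    refine this.trans (mul_le_mul_of_nonneg_right (by linarith) (norm_nonneg _))
  · have key : ∀ a b : Fin 4, ∫ y in B, pderiv a (fun z => P (R z) b) y =
        v * inner ℝ (EuclideanSpace.single b (1 : ℝ)) (A (R (EuclideanSpace.single a 1))) := by
      intro a b
      let L : (E4 →L[ℝ] E4) →L[ℝ] ℝ := (EuclideanSpace.proj b : E4 →L[ℝ] ℝ).comp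
        (ContinuousLinearMap.apply ℝ E4 (R (EuclideanSpace.single a 1)))
      have e1 : ∀ y, pderiv a (fun z => P (R z) b) y = L (fderiv ℝ P (R y)) := by
        intro y
        have d1 : HasFDerivAt P (fderiv ℝ P (R y)) (I.cl R y) :=
          (h.sm.differentiable (by simp) _).hasFDerivAt
        have d2 := (EuclideanSpace.proj b : E4 →L[ℝ] ℝ).hasFDerivAt.comp y
          (d1.comp y (I.cl R).hasFDerivAt)
        have d3 : HasFDerivAt (fun z => P (R z) b) _ y := d2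
        rw [pderiv, d3.fderiv]
        rfl
      simp only [e1]
      rw [rotB R fun y => L (fderiv ℝ P y), L.integral_comp_comm (intBv hc), ← hM, hMA, map_smul,
        EuclideanSpace.inner_single_left]
      simp only [smul_eq_mul, map_one, one_mul]
      rfl
    rw [key, key, hs]

theorem j1_lin (L : E4 →L[ℝ] E4) {ε : ℝ} (hε : 0 ≤ ε) (hL : ∀ x, ‖L x‖ ≤ ε * ‖x‖) (y : E4) (k : ℕ) :
    J1 k L y (‖y‖ + 1) (ε * (‖y‖ + 1)) := by
  have hn : ‖L‖ ≤ ε := ContinuousLinearMap.opNorm_le_bound _ hε hL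
  have hf : fderiv ℝ (L : E4 → E4) = fun _ => L := by ext1 z; exact L.fderiv
  rcases k with _ | _ | k
  · rw [J1, norm_iteratedFDeriv_zero, pow_zero, mul_one]
    exact (hL y).trans (mul_le_mul_of_nonneg_left (by linarith) hε)
  · rw [J1, zero_add, norm_iteratedFDeriv_one, pow_one, L.fderiv]
    exact mul_le_mul_of_nonneg_right hn (by positivity)
  · rw [J1, ← norm_iteratedFDeriv_fderiv, hf, iteratedFDeriv_succ_const]
    simp only [Pi.zero_apply, norm_zero, zero_mul]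
    positivity

theorem Nr.rot {P : E4 → E4} {δ ε : ℝ} (R : Iso) (h : Nr P δ) (hε : 0 ≤ ε)
    (hR : ∀ x, ‖R x - x‖ ≤ ε * ‖x‖) : Nr (fun z => P (R z)) (δ + ε) := by
  refine ⟨h.sm.comp (I.cl R).contDiff, fun y k hk => ?_⟩
  have e : (fun z => P (R z) - z) = ((fun z => P z - z) ∘ R) + (I.cl R - 1 : E4 →L[ℝ] E4) := by
    ext1 z
    show P (R z) - z = P (R z) - R z + (R z - z)
    abel
  have h1 := h.jet (R y) k hk
  have h2 := j1_lin (I.cl R - 1) hε hR y k
  have s1 : ContDiff ℝ k ((fun z => P z - z) ∘ R) :=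
    (h.sm0.comp (I.cl R).contDiff).of_le (by exact_mod_cast le_top)
  rw [J1] at h1 h2 ⊢
  rw [e, iteratedFDeriv_add_apply s1.contDiffAt (I.cl R - 1).contDiff.contDiffAt]
  rw [← R.norm_iteratedFDeriv_comp_right, R.norm_map] at h1
  have h3 := mul_le_mul_of_nonneg_right (norm_add_le (iteratedFDeriv ℝ k ((fun z => P z - z) ∘ R) y)
    (iteratedFDeriv ℝ k (I.cl R - 1 : E4 →L[ℝ] E4) y)) (by positivity : 0 ≤ (‖y‖ + 1) ^ k)
  linarith

theorem pol_c (P : E4 → E4) (γ R : Iso) (hP : Continuous P) (hγ : ∀ x, γ x = x → x = 0)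
    (he : ∀ x, P (γ x) = γ (P x)) (j : Fin 4) : ∫ y in B, P (R y) j = 0 := by
  have h1 : γ (∫ y in B, P y) = ∫ y in B, P y := by
    have := (I.cl γ).integral_comp_comm (intBv hP)
    have e : ∀ y, I.cl γ (P y) = P (γ y) := fun y => (he y).symm
    simp only [e] at this
    rw [rotB γ P] at this
    exact this.symm
  have h2 := (EuclideanSpace.proj j : E4 →L[ℝ] ℝ).integral_comp_comm (intBv hP)
  rw [hγ _ h1, map_zero] at h2
  rw [rotB R fun y => P y j]
  exact h2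

theorem pol : PolStmt :=
  ⟨pol_a, fun _ _ _ R h hε hR => h.rot R hε hR, pol_c⟩

end Crest.Agent.N207.Ph.Rg

end
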